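import Vale.Agent.P322.CertLine

/-!
# P322: explicit forms of the scalar quantities `R1`, `R2`
-/

namespace Vale.Agent.P322

open Real Finset

noncomputable section

/-- `W(x) = ρ² Φ(x) - Φ(ρ x)` -/
def WW (ρ x : ℝ) : ℝ := ρ ^ 2 * Phi x - Phi (ρ * x)

theorem avg_hb {c e : ℝ} (hc1 : -1 < c) (hc2 : c < 1) (h1 : |e| < 1 - c) (h2 : |e| < 1 + c) :
    (hb (c + e) + hb (c - e)) / 2 =
      hb c - ((1 + c) / 2 * Phi (e / (1 + c)) + (1 - c) / 2 * Phi (e / (1 - c))) := by
  have h := Phi_add_Phi hc1 hc2 h1 h2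
  have h1' := abs_lt.mp h1
  have h2' := abs_lt.mp h2
  rw [hb_eq_log (w := c + e) (by linarith) (by linarith),
    hb_eq_log (w := c - e) (by linarith) (by linarith), hb_eq_log hc1 hc2]
  linarith

/-- lead's form of `R1` -/
theorem R1_eq {ρ u v p : ℝ} (hρ0 : 0 < ρ) (hρ1 : ρ ≤ 1) (hu : 0 < u) (huv : u < v)
    (hs : u + v ≤ 1) (hp0 : 0 < p) (hp1 : p ≤ 1) :
    R1 ρ (1 - 2 * u) (1 - 2 * v) p = p * (
      (u + v) / 2 * WW ρ (((v - u) / 2) / ((u + v) / 2)) +
      (1 - (u + v) / 2) * WW ρ (((v - u) / 2) / (1 - (u + v) / 2)) -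
      4 * kap ρ * p * ((v - u) / 2) ^ 2 +
      (1 - ρ ^ 2) * ((1 - (u + v) / 2) * Phi (((v - u) / 2) / (1 - (u + v) / 2)) -
        (1 / p - (u + v) / 2) * Phi (((v - u) / 2) / (1 / p - (u + v) / 2)))) := by
  set s := (u + v) / 2 with hsdef
  set z := (v - u) / 2 with hzdef
  have hs0 : 0 < s := by rw [hsdef]; linarith
  have hs1 : s ≤ 1 / 2 := by rw [hsdef]; linarith
  have hz0 : 0 < z := by rw [hzdef]; linarith
  have hzs : z < s := by rw [hzdef, hsdef]; linarith
  have hps : p * s ≤ s := mul_le_of_le_one_left hs0.le hp1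
  have hpz : p * z ≤ z := mul_le_of_le_one_left hz0.le hp1
  have hps0 : 0 < p * s := by positivity
  have hpz0 : 0 < p * z := by positivity
  have hpzs : p * z < p * s := mul_lt_mul_of_pos_left hzs hp0
  have e1 : 1 - 2 * u = (1 - 2 * s) + 2 * z := by rw [hsdef, hzdef]; ring
  have e2 : 1 - 2 * v = (1 - 2 * s) - 2 * z := by rw [hsdef, hzdef]; ring
  have hρz : ρ * z ≤ z := mul_le_of_le_one_left hz0.le hρ1
  have hρz0 : 0 < ρ * z := by positivity
  have k1 := avg_hb (c := 1 - 2 * s) (e := 2 * z) (by linarith) (by linarith)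
    (by rw [abs_of_pos (by linarith)]; linarith) (by rw [abs_of_pos (by linarith)]; linarith)
  have k2 := avg_hb (c := 1 - 2 * s) (e := 2 * (ρ * z)) (by linarith) (by linarith)
    (by rw [abs_of_pos (by linarith)]; linarith) (by rw [abs_of_pos (by linarith)]; linarith)
  have k3 := avg_hb (c := 1 - 2 * (p * s)) (e := 2 * (p * z)) (by linarith) (by linarith)
    (by rw [abs_of_pos (by linarith)]; linarith) (by rw [abs_of_pos (by linarith)]; linarith)
  have d1 : (1:ℝ) - s ≠ 0 := by linarith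
  have d2 : s ≠ 0 := hs0.ne'
  have d3 : (1:ℝ) - p * s ≠ 0 := by linarith
  have d4 : p ≠ 0 := hp0.ne'
  have f1 : 2 * z / (1 + (1 - 2 * s)) = z / (1 - s) := by
    rw [div_eq_div_iff (by intro h; apply d1; linarith) d1]; ring
  have f2 : 2 * z / (1 - (1 - 2 * s)) = z / s := by
    rw [div_eq_div_iff (by intro h; apply d2; linarith) d2]; ring
  have f3 : 2 * (ρ * z) / (1 + (1 - 2 * s)) = ρ * (z / (1 - s)) := by
    rw [show ρ * (z / (1 - s)) = ρ * z / (1 - s) by ring,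
      div_eq_div_iff (by intro h; apply d1; linarith) d1]
    ring
  have f4 : 2 * (ρ * z) / (1 - (1 - 2 * s)) = ρ * (z / s) := by
    rw [show ρ * (z / s) = ρ * z / s by ring,
      div_eq_div_iff (by intro h; apply d2; linarith) d2]
    ring
  have f5 : 2 * (p * z) / (1 + (1 - 2 * (p * s))) = z / (1 / p - s) := by
    have d5 : 1 / p - s ≠ 0 := by
      intro h
      apply d3
      have : p * (1 / p - s) = 1 - p * s := by field_simp
      rw [← this, h, mul_zero]
    rw [div_eq_div_iff (by intro h; apply d3; linarith) d5]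
    field_simp
    ring
  have f6 : 2 * (p * z) / (1 - (1 - 2 * (p * s))) = z / s := by
    rw [div_eq_div_iff (by intro h; apply hps0.ne'; linarith) d2]; ring
  rw [f1, f2] at k1
  rw [f3, f4] at k2
  rw [f5, f6] at k3
  have g1 : HS ρ (1 - 2 * s + 2 * z) (1 - 2 * s - 2 * z) =
      (hb (1 - 2 * s + 2 * (ρ * z)) + hb (1 - 2 * s - 2 * (ρ * z))) / 2 := by
    unfold HS
    congr 2 <;> congr 1 <;> ring
  unfold R1 HH WW
  rw [e1, e2, g1, k2, k1]
  have g2 : 1 - p * (1 - (1 - 2 * s + 2 * z)) = 1 - 2 * (p * s) + 2 * (p * z) := by ring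
  have g3 : 1 - p * (1 - (1 - 2 * s - 2 * z)) = 1 - 2 * (p * s) - 2 * (p * z) := by ring
  have g4 : 1 - p * (1 - (1 - 2 * s + 2 * z + (1 - 2 * s - 2 * z)) / 2) = 1 - 2 * (p * s) := by ring
  rw [g2, g3, g4]
  have k3' : hb (1 - 2 * (p * s) + 2 * (p * z)) = 2 * (hb (1 - 2 * (p * s)) -
      ((1 + (1 - 2 * (p * s))) / 2 * Phi (z / (1 / p - s)) +
        (1 - (1 - 2 * (p * s))) / 2 * Phi (z / s))) - hb (1 - 2 * (p * s) - 2 * (p * z)) := by
    linarith
  rw [k3']
  have g5 : p * (1 / p) = 1 := by field_simp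
  generalize hb (1 - 2 * (p * s)) = h1
  generalize hb (1 - 2 * (p * s) - 2 * (p * z)) = h2
  generalize Phi (z / (1 / p - s)) = h3
  linear_combination (1 - ρ ^ 2) * h3 * g5

/-- the binary entropy form of `R2` -/
theorem R2_eq {ρ u v p : ℝ} (hp0 : p ≠ 0) :
    R2 ρ (1 - 2 * u) (1 - 2 * v) p = p / 2 * (
      (binEntropy u - (1 - ρ ^ 2) / p * binEntropy (p * u) - 4 * kap ρ * (u * (1 - p * u))) +
      (binEntropy v - (1 - ρ ^ 2) / p * binEntropy (p * v) - 4 * kap ρ * (v * (1 - p * v)))) := by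
  have key : ∀ t : ℝ, hb (1 - 2 * t) = binEntropy t := by
    intro t
    unfold hb
    have : (1 + (1 - 2 * t)) / 2 = 1 - t := by ring
    rw [this, Real.binEntropy_one_sub]
  unfold R2 HH
  have g1 : ∀ t : ℝ, 1 - p * (1 - (1 - 2 * t)) = 1 - 2 * (p * t) := by intro t; ring
  rw [g1, g1, key, key, key, key]
  field_simp
  ring

end

end Vale.Agent.P322
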