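import Vale.Agent.P322.Reg2A
import Vale.Agent.P322.RForms

/-!
# P322: monotonicity in `ρ` of the inequality (A)
-/

namespace Vale.Agent.P322

open Real Set

noncomputable section

/-! ### one-variable facts -/

theorem W_ge {v : ℝ} (h0 : 0 ≤ v) (h1 : v < 1) : v ^ 4 / 6 ≤ 2 * La v - v * ath v := by
  -- first derivative
  have hD1 : ∀ t ∈ Icc (0:ℝ) v, 0 ≤ t / (1 - t ^ 2) - ath t - 2 * t ^ 3 / 3 := by
    intro t ht
    have key := le_of_deriv_nonneg (f := fun t => t / (1 - t ^ 2) - ath t - 2 * t ^ 3 / 3)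
      (f' := fun t => 2 * t ^ 2 / (1 - t ^ 2) ^ 2 - 2 * t ^ 2) (a := 0) (b := t) ht.1 ?_ ?_ ?_
    · simpa using key
    · intro x hx
      have hx1 : x < 1 := by linarith [hx.2, ht.2]
      have hp := one_sub_sq_pos (t := x) (by linarith [hx.1]) hx1
      have a1 : HasDerivAt (fun t : ℝ => 1 - t ^ 2) (-(2 * x)) x := by
        have := ((hasDerivAt_id x).pow 2).const_sub 1
        simpa using this
      have := (((hasDerivAt_id x).div a1 hp.ne').sub (hasDerivAt_ath (by linarith [hx.1]) hx1)).continuousAt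
      refine (this.sub ?_).continuousWithinAt
      fun_prop
    · intro x hx
      have hx1 : x < 1 := by linarith [hx.2, ht.2]
      have hp := one_sub_sq_pos (t := x) (by linarith [hx.1]) hx1
      have a1 : HasDerivAt (fun t : ℝ => 1 - t ^ 2) (-(2 * x)) x := by
        have := ((hasDerivAt_id x).pow 2).const_sub 1
        simpa using this
      have a2 := ((hasDerivAt_id x).div a1 hp.ne').sub (hasDerivAt_ath (by linarith [hx.1]) hx1)
      have a3 : HasDerivAt (fun t : ℝ => 2 * t ^ 3 / 3) (2 * x ^ 2) x := by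
        have := (((hasDerivAt_id x).pow 3).const_mul 2).div_const 3
        refine this.congr_deriv ?_
        simp; ring
      refine (a2.sub a3).congr_deriv ?_
      simp only [id]
      field_simp
      ring
    · intro x hx
      have hx1 : x < 1 := by linarith [hx.2, ht.2]
      have hp := one_sub_sq_pos (t := x) (by linarith [hx.1]) hx1
      have : 2 * x ^ 2 ≤ 2 * x ^ 2 / (1 - x ^ 2) ^ 2 := by
        rw [le_div_iff₀ (by positivity)]
        have h3 : (1 - x ^ 2) ^ 2 ≤ 1 := by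
          have : 0 ≤ x ^ 2 := sq_nonneg x
          nlinarith
        nlinarith [sq_nonneg x]
      linarith
  have key := le_of_deriv_nonneg (f := fun t => 2 * La t - t * ath t - t ^ 4 / 6)
      (f' := fun t => t / (1 - t ^ 2) - ath t - 2 * t ^ 3 / 3) (a := 0) (b := v) h0 ?_ ?_ ?_
  · have : (0:ℝ) ≤ 2 * La v - v * ath v - v ^ 4 / 6 := by simpa using key
    linarith
  · intro x hx
    have hx1 : x < 1 := by linarith [hx.2]
    have a1 := (hasDerivAt_La (t := x) (by linarith [hx.1]) hx1).continuousAt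
    have a2 := (hasDerivAt_ath (t := x) (by linarith [hx.1]) hx1).continuousAt
    exact (((continuousAt_const.mul a1).sub (continuousAt_id.mul a2)).sub
      (by fun_prop)).continuousWithinAt
  · intro x hx
    have hx1 : x < 1 := by linarith [hx.2]
    have hp := one_sub_sq_pos (t := x) (by linarith [hx.1]) hx1
    have a1 := (hasDerivAt_La (t := x) (by linarith [hx.1]) hx1).const_mul 2
    have a2 := (hasDerivAt_id x).mul (hasDerivAt_ath (t := x) (by linarith [hx.1]) hx1)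
    have a3 : HasDerivAt (fun t : ℝ => t ^ 4 / 6) (2 * x ^ 3 / 3) x := by
      have := ((hasDerivAt_id x).pow 4).div_const 6
      refine this.congr_deriv ?_
      simp; ring
    refine ((a1.sub a2).sub a3).congr_deriv ?_
    simp only [id]
    field_simp
    ring
  · intro x hx
    exact hD1 x ⟨hx.1.le, hx.2.le⟩

/-- `(2La v - v ath v)/v⁴` is increasing -/
theorem W_ratio {v w : ℝ} (h0 : 0 < v) (hvw : v ≤ w) (h1 : w < 1) :
    (2 * La v - v * ath v) / v ^ 4 ≤ (2 * La w - w * ath w) / w ^ 4 := by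
  have hD1 : ∀ t, 0 ≤ t → t < 1 → 0 ≤ 2 * t / (1 - t ^ 2) ^ 2 + 3 * ath t - 5 * t / (1 - t ^ 2) := by
    intro t ht0 ht1
    have key := le_of_deriv_nonneg
      (f := fun t => 2 * t / (1 - t ^ 2) ^ 2 + 3 * ath t - 5 * t / (1 - t ^ 2))
      (f' := fun t => 8 * t ^ 4 / (1 - t ^ 2) ^ 3) (a := 0) (b := t) ht0 ?_ ?_ ?_
    · simpa using key
    · intro x hx
      have hx1 : x < 1 := by linarith [hx.2]
      have hp := one_sub_sq_pos (t := x) (by linarith [hx.1]) hx1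
      have a1 : HasDerivAt (fun t : ℝ => 1 - t ^ 2) (-(2 * x)) x := by
        have := ((hasDerivAt_id x).pow 2).const_sub 1
        simpa using this
      have a2 : HasDerivAt (fun t : ℝ => 2 * t) 2 x := by
        simpa using (hasDerivAt_id x).const_mul 2
      have a3 : HasDerivAt (fun t : ℝ => 5 * t) 5 x := by
        simpa using (hasDerivAt_id x).const_mul 5
      exact (((a2.div (a1.pow 2) (pow_ne_zero 2 hp.ne')).add
        ((hasDerivAt_ath (by linarith [hx.1]) hx1).const_mul 3)).sub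
        (a3.div a1 hp.ne')).continuousAt.continuousWithinAt
    · intro x hx
      have hx1 : x < 1 := by linarith [hx.2]
      have hp := one_sub_sq_pos (t := x) (by linarith [hx.1]) hx1
      have a1 : HasDerivAt (fun t : ℝ => 1 - t ^ 2) (-(2 * x)) x := by
        have := ((hasDerivAt_id x).pow 2).const_sub 1
        simpa using this
      have a2 : HasDerivAt (fun t : ℝ => 2 * t) 2 x := by
        simpa using (hasDerivAt_id x).const_mul 2
      have a3 : HasDerivAt (fun t : ℝ => 5 * t) 5 x := by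
        simpa using (hasDerivAt_id x).const_mul 5
      refine (((a2.div (a1.pow 2) (pow_ne_zero 2 hp.ne')).add
        ((hasDerivAt_ath (by linarith [hx.1]) hx1).const_mul 3)).sub
        (a3.div a1 hp.ne')).congr_deriv ?_
      simp only [Pi.pow_apply]
      field_simp
      ring
    · intro x hx
      have hx1 : x < 1 := by linarith [hx.2]
      have hp := one_sub_sq_pos (t := x) (by linarith [hx.1]) hx1
      positivity
  have hD0 : ∀ t, 0 ≤ t → t < 1 → 0 ≤ t ^ 2 / (1 - t ^ 2) + 3 * t * ath t - 8 * La t := by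
    intro t ht0 ht1
    have key := le_of_deriv_nonneg
      (f := fun t => t ^ 2 / (1 - t ^ 2) + 3 * t * ath t - 8 * La t)
      (f' := fun t => 2 * t / (1 - t ^ 2) ^ 2 + 3 * ath t - 5 * t / (1 - t ^ 2))
      (a := 0) (b := t) ht0 ?_ ?_ ?_
    · simpa using key
    · intro x hx
      have hx1 : x < 1 := by linarith [hx.2]
      have hp := one_sub_sq_pos (t := x) (by linarith [hx.1]) hx1
      have a1 : HasDerivAt (fun t : ℝ => 1 - t ^ 2) (-(2 * x)) x := by
        have := ((hasDerivAt_id x).pow 2).const_sub 1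
        simpa using this
      have a2 : HasDerivAt (fun t : ℝ => t ^ 2) (2 * x) x := by
        simpa using hasDerivAt_pow 2 x
      have a3 : HasDerivAt (fun t : ℝ => 3 * t) 3 x := by
        simpa using (hasDerivAt_id x).const_mul 3
      exact (((a2.div a1 hp.ne').add (a3.mul (hasDerivAt_ath (by linarith [hx.1]) hx1))).sub
        ((hasDerivAt_La (by linarith [hx.1]) hx1).const_mul 8)).continuousAt.continuousWithinAt
    · intro x hx
      have hx1 : x < 1 := by linarith [hx.2]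
      have hp := one_sub_sq_pos (t := x) (by linarith [hx.1]) hx1
      have a1 : HasDerivAt (fun t : ℝ => 1 - t ^ 2) (-(2 * x)) x := by
        have := ((hasDerivAt_id x).pow 2).const_sub 1
        simpa using this
      have a2 : HasDerivAt (fun t : ℝ => t ^ 2) (2 * x) x := by
        simpa using hasDerivAt_pow 2 x
      have a3 : HasDerivAt (fun t : ℝ => 3 * t) 3 x := by
        simpa using (hasDerivAt_id x).const_mul 3
      refine (((a2.div a1 hp.ne').add (a3.mul (hasDerivAt_ath (by linarith [hx.1]) hx1))).sub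
        ((hasDerivAt_La (by linarith [hx.1]) hx1).const_mul 8)).congr_deriv ?_
      field_simp
      ring
    · intro x hx
      exact hD1 x hx.1.le (by linarith [hx.2])
  refine le_of_deriv_nonneg (f := fun t => (2 * La t - t * ath t) / t ^ 4)
    (f' := fun t => (t ^ 2 / (1 - t ^ 2) + 3 * t * ath t - 8 * La t) / t ^ 5) hvw ?_ ?_ ?_
  · intro x hx
    have hx0 : 0 < x := by linarith [hx.1]
    have hx1 : x < 1 := by linarith [hx.2]
    have b1 := ((hasDerivAt_La (t := x) (by linarith) hx1).const_mul 2).sub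
      ((hasDerivAt_id x).mul (hasDerivAt_ath (t := x) (by linarith) hx1))
    have b2 : HasDerivAt (fun t : ℝ => t ^ 4) (4 * x ^ 3) x := by
      simpa using hasDerivAt_pow 4 x
    exact (b1.div b2 (by positivity)).continuousAt.continuousWithinAt
  · intro x hx
    have hx0 : 0 < x := by linarith [hx.1]
    have hx1 : x < 1 := by linarith [hx.2]
    have hp := one_sub_sq_pos (t := x) (by linarith [hx.1]) hx1
    have b1 := ((hasDerivAt_La (t := x) (by linarith) hx1).const_mul 2).sub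
      ((hasDerivAt_id x).mul (hasDerivAt_ath (t := x) (by linarith) hx1))
    have b2 : HasDerivAt (fun t : ℝ => t ^ 4) (4 * x ^ 3) x := by
      simpa using hasDerivAt_pow 4 x
    refine (b1.div b2 (by positivity)).congr_deriv ?_
    simp only [id, Pi.sub_apply, Pi.mul_apply]
    field_simp
    ring
  · intro x hx
    have hx0 : 0 < x := by linarith [hx.1]
    have := hD0 x hx0.le (by linarith [hx.2])
    positivity

/-- `log (1+u) ≤ u(6+u)/(6+4u)` -/
theorem log_one_add_le_pade {u : ℝ} (hu : 0 ≤ u) : log (1 + u) ≤ u * (6 + u) / (6 + 4 * u) := by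
  have key := le_of_deriv_nonneg (f := fun u => u * (6 + u) / (6 + 4 * u) - log (1 + u))
      (f' := fun u => 4 * u ^ 3 / ((6 + 4 * u) ^ 2 * (1 + u))) (a := 0) (b := u) hu ?_ ?_ ?_
  · have : (0:ℝ) ≤ u * (6 + u) / (6 + 4 * u) - log (1 + u) := by simpa using key
    linarith
  · intro x hx
    have hx0 : 0 ≤ x := hx.1
    have c1 : (6 + 4 * x : ℝ) ≠ 0 := by positivity
    have c2 : (1 + x : ℝ) ≠ 0 := by positivity
    apply ContinuousAt.continuousWithinAt
    fun_prop (disch := assumption)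
  · intro x hx
    have hx0 : 0 < x := hx.1
    have c1 : (6 + 4 * x : ℝ) ≠ 0 := by positivity
    have c2 : (1 + x : ℝ) ≠ 0 := by positivity
    have a1 : HasDerivAt (fun u : ℝ => u * (6 + u)) (1 * (6 + x) + x * 1) x :=
      (hasDerivAt_id x).mul ((hasDerivAt_id x).const_add 6)
    have a2 : HasDerivAt (fun u : ℝ => 6 + 4 * u) 4 x := by
      simpa using ((hasDerivAt_id x).const_mul 4).const_add 6
    have a3 : HasDerivAt (fun u : ℝ => log (1 + u)) (1 / (1 + x)) x :=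
      ((hasDerivAt_id x).const_add 1).log c2
    refine ((a1.div a2 c1).sub a3).congr_deriv ?_
    field_simp
    ring
  · intro x hx
    have hx0 : 0 < x := hx.1
    positivity

theorem W_num : 2 * La (39 / 50) - 39 / 50 * ath (39 / 50) ≤ (39 / 50 : ℝ) ^ 4 / 3 := by
  have e1 : 2 * La (39 / 50) - 39 / 50 * ath (39 / 50) =
      -(139 / 100) * log (89 / 50) - (61 / 100) * log (11 / 50) := by
    unfold La ath
    have h1 : (1 : ℝ) - (39 / 50) ^ 2 = 89 / 50 * (11 / 50) := by norm_num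
    have h2 : (1 : ℝ) + 39 / 50 = 89 / 50 := by norm_num
    have h3 : (1 : ℝ) - 39 / 50 = 11 / 50 := by norm_num
    rw [h1, h2, h3, Real.log_mul (by norm_num) (by norm_num)]
    ring
  rw [e1]
  have l2 := Real.log_two_gt_d9
  have l2' := Real.log_two_lt_d9
  have p1 := log_one_add_le_pade (u := 11 / 89) (by norm_num)
  have p2 := log_one_add_le_pade (u := 3 / 22) (by norm_num)
  have e2 : log (89 / 50) = log 2 - log (1 + 11 / 89) := by
    rw [← Real.log_div (by norm_num) (by norm_num)]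
    norm_num
  have e3 : log (11 / 50) = -(2 * log 2) - log (1 + 3 / 22) := by
    have : (11 / 50 : ℝ) = 1 / (2 ^ 2 * (1 + 3 / 22)) := by norm_num
    rw [this, one_div, Real.log_inv, Real.log_mul (by norm_num) (by norm_num), Real.log_pow]
    push_cast
    ring
  rw [e2, e3]
  norm_num at p1 p2 ⊢
  linarith

theorem W_le {v : ℝ} (h0 : 0 < v) (h1 : v ≤ 39 / 50) : 2 * La v - v * ath v ≤ v ^ 4 / 3 := by
  have h := W_ratio h0 h1 (by norm_num)
  have h2 : (2 * La (39 / 50) - 39 / 50 * ath (39 / 50)) / (39 / 50 : ℝ) ^ 4 ≤ 1 / 3 := by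
    rw [div_le_iff₀ (by norm_num)]
    have := W_num
    linarith
  have h3 := h.trans h2
  rw [div_le_iff₀ (by positivity)] at h3
  linarith

theorem hasDerivAt_omega {x : ℝ} (h0 : 0 < x) (h1 : x < 1) :
    HasDerivAt (fun t : ℝ => Phi t / t ^ 2) ((2 * La x - x * ath x) / x ^ 3) x := by
  have b2 : HasDerivAt (fun t : ℝ => t ^ 2) (2 * x) x := by
    simpa using hasDerivAt_pow 2 x
  refine ((hasDerivAt_Phi (by linarith) h1).div b2 (by positivity)).congr_deriv ?_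
  rw [Phi_eq (by linarith) h1]
  field_simp
  ring

theorem om_lower {v w : ℝ} (h0 : 0 < v) (hvw : v ≤ w) (h1 : w < 1) :
    (w ^ 2 - v ^ 2) / 12 ≤ Phi w / w ^ 2 - Phi v / v ^ 2 := by
  have key := le_of_deriv_nonneg (f := fun t => Phi t / t ^ 2 - t ^ 2 / 12)
      (f' := fun t => (2 * La t - t * ath t) / t ^ 3 - t / 6) (a := v) (b := w) hvw ?_ ?_ ?_
  · linarith
  · intro x hx
    have hx0 : 0 < x := by linarith [hx.1]
    have hx1 : x < 1 := by linarith [hx.2]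
    exact ((hasDerivAt_omega hx0 hx1).continuousAt.sub (by fun_prop)).continuousWithinAt
  · intro x hx
    have hx0 : 0 < x := by linarith [hx.1]
    have hx1 : x < 1 := by linarith [hx.2]
    have a3 : HasDerivAt (fun t : ℝ => t ^ 2 / 12) (x / 6) x := by
      refine (((hasDerivAt_id x).pow 2).div_const 12).congr_deriv ?_
      simp; ring
    exact (hasDerivAt_omega hx0 hx1).sub a3
  · intro x hx
    have hx0 : 0 < x := by linarith [hx.1]
    have hx1 : x < 1 := by linarith [hx.2]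
    have := W_ge hx0.le hx1
    rw [sub_nonneg, le_div_iff₀ (by positivity)]
    calc x / 6 * x ^ 3 = x ^ 4 / 6 := by ring
      _ ≤ _ := this

theorem om_upper {v w : ℝ} (h0 : 0 < v) (hvw : v ≤ w) (h1 : w ≤ 39 / 50) :
    Phi w / w ^ 2 - Phi v / v ^ 2 ≤ (w ^ 2 - v ^ 2) / 6 := by
  have key := le_of_deriv_nonpos (f := fun t => Phi t / t ^ 2 - t ^ 2 / 6)
      (f' := fun t => (2 * La t - t * ath t) / t ^ 3 - t / 3) (a := v) (b := w) hvw ?_ ?_ ?_
  · linarith
  · intro x hx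
    have hx0 : 0 < x := by linarith [hx.1]
    have hx1 : x < 1 := by linarith [hx.2]
    exact ((hasDerivAt_omega hx0 hx1).continuousAt.sub (by fun_prop)).continuousWithinAt
  · intro x hx
    have hx0 : 0 < x := by linarith [hx.1]
    have hx1 : x < 1 := by linarith [hx.2]
    have a3 : HasDerivAt (fun t : ℝ => t ^ 2 / 6) (x / 3) x := by
      refine (((hasDerivAt_id x).pow 2).div_const 6).congr_deriv ?_
      simp; ring
    exact (hasDerivAt_omega hx0 hx1).sub a3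
  · intro x hx
    have hx0 : 0 < x := by linarith [hx.1]
    have := W_le hx0 (by linarith [hx.2])
    rw [sub_nonpos, div_le_iff₀ (by positivity)]
    calc _ ≤ x ^ 4 / 3 := this
      _ = x / 3 * x ^ 3 := by ring

/-- `Φ(ξ) ≤ ξ²/2 + (ln 2 - 1/2) ξ⁴` -/
theorem Phi_le_quartic {x : ℝ} (h0 : 0 < x) (h1 : x ≤ 1) :
    Phi x ≤ x ^ 2 / 2 + (log 2 - 1 / 2) * x ^ 4 := by
  have hD1 : ∀ t, 0 ≤ t → t < 1 → 0 ≤ t / (1 - t ^ 2) - 3 * ath t + 2 * t := by
    intro t ht0 ht1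
    have key := le_of_deriv_nonneg
      (f := fun t => t / (1 - t ^ 2) - 3 * ath t + 2 * t)
      (f' := fun t => 2 * t ^ 4 / (1 - t ^ 2) ^ 2) (a := 0) (b := t) ht0 ?_ ?_ ?_
    · simpa using key
    · intro x hx
      have hx1 : x < 1 := by linarith [hx.2]
      have hp := one_sub_sq_pos (t := x) (by linarith [hx.1]) hx1
      have a1 : HasDerivAt (fun t : ℝ => 1 - t ^ 2) (-(2 * x)) x := by
        have := ((hasDerivAt_id x).pow 2).const_sub 1
        simpa using this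
      have a2 : HasDerivAt (fun t : ℝ => 2 * t) 2 x := by
        simpa using (hasDerivAt_id x).const_mul 2
      exact ((((hasDerivAt_id x).div a1 hp.ne').sub
        ((hasDerivAt_ath (by linarith [hx.1]) hx1).const_mul 3)).add a2).continuousAt.continuousWithinAt
    · intro x hx
      have hx1 : x < 1 := by linarith [hx.2]
      have hp := one_sub_sq_pos (t := x) (by linarith [hx.1]) hx1
      have a1 : HasDerivAt (fun t : ℝ => 1 - t ^ 2) (-(2 * x)) x := by
        have := ((hasDerivAt_id x).pow 2).const_sub 1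
        simpa using this
      have a2 : HasDerivAt (fun t : ℝ => 2 * t) 2 x := by
        simpa using (hasDerivAt_id x).const_mul 2
      refine ((((hasDerivAt_id x).div a1 hp.ne').sub
        ((hasDerivAt_ath (by linarith [hx.1]) hx1).const_mul 3)).add a2).congr_deriv ?_
      simp only [id]
      field_simp
      ring
    · intro x hx
      have hx1 : x < 1 := by linarith [hx.2]
      have hp := one_sub_sq_pos (t := x) (by linarith [hx.1]) hx1
      positivity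
  have hD0 : ∀ t, 0 ≤ t → t < 1 → 0 ≤ 4 * La t - 3 * t * ath t + t ^ 2 := by
    intro t ht0 ht1
    have key := le_of_deriv_nonneg
      (f := fun t => 4 * La t - 3 * t * ath t + t ^ 2)
      (f' := fun t => t / (1 - t ^ 2) - 3 * ath t + 2 * t)
      (a := 0) (b := t) ht0 ?_ ?_ ?_
    · simpa using key
    · intro x hx
      have hx1 : x < 1 := by linarith [hx.2]
      have a2 : HasDerivAt (fun t : ℝ => t ^ 2) (2 * x) x := by
        simpa using hasDerivAt_pow 2 x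
      have a3 : HasDerivAt (fun t : ℝ => 3 * t) 3 x := by
        simpa using (hasDerivAt_id x).const_mul 3
      exact ((((hasDerivAt_La (by linarith [hx.1]) hx1).const_mul 4).sub
        (a3.mul (hasDerivAt_ath (by linarith [hx.1]) hx1))).add a2).continuousAt.continuousWithinAt
    · intro x hx
      have hx1 : x < 1 := by linarith [hx.2]
      have hp := one_sub_sq_pos (t := x) (by linarith [hx.1]) hx1
      have a2 : HasDerivAt (fun t : ℝ => t ^ 2) (2 * x) x := by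
        simpa using hasDerivAt_pow 2 x
      have a3 : HasDerivAt (fun t : ℝ => 3 * t) 3 x := by
        simpa using (hasDerivAt_id x).const_mul 3
      refine ((((hasDerivAt_La (by linarith [hx.1]) hx1).const_mul 4).sub
        (a3.mul (hasDerivAt_ath (by linarith [hx.1]) hx1))).add a2).congr_deriv ?_
      field_simp
      ring
    · intro x hx
      exact hD1 x hx.1.le (by linarith [hx.2])
  have key := le_of_deriv_nonneg (f := fun t => (Phi t - t ^ 2 / 2) / t ^ 4)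
    (f' := fun t => (4 * La t - 3 * t * ath t + t ^ 2) / t ^ 5) (a := x) (b := 1) h1 ?_ ?_ ?_
  · have e : Phi 1 = log 2 := by
      unfold Phi; norm_num
    simp only [e] at key
    norm_num at key
    rw [div_le_iff₀ (by positivity)] at key
    linarith
  · intro t ht
    have ht0 : 0 < t := by linarith [ht.1]
    have : t ^ 4 ≠ 0 := by positivity
    have hc := continuous_Phi.continuousAt (x := t)
    apply ContinuousAt.continuousWithinAt
    exact (hc.sub (by fun_prop)).div (by fun_prop) this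
  · intro t ht
    have ht0 : 0 < t := by linarith [ht.1]
    have ht1 : t < 1 := ht.2
    have b1 : HasDerivAt (fun t : ℝ => t ^ 2 / 2) t t := by
      refine (((hasDerivAt_id t).pow 2).div_const 2).congr_deriv ?_
      simp
    have b2 : HasDerivAt (fun t : ℝ => t ^ 4) (4 * t ^ 3) t := by
      simpa using hasDerivAt_pow 4 t
    refine (((hasDerivAt_Phi (by linarith) ht1).sub b1).div b2 (by positivity)).congr_deriv ?_
    simp only [Pi.sub_apply]
    rw [Phi_eq (by linarith) ht1]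
    field_simp
    ring
  · intro t ht
    have ht0 : 0 < t := by linarith [ht.1]
    have := hD0 t ht0.le ht.2
    positivity



theorem U1_nonneg {x : ℝ} (h0 : 0 < x) (h1 : x ≤ 1 / 3) :
    0 ≤ (7 / 5 - 4 * (483 / 2500) - (483 / 2500 * ((1 + x ^ 3) * (1 + x)) + x ^ 3 / 9)) *
        (3 * x * (2 + x)) +
      ((-(1 + x) ^ 2 / 2 + (4 * (483 / 2500) - 2 / 5) * x - x ^ 2 / 3) * (3 * x * (2 + x)) +
        (1 + x ^ 3) * (1 + x)) := by
  have a1 : 0 ≤ 1 / 3 - x := by linarith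
  have key : (7 / 5 - 4 * (483 / 2500) - (483 / 2500 * ((1 + x ^ 3) * (1 + x)) + x ^ 3 / 9)) *
        (3 * x * (2 + x)) +
      ((-(1 + x) ^ 2 / 2 + (4 * (483 / 2500) - 2 / 5) * x - x ^ 2 / 3) * (3 * x * (2 + x)) +
        (1 + x ^ 3) * (1 + x)) =
      729*(1/3-x)^6 + (1130193/250)*x*(1/3-x)^5 + (28135269/2500)*x^2*(1/3-x)^4 +
      (7107129/500)*x^3*(1/3-x)^3 + (23402289/2500)*x^4*(1/3-x)^2 +
      (1787132/625)*x^5*(1/3-x) + (156149/625)*x^6 := by
    ring
  rw [key]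
  positivity

theorem U2_nonneg {x : ℝ} (h0 : 1 / 3 ≤ x) (h1 : x ≤ 1) :
    0 ≤ 256 * x ^ 4 * ((7 / 5 - 4 * (483 / 2500)) * (3 * x * (2 + x))) +
      16 * x ^ 2 * (1 + x) ^ 2 * ((-(1 + x) ^ 2 / 2 + (4 * (483 / 2500) - 2 / 5) * x - x ^ 2 / 3) *
        (3 * x * (2 + x)) + (1 + x ^ 3) * (1 + x)) -
      (1 + x) ^ 4 * ((483 / 2500 * ((1 + x ^ 3) * (1 + x)) + x ^ 3 / 9) * (3 * x * (2 + x))) := by
  have a1 : 0 ≤ x - 1 / 3 := by linarith
  have a2 : 0 ≤ 1 - x := by linarith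
  have key : 256 * x ^ 4 * ((7 / 5 - 4 * (483 / 2500)) * (3 * x * (2 + x))) +
      16 * x ^ 2 * (1 + x) ^ 2 * ((-(1 + x) ^ 2 / 2 + (4 * (483 / 2500) - 2 / 5) * x - x ^ 2 / 3) *
        (3 * x * (2 + x)) + (1 + x ^ 3) * (1 + x)) -
      (1 + x) ^ 4 * ((483 / 2500 * ((1 + x ^ 3) * (1 + x)) + x ^ 3 / 9) * (3 * x * (2 + x))) =
      (156149/2500)*(1-x)^10 + (876818/625)*(x-1/3)*(1-x)^9 + (2723103/200)*(x-1/3)^2*(1-x)^8 +
      (93982617/1250)*(x-1/3)^3*(1-x)^7 + (10424174229/40000)*(x-1/3)^4*(1-x)^6 +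
      (737454699/1250)*(x-1/3)^5*(1-x)^5 + (8810328771/10000)*(x-1/3)^6*(1-x)^4 +
      (17124502329/20000)*(x-1/3)^7*(1-x)^3 + (20731887387/40000)*(x-1/3)^8*(1-x)^2 +
      (3529365291/20000)*(x-1/3)^9*(1-x) + (256331709/10000)*(x-1/3)^10 := by
    ring
  rw [key]
  positivity

/-- the polynomial inequality in `η` -/
theorem P_nonneg {x e : ℝ} (h0 : 0 < x) (h1 : x ≤ 1) (he0 : 0 ≤ e) (he1 : e ≤ 1)
    (he2 : 16 * x ^ 2 * e ≤ (1 + x) ^ 2) :
    0 ≤ (7 / 5 - 4 * (483 / 2500)) + e * (-(1 + x) ^ 2 / 2 + (4 * (483 / 2500) - 2 / 5) * x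
      - x ^ 2 / 3 + (1 + x ^ 3) * (1 + x) / (3 * x * (2 + x))) -
      e ^ 2 * (483 / 2500 * ((1 + x ^ 3) * (1 + x)) + x ^ 3 / 9) := by
  set c := (7 / 5 - 4 * (483 / 2500) : ℝ) with hc
  set b := (-(1 + x) ^ 2 / 2 + (4 * (483 / 2500) - 2 / 5) * x
      - x ^ 2 / 3 + (1 + x ^ 3) * (1 + x) / (3 * x * (2 + x))) with hb
  set a := (483 / 2500 * ((1 + x ^ 3) * (1 + x)) + x ^ 3 / 9) with ha
  have hc0 : 0 ≤ c := by rw [hc]; norm_num
  have ha0 : 0 ≤ a := by rw [ha]; positivity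
  have ht : 0 < 3 * x * (2 + x) := by positivity
  have hbt : b * (3 * x * (2 + x)) = (-(1 + x) ^ 2 / 2 + (4 * (483 / 2500) - 2 / 5) * x
      - x ^ 2 / 3) * (3 * x * (2 + x)) + (1 + x ^ 3) * (1 + x) := by
    rw [hb]; field_simp
  rcases le_total x (1 / 3) with hx | hx
  · have hU := U1_nonneg h0 hx
    rw [← hbt, ← ha, ← hc, ← add_mul] at hU
    have h2 : 0 ≤ c - a + b := nonneg_of_mul_nonneg_left hU ht
    nlinarith [mul_nonneg he0 (sub_nonneg.mpr he1), mul_nonneg ha0 (mul_nonneg he0 (sub_nonneg.mpr he1)),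
      mul_nonneg he0 h2, mul_nonneg (sub_nonneg.mpr he1) hc0]
  · have hU := U2_nonneg hx h1
    rw [← hbt, ← ha, ← hc] at hU
    have hU' : 0 ≤ (256 * x ^ 4 * c + 16 * x ^ 2 * (1 + x) ^ 2 * b - (1 + x) ^ 4 * a) *
        (3 * x * (2 + x)) := by
      calc _ ≤ _ := hU
        _ = _ := by ring
    have h2 : 0 ≤ 256 * x ^ 4 * c + 16 * x ^ 2 * (1 + x) ^ 2 * b - (1 + x) ^ 4 * a :=
      nonneg_of_mul_nonneg_left hU' ht
    -- put e1 = (1+x)^2/(16 x^2)
    set e1 := (1 + x) ^ 2 / (16 * x ^ 2) with he1'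
    have hx2 : 0 < 16 * x ^ 2 := by positivity
    have he1p : 0 < e1 := by rw [he1']; positivity
    have hee : e ≤ e1 := by
      rw [he1', le_div_iff₀ hx2]; linarith
    have h3 : 256 * x ^ 4 * c + 16 * x ^ 2 * (1 + x) ^ 2 * b - (1 + x) ^ 4 * a =
        256 * x ^ 4 * (c + e1 * b - e1 ^ 2 * a) := by
      rw [he1']; field_simp; ring
    rw [h3] at h2
    have h4 : 0 ≤ c + e1 * b - e1 ^ 2 * a := nonneg_of_mul_nonneg_right h2 (by positivity)
    -- e1 * P(e) ≥ (e1 - e) c + e P(e1) + a e e1 (e1 - e)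
    have h5 : e1 * (c + e * b - e ^ 2 * a) =
        (e1 - e) * c + e * (c + e1 * b - e1 ^ 2 * a) + a * e * e1 * (e1 - e) := by ring
    have h6 : 0 ≤ e1 * (c + e * b - e ^ 2 * a) := by
      rw [h5]
      have : 0 ≤ e1 - e := by linarith
      positivity
    exact nonneg_of_mul_nonneg_right h6 he1p

theorem F_nonneg {x y L Z : ℝ} (hx0 : 0 < x) (hx1 : x ≤ 1) (hy0 : 0 < y) (hyx : y ≤ x ^ 2)
    (hy1 : 16 * y ≤ (1 + x) ^ 2) (hL1 : 2 * x ≤ (2 + x) * L) (hL2 : L ≤ x)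
    (hZ : 2 * (1 - x) ≤ (1 + x) * Z) :
    0 ≤ L + x * Z / (1 + x) - y / (2 * x) - 483 / 2500 * (y ^ 2 * (1 + x ^ 3) / (x ^ 3 * (1 + x))) -
      (483 / 2500 + 1 / 15 + y / 12) * (4 * (x - y) / (1 + x) ^ 2) -
      4 / 3 * (L + y / 2 + y ^ 2 / 3) / (1 + x) ^ 2 + L * (y * (1 + x ^ 3) / (6 * x ^ 3 * (1 + x))) := by
  set e := y / x ^ 2 with he
  have hx2 : 0 < x ^ 2 := by positivity
  have hy : y = e * x ^ 2 := by rw [he]; field_simp
  have he0 : 0 ≤ e := by rw [he]; positivity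
  have he1 : e ≤ 1 := by rw [he, div_le_one hx2]; exact hyx
  have hP := P_nonneg hx0 hx1 he0 he1 (by rw [hy] at hy1; linarith)
  set l := L / x with hl
  have hLl : L = l * x := by rw [hl]; field_simp
  have hl1 : 2 / (2 + x) ≤ l := by
    rw [div_le_iff₀ (by positivity)]
    rw [hLl] at hL1
    have : 2 * x ≤ (l * (2 + x)) * x := by linarith
    exact le_of_mul_le_mul_right this hx0
  have hl2 : l ≤ 1 := by
    rw [hl, div_le_one hx0]; exact hL2
  have key : L + x * Z / (1 + x) - y / (2 * x) -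
      483 / 2500 * (y ^ 2 * (1 + x ^ 3) / (x ^ 3 * (1 + x))) -
      (483 / 2500 + 1 / 15 + y / 12) * (4 * (x - y) / (1 + x) ^ 2) -
      4 / 3 * (L + y / 2 + y ^ 2 / 3) / (1 + x) ^ 2 + L * (y * (1 + x ^ 3) / (6 * x ^ 3 * (1 + x))) =
      x / (1 + x) ^ 2 * (((7 / 5 - 4 * (483 / 2500)) + e * (-(1 + x) ^ 2 / 2 +
      (4 * (483 / 2500) - 2 / 5) * x
      - x ^ 2 / 3 + (1 + x ^ 3) * (1 + x) / (3 * x * (2 + x))) -
      e ^ 2 * (483 / 2500 * ((1 + x ^ 3) * (1 + x)) + x ^ 3 / 9)) +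
      ((l * (2 + x) - 2) * x + (1 - l) / 3 + ((1 + x) * Z - 2 * (1 - x)) +
        e * ((1 + x ^ 3) * (1 + x) / (6 * x)) * (l - 2 / (2 + x)))) := by
    rw [hy, hLl]
    field_simp
    ring
  rw [key]
  have q1 : 0 ≤ (l * (2 + x) - 2) * x := by
    apply mul_nonneg _ hx0.le
    rw [div_le_iff₀ (by positivity)] at hl1
    linarith
  have q2 : 0 ≤ (1 - l) / 3 := by linarith
  have q3 : 0 ≤ (1 + x) * Z - 2 * (1 - x) := by linarith
  have q4 : 0 ≤ e * ((1 + x ^ 3) * (1 + x) / (6 * x)) * (l - 2 / (2 + x)) := by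
    apply mul_nonneg _ (by linarith)
    positivity
  have q5 : 0 ≤ x / (1 + x) ^ 2 := by positivity
  exact mul_nonneg q5 (by linarith)



theorem La_le_poly {s : ℝ} (h0 : 0 ≤ s) (h1 : s ≤ 1 / 2) : La s ≤ s ^ 2 / 2 + s ^ 4 / 3 := by
  have key := le_of_deriv_nonneg (f := fun t => t ^ 2 / 2 + t ^ 4 / 3 - La t)
      (f' := fun t => t + 4 * t ^ 3 / 3 - t / (1 - t ^ 2)) (a := 0) (b := s) h0 ?_ ?_ ?_
  · have : (0:ℝ) ≤ s ^ 2 / 2 + s ^ 4 / 3 - La s := by simpa using key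
    linarith
  · intro x hx
    have hx1 : x < 1 := by linarith [hx.2]
    have a1 := (hasDerivAt_La (t := x) (by linarith [hx.1]) hx1).continuousAt
    have a2 : ContinuousAt (fun t : ℝ => t ^ 2 / 2 + t ^ 4 / 3) x := by fun_prop
    exact (a2.sub a1).continuousWithinAt
  · intro x hx
    have hx1 : x < 1 := by linarith [hx.2]
    have a1 := (hasDerivAt_La (t := x) (by linarith [hx.1]) hx1)
    have a2 : HasDerivAt (fun t : ℝ => t ^ 2 / 2 + t ^ 4 / 3) (x + 4 * x ^ 3 / 3) x := by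
      refine (((hasDerivAt_pow 2 x).div_const 2).add ((hasDerivAt_pow 4 x).div_const 3)).congr_deriv ?_
      norm_num
    exact a2.sub a1
  · intro x hx
    have hx0 : 0 < x := hx.1
    have hx1 : x < 1 / 2 := by linarith [hx.2]
    have hp : 0 < 1 - x ^ 2 := by nlinarith
    rw [sub_nonneg, div_le_iff₀ hp]
    have h2 : x ^ 2 ≤ 1 / 4 := by nlinarith
    have e : (x + 4 * x ^ 3 / 3) * (1 - x ^ 2) - x = x * x ^ 2 / 3 * (1 - 4 * x ^ 2) := by ring
    have : 0 ≤ x * x ^ 2 / 3 * (1 - 4 * x ^ 2) := by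
      apply mul_nonneg (by positivity)
      linarith
    linarith

theorem La_diff_le {s : ℝ} (h0 : 0 ≤ s) (h1 : s ≤ 1 / 2) :
    La s - La (39 / 50 * s) ≤ s ^ 2 / 5 + s ^ 4 / 4 := by
  have hcomp : ∀ x : ℝ, 0 ≤ x → x < 1 → HasDerivAt (fun t : ℝ => La (39 / 50 * t))
      (39 / 50 * x / (1 - (39 / 50 * x) ^ 2) * (39 / 50)) x := by
    intro x hx0 hx1
    have b1 := hasDerivAt_La (t := 39 / 50 * x) (by linarith) (by linarith)
    have b2 : HasDerivAt (fun t : ℝ => 39 / 50 * t) (39 / 50) x := by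
      simpa using (hasDerivAt_id x).const_mul (39 / 50)
    exact b1.comp x b2
  have key := le_of_deriv_nonneg (f := fun t => t ^ 2 / 5 + t ^ 4 / 4 - La t + La (39 / 50 * t))
      (f' := fun t => 2 * t / 5 + t ^ 3 - t / (1 - t ^ 2) +
        39 / 50 * t / (1 - (39 / 50 * t) ^ 2) * (39 / 50)) (a := 0) (b := s) h0 ?_ ?_ ?_
  · have : (0:ℝ) ≤ s ^ 2 / 5 + s ^ 4 / 4 - La s + La (39 / 50 * s) := by simpa using key
    linarith
  · intro x hx
    have hx1 : x < 1 := by linarith [hx.2]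
    have a1 := (hasDerivAt_La (t := x) (by linarith [hx.1]) hx1).continuousAt
    have a2 : ContinuousAt (fun t : ℝ => t ^ 2 / 5 + t ^ 4 / 4) x := by fun_prop
    exact ((a2.sub a1).add (hcomp x hx.1 hx1).continuousAt).continuousWithinAt
  · intro x hx
    have hx1 : x < 1 := by linarith [hx.2]
    have a1 := (hasDerivAt_La (t := x) (by linarith [hx.1]) hx1)
    have a2 : HasDerivAt (fun t : ℝ => t ^ 2 / 5 + t ^ 4 / 4) (2 * x / 5 + x ^ 3) x := by
      refine (((hasDerivAt_pow 2 x).div_const 5).add ((hasDerivAt_pow 4 x).div_const 4)).congr_deriv ?_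
      norm_num
    exact (a2.sub a1).add (hcomp x hx.1.le hx1)
  · intro x hx
    have hx0 : 0 < x := hx.1
    have hx1 : x < 1 / 2 := by linarith [hx.2]
    have hp : 0 < 1 - x ^ 2 := by nlinarith
    have hp' : 0 < 1 - (39 / 50 * x) ^ 2 := by nlinarith
    have h2 : x ^ 2 ≤ 1 / 4 := by nlinarith
    have h20 : 0 ≤ x ^ 2 := sq_nonneg x
    have e : 2 * x / 5 + x ^ 3 - x / (1 - x ^ 2) + 39 / 50 * x / (1 - (39 / 50 * x) ^ 2) * (39 / 50)
        = x * (21 / 2500 + (35664 / 100000) * x ^ 2 - (136504 / 100000) * (x ^ 2) ^ 2 +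
            (6084 / 10000) * (x ^ 2) ^ 3) / ((1 - x ^ 2) * (1 - (39 / 50 * x) ^ 2)) := by
      obtain ⟨D1, hD1⟩ : ∃ D1, D1 = 1 - x ^ 2 := ⟨_, rfl⟩
      obtain ⟨D2, hD2⟩ : ∃ D2, D2 = 1 - (39 / 50 * x) ^ 2 := ⟨_, rfl⟩
      have p1 : D1 ≠ 0 := by rw [hD1]; exact hp.ne'
      have p2 : D2 ≠ 0 := by rw [hD2]; exact hp'.ne'
      rw [← hD1, ← hD2]
      rw [eq_div_iff (mul_ne_zero p1 p2)]
      have q1 : x / D1 * (D1 * D2) = x * D2 := by field_simp
      have q2 : 39 / 50 * x / D2 * (39 / 50) * (D1 * D2) = 1521 / 2500 * x * D1 := by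
        field_simp
        norm_num
      rw [add_mul, sub_mul, q1, q2, hD1, hD2]
      ring
    rw [e]
    apply div_nonneg _ (by positivity)
    apply mul_nonneg hx0.le
    nlinarith [mul_nonneg h20 (sub_nonneg.mpr h2), mul_nonneg (mul_nonneg h20 h20) h20]

theorem La_diff_ge {r r' s : ℝ} (h0 : 0 ≤ r) (hr : r ≤ r') (h1 : r' ≤ 1) (hs0 : 0 ≤ s) (hs1 : s < 1) :
    (r' ^ 2 - r ^ 2) * s ^ 2 / 2 ≤ La (r' * s) - La (r * s) := by
  unfold La
  have hr's : r' * s ≤ s := mul_le_of_le_one_left hs0 h1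
  have hr's0 : 0 ≤ r' * s := by apply mul_nonneg _ hs0; linarith
  have hrs : r * s ≤ r' * s := mul_le_mul_of_nonneg_right hr hs0
  have hrs0 : 0 ≤ r * s := mul_nonneg h0 hs0
  have p1 : 0 < 1 - (r' * s) ^ 2 := by nlinarith
  have p2 : 0 < 1 - (r * s) ^ 2 := by nlinarith
  have h := Real.one_sub_inv_le_log_of_pos (x := (1 - (r * s) ^ 2) / (1 - (r' * s) ^ 2)) (by positivity)
  rw [Real.log_div p2.ne' p1.ne', inv_div] at h
  have h3 : (r' ^ 2 - r ^ 2) * s ^ 2 ≤ 1 - (1 - (r' * s) ^ 2) / (1 - (r * s) ^ 2) := by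
    have e : 1 - (1 - (r' * s) ^ 2) / (1 - (r * s) ^ 2) =
        ((r' ^ 2 - r ^ 2) * s ^ 2) / (1 - (r * s) ^ 2) := by
      rw [eq_div_iff p2.ne', sub_mul, one_mul, div_mul_cancel₀ _ p2.ne']
      ring
    rw [e, le_div_iff₀ p2]
    have : 0 ≤ (r' ^ 2 - r ^ 2) * s ^ 2 := by
      apply mul_nonneg _ (sq_nonneg s)
      nlinarith
    nlinarith [sq_nonneg (r * s)]
  linarith


/-- (A) divided by `ρ²` -/
def GA (ρ m T : ℝ) : ℝ :=
  (La (T / (1 + m)) - La (ρ * (T / (1 + m)))) *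
      ((hb (m + T) + hb (m - T)) / 2 - (log 2 - Phi ρ / ρ ^ 2) * (1 - m ^ 2 - T ^ 2)) -
    (log (2 / (1 + m)) + La (T / (1 + m))) * ((log 2 - Phi ρ / ρ ^ 2) * T ^ 2 -
      ((1 + m) / 2 * (Phi (T / (1 + m)) - Phi (ρ * (T / (1 + m))) / ρ ^ 2) +
        (1 - m) / 2 * (Phi (T / (1 - m)) - Phi (ρ * (T / (1 - m))) / ρ ^ 2)))

theorem kap_eq {ρ : ℝ} (h0 : 0 < ρ) (h1 : ρ < 1) : kap ρ = ρ ^ 2 * (log 2 - Phi ρ / ρ ^ 2) := by
  unfold kap
  rw [hb_eq_log (by linarith) h1]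
  field_simp
  ring

theorem A_iff_GA {ρ m T : ℝ} (h0 : 0 < ρ) (h1 : ρ < 1) :
    (kap ρ * T ^ 2 - ((1 + m) / 2 * WW ρ (T / (1 + m)) + (1 - m) / 2 * WW ρ (T / (1 - m)))) *
        (log (2 / (1 + m)) + La (T / (1 + m))) ≤
      (La (T / (1 + m)) - La (ρ * (T / (1 + m)))) *
        (ρ ^ 2 * ((hb (m + T) + hb (m - T)) / 2) - kap ρ * (1 - m ^ 2 - T ^ 2)) ↔ 0 ≤ GA ρ m T := by
  have hq : 0 < ρ ^ 2 := by positivity
  have e : (La (T / (1 + m)) - La (ρ * (T / (1 + m)))) *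
        (ρ ^ 2 * ((hb (m + T) + hb (m - T)) / 2) - kap ρ * (1 - m ^ 2 - T ^ 2)) -
      (kap ρ * T ^ 2 - ((1 + m) / 2 * WW ρ (T / (1 + m)) + (1 - m) / 2 * WW ρ (T / (1 - m)))) *
        (log (2 / (1 + m)) + La (T / (1 + m))) = ρ ^ 2 * GA ρ m T := by
    rw [kap_eq h0 h1]
    have w1 : ∀ x : ℝ, WW ρ x = ρ ^ 2 * (Phi x - Phi (ρ * x) / ρ ^ 2) := by
      intro x
      unfold WW
      field_simp
    rw [w1, w1]
    unfold GA
    ring
  constructor
  · intro h
    have h2 : 0 ≤ ρ ^ 2 * GA ρ m T := by rw [← e]; linarith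
    exact nonneg_of_mul_nonneg_right h2 hq
  · intro h
    have h2 : 0 ≤ ρ ^ 2 * GA ρ m T := mul_nonneg hq.le h
    rw [← e] at h2
    linarith



theorem La_nn {s : ℝ} (h0 : 0 ≤ s) (h1 : s < 1) : 0 ≤ La s := by
  have := La_diff_ge (r := 0) (r' := 1) (s := s) (le_refl 0) (by norm_num) (le_refl 1) h0 h1
  simp only [zero_mul, one_mul, La_zero] at this
  have h2 : 0 ≤ (1 ^ 2 - (0:ℝ) ^ 2) * s ^ 2 / 2 := by positivity
  linarith

theorem S_nonneg {x s : ℝ} (hx0 : 0 < x) (hx1 : x ≤ 1) (hs0 : 0 < s) (hsx : s ≤ x)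
    (hs4 : 4 * s ≤ 1 + x) {hbar B k0 : ℝ} (hk0 : k0 = log 2 - 1 / 2)
    (hh : log (1 + x) - x * log x / (1 + x) - (Phi s + x * Phi (s / x)) / (1 + x) ≤ hbar)
    (hB : B = log (1 + x) + La s) :
    0 ≤ hbar - k0 * (4 * (x - s ^ 2) / (1 + x) ^ 2) -
      (1 / 15 + s ^ 2 / 12) * (4 * (x - s ^ 2) / (1 + x) ^ 2) - B * (4 / (1 + x) ^ 2) / 3 +
      B * (s ^ 2 * (1 + x ^ 3) / (6 * x ^ 3 * (1 + x))) := by
  have hs2 : s ≤ 1 / 2 := by linarith
  have hLa := La_le_poly hs0.le hs2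
  have hLa0 : 0 ≤ La s := La_nn hs0.le (by linarith)
  have hk : k0 ≤ 483 / 2500 := by
    rw [hk0]; have := Real.log_two_lt_d9; linarith
  have hL1 : 2 * x ≤ (2 + x) * log (1 + x) := by
    have := Real.le_log_one_add_of_nonneg hx0.le
    rw [div_le_iff₀ (by linarith)] at this
    linarith
  have hL2 : log (1 + x) ≤ x := by
    have := Real.log_le_sub_one_of_pos (x := 1 + x) (by linarith)
    linarith
  have hL0 : 0 ≤ log (1 + x) := Real.log_nonneg (by linarith)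
  have hZ : 2 * (1 - x) ≤ (1 + x) * (-log x) := by
    have h1 : 0 ≤ 1 / x - 1 := by
      rw [sub_nonneg, le_div_iff₀ hx0]; linarith
    have := Real.le_log_one_add_of_nonneg h1
    have e : 1 + (1 / x - 1) = x⁻¹ := by rw [one_div]; ring
    rw [e, Real.log_inv] at this
    have e2 : 2 * (1 / x - 1) / (1 / x - 1 + 2) = 2 * (1 - x) / (1 + x) := by
      have : 1 / x - 1 + 2 ≠ 0 := by positivity
      rw [div_eq_div_iff this (by positivity)]
      field_simp
      ring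
    rw [e2, div_le_iff₀ (by linarith)] at this
    linarith
  have hF := F_nonneg hx0 hx1 (y := s ^ 2) (by positivity) (by nlinarith) (by nlinarith) hL1 hL2 hZ
  -- bound the Φ terms
  have p1 := Phi_le_quartic hs0 (by linarith : s ≤ 1)
  have hsx0 : 0 < s / x := div_pos hs0 hx0
  have p2 := Phi_le_quartic hsx0 (by rw [div_le_one hx0]; exact hsx)
  rw [← hk0] at p1 p2
  have p3 : (Phi s + x * Phi (s / x)) / (1 + x) ≤ s ^ 2 / (2 * x) +
      k0 * ((s ^ 2) ^ 2 * (1 + x ^ 3) / (x ^ 3 * (1 + x))) := by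
    rw [div_le_iff₀ (by linarith)]
    have h2 : x * Phi (s / x) ≤ x * ((s / x) ^ 2 / 2 + k0 * (s / x) ^ 4) :=
      mul_le_mul_of_nonneg_left p2 hx0.le
    have e : (s ^ 2 / (2 * x) + k0 * ((s ^ 2) ^ 2 * (1 + x ^ 3) / (x ^ 3 * (1 + x)))) * (1 + x) =
        s ^ 2 / 2 + k0 * s ^ 4 + x * ((s / x) ^ 2 / 2 + k0 * (s / x) ^ 4) := by
      field_simp
      ring
    rw [e]
    linarith
  have hx2 : s ^ 2 ≤ x := by nlinarith
  have hR : 0 ≤ 4 * (x - s ^ 2) / (1 + x) ^ 2 := by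
    apply div_nonneg _ (by positivity)
    linarith
  have hU : 0 ≤ (s ^ 2) ^ 2 * (1 + x ^ 3) / (x ^ 3 * (1 + x)) := by positivity
  have hV : 0 ≤ s ^ 2 * (1 + x ^ 3) / (6 * x ^ 3 * (1 + x)) := by positivity
  have hW : 0 ≤ 4 / (1 + x) ^ 2 := by positivity
  have k1 := mul_le_mul_of_nonneg_right hk hR
  have k2 := mul_le_mul_of_nonneg_right hk hU
  have k3 : B * (4 / (1 + x) ^ 2) ≤ (log (1 + x) + (s ^ 2 / 2 + s ^ 4 / 3)) * (4 / (1 + x) ^ 2) := by
    apply mul_le_mul_of_nonneg_right _ hW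
    linarith
  have k4 : log (1 + x) * (s ^ 2 * (1 + x ^ 3) / (6 * x ^ 3 * (1 + x))) ≤
      B * (s ^ 2 * (1 + x ^ 3) / (6 * x ^ 3 * (1 + x))) := by
    apply mul_le_mul_of_nonneg_right _ hV
    linarith
  have e1 : 4 / 3 * (log (1 + x) + s ^ 2 / 2 + (s ^ 2) ^ 2 / 3) / (1 + x) ^ 2 =
      (log (1 + x) + (s ^ 2 / 2 + s ^ 4 / 3)) * (4 / (1 + x) ^ 2) / 3 := by ring
  have e2 : x * -log x / (1 + x) = -(x * log x / (1 + x)) := by ring
  rw [e1, e2] at hF
  nlinarith

theorem scale_om {a z : ℝ} (ha : 0 < a) (hz : 0 < z) :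
    Phi (a * z) / a ^ 2 = z ^ 2 * (Phi (a * z) / (a * z) ^ 2) := by
  field_simp

theorem Phi_diff_ge {a b z : ℝ} (ha : 0 < a) (hab : a ≤ b) (hb : b ≤ 1) (hz : 0 < z) (hz1 : z < 1) :
    (b ^ 2 - a ^ 2) * z ^ 4 / 12 ≤ Phi (b * z) / b ^ 2 - Phi (a * z) / a ^ 2 := by
  have hb0 : 0 < b := by linarith
  rw [scale_om ha hz, scale_om hb0 hz]
  have h1 : a * z ≤ b * z := mul_le_mul_of_nonneg_right hab hz.le
  have h2 : b * z < 1 := by nlinarith
  have h := om_lower (v := a * z) (w := b * z) (by positivity) h1 h2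
  have h3 := mul_le_mul_of_nonneg_left h (sq_nonneg z)
  calc _ = z ^ 2 * (((b * z) ^ 2 - (a * z) ^ 2) / 12) := by ring
    _ ≤ _ := h3
    _ = _ := by ring

theorem Phi_sq_half {a : ℝ} (h0 : 0 ≤ a) (h1 : a < 1) : a ^ 2 / 2 ≤ Phi a := by
  have := hb_le_sq_of_nonneg h0 h1.le
  rw [hb_eq_log (by linarith) h1] at this
  linarith

/-- `hb w ≥ (1-w²) ln 2` -/
theorem hb_ge_sq {w : ℝ} (hw : |w| < 1) : log 2 * (1 - w ^ 2) ≤ hb w := by
  have q : ∀ z : ℝ, 0 < z → z < 1 → Phi z ≤ log 2 * z ^ 2 := by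
    intro z hz0 hz1
    have h1 := Phi_le_quartic hz0 hz1.le
    have h2 : (log 2 - 1 / 2) * z ^ 4 ≤ (log 2 - 1 / 2) * z ^ 2 := by
      apply mul_le_mul_of_nonneg_left
      · have h3 : z ^ 2 ≤ 1 := by nlinarith
        calc z ^ 4 = z ^ 2 * z ^ 2 := by ring
          _ ≤ z ^ 2 * 1 := mul_le_mul_of_nonneg_left h3 (sq_nonneg z)
          _ = z ^ 2 := mul_one _
      · have := Real.log_two_gt_d9; linarith
    linarith
  rw [abs_lt] at hw
  rcases lt_trichotomy w 0 with h | h | h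
  · have h2 := q (-w) (by linarith) (by linarith)
    rw [← hb_neg, hb_eq_log (by linarith) (by linarith)]
    rw [neg_sq] at h2
    linarith
  · rw [h, hb_zero]; norm_num
  · have h2 := q w h hw.2
    rw [hb_eq_log (by linarith) (by linarith)]
    linarith

theorem O_nonneg {m T : ℝ} (hm0 : 0 ≤ m) (hT0 : 0 < T) (hmT : m + T < 1)
    (hR0 : 0 ≤ 1 - m ^ 2 - T ^ 2) :
    0 ≤ (hb (m + T) + hb (m - T)) / 2 - (log 2 - 1 / 2) * (1 - m ^ 2 - T ^ 2) := by
  have h1 := hb_ge_sq (w := m + T) (by rw [abs_lt]; constructor <;> linarith)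
  have h2 := hb_ge_sq (w := m - T) (by rw [abs_lt]; constructor <;> linarith)
  have h3 : log 2 * (1 - m ^ 2 - T ^ 2) =
      (log 2 * (1 - (m + T) ^ 2) + log 2 * (1 - (m - T) ^ 2)) / 2 := by ring
  have h4 : (log 2 - 1 / 2) * (1 - m ^ 2 - T ^ 2) ≤ log 2 * (1 - m ^ 2 - T ^ 2) := by
    apply mul_le_mul_of_nonneg_right _ hR0
    linarith
  linarith

theorem GA_mono {ρ m T : ℝ} (hρ0 : 0 < ρ) (hρ1 : ρ ≤ 39 / 50) (hm0 : 0 ≤ m) (hT0 : 0 < T)
    (hT : T ≤ 1 / 2) (hmT : m + T < 1) : GA (39 / 50) m T ≤ GA ρ m T := by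
  have hm1 : m < 1 := by linarith
  have pp : 0 < 1 + m := by linarith
  have pm : 0 < 1 - m := by linarith
  set x := (1 - m) / (1 + m) with hx
  set s := T / (1 + m) with hs
  have hx0 : 0 < x := div_pos pm pp
  have hx1 : x ≤ 1 := by rw [hx, div_le_one pp]; linarith
  have hs0 : 0 < s := div_pos hT0 pp
  have hr : T / (1 - m) = s / x := by
    rw [hs, hx]; field_simp
  have hr0 : 0 < T / (1 - m) := div_pos hT0 pm
  have hr1 : T / (1 - m) < 1 := by rw [div_lt_one pm]; linarith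
  have hsx : s ≤ x := by
    rw [hs, hx]; apply div_le_div_of_nonneg_right _ pp.le; linarith
  have hm : 1 + m = 2 / (1 + x) := by
    rw [hx]; field_simp; ring
  have hm' : 1 - m = 2 * x / (1 + x) := by
    rw [hx]; field_simp; ring
  have hTs : T = s * (1 + m) := by rw [hs]; field_simp
  have hs4 : 4 * s ≤ 1 + x := by
    have : T * 2 = s * (2 * (2 / (1 + x))) := by rw [hTs, hm]; ring
    have h2 : s * (2 * (2 / (1 + x))) ≤ 1 := by linarith
    have h3 : s * (2 * (2 / (1 + x))) = 4 * s / (1 + x) := by ring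
    rw [h3, div_le_one (by linarith)] at h2
    exact h2
  have hs2 : s ≤ 1 / 2 := by linarith
  have hs1 : s < 1 := by linarith
  set Δ := (39 / 50 : ℝ) ^ 2 - ρ ^ 2 with hΔ
  have hΔ0 : 0 ≤ Δ := by
    rw [hΔ, sub_nonneg]
    exact pow_le_pow_left₀ hρ0.le hρ1 2
  -- the increments
  have f1 := La_diff_ge (r := ρ) (r' := 39 / 50) hρ0.le hρ1 (by norm_num) hs0.le hs1
  rw [← hΔ] at f1
  have f2 := La_diff_le hs0.le hs2
  have f2' : 0 ≤ La s - La (39 / 50 * s) := by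
    have := La_diff_ge (r := 39 / 50) (r' := 1) (by norm_num) (by norm_num) (le_refl 1) hs0.le hs1
    rw [one_mul] at this
    have h2 : 0 ≤ (1 ^ 2 - (39 / 50 : ℝ) ^ 2) * s ^ 2 / 2 := by positivity
    linarith
  have f3 := om_upper hρ0 hρ1 (le_refl _)
  rw [← hΔ] at f3
  have f3' := om_lower hρ0 hρ1 (by norm_num)
  rw [← hΔ] at f3'
  have f4 := Phi_diff_ge hρ0 hρ1 (by norm_num) hs0 hs1
  rw [← hΔ] at f4
  have f5 := Phi_diff_ge hρ0 hρ1 (by norm_num) hr0 hr1
  rw [← hΔ] at f5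
  have f6 : 1 / 2 ≤ Phi ρ / ρ ^ 2 := by
    rw [le_div_iff₀ (by positivity)]
    have := Phi_sq_half hρ0.le (by linarith : ρ < 1)
    linarith
  -- hbar
  have hhb := avg_hb (c := m) (e := T) (by linarith) hm1 (by rw [abs_of_pos hT0]; linarith)
    (by rw [abs_of_pos hT0]; linarith)
  have hhm : hb m = log (1 + x) - x * log x / (1 + x) := by
    rw [hb_eq_log (by linarith) hm1]
    unfold Phi
    rw [hm, hm', Real.log_div (by norm_num) (by linarith), Real.log_div (by positivity) (by linarith),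
      Real.log_mul (by norm_num) hx0.ne']
    field_simp
    ring
  have hlog : log (2 / (1 + m)) = log (1 + x) := by
    rw [hm]; congr 1; field_simp
  set hbar := (hb (m + T) + hb (m - T)) / 2 with hhbar
  set B := log (2 / (1 + m)) + La s with hB
  have hk0 : ∃ k0, k0 = log 2 - 1 / 2 := ⟨_, rfl⟩
  obtain ⟨k0, hk0⟩ := hk0
  have hS := S_nonneg hx0 hx1 hs0 hsx hs4 (hbar := hbar) (B := B) hk0 (by
    rw [hhb, hhm, ← hs, hr]
    apply le_of_eq
    have e1 : (1 + m) / 2 = 1 / (1 + x) := by rw [hm]; ring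
    have e2 : (1 - m) / 2 = x / (1 + x) := by rw [hm']; ring
    rw [e1, e2]; ring) (by rw [hB, hlog])
  have hR : 1 - m ^ 2 - T ^ 2 = 4 * (x - s ^ 2) / (1 + x) ^ 2 := by
    have e1 : 1 - m ^ 2 = (1 + m) * (1 - m) := by ring
    rw [e1, hTs, hm', hm]
    field_simp
    ring
  have hT2 : T ^ 2 = s ^ 2 * (4 / (1 + x) ^ 2) := by
    rw [hTs, hm]; field_simp; ring
  have hPP : (1 + m) / 2 * s ^ 4 + (1 - m) / 2 * (T / (1 - m)) ^ 4 =
      s ^ 2 * (s ^ 2 * (1 + x ^ 3) / (x ^ 3 * (1 + x))) := by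
    rw [hr, hm', hm]
    field_simp
    ring
  have hx2 : s ^ 2 ≤ x := by
    calc s ^ 2 = s * s := sq s
      _ ≤ 1 * x := mul_le_mul hs1.le hsx hs0.le zero_le_one
      _ = x := one_mul x
  have hR0 : 0 ≤ 1 - m ^ 2 - T ^ 2 := by
    rw [hR]
    apply div_nonneg _ (by positivity)
    linarith
  have hB0 : 0 ≤ B := by
    have h1 : 0 ≤ log (2 / (1 + m)) := by rw [hlog]; exact Real.log_nonneg (by linarith)
    have h2 : 0 ≤ La s := La_nn hs0.le hs1
    rw [hB]; linarith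
  -- positivity of hbar - k0 R
  have hO : 0 ≤ hbar - k0 * (1 - m ^ 2 - T ^ 2) := by
    rw [hhbar, hk0]
    exact O_nonneg hm0 hT0 hmT hR0
  -- assemble
  have hmain : GA ρ m T - GA (39 / 50) m T =
      (La (39 / 50 * s) - La (ρ * s)) * (hbar - (log 2 - Phi ρ / ρ ^ 2) * (1 - m ^ 2 - T ^ 2)) -
      (La s - La (39 / 50 * s)) * ((1 - m ^ 2 - T ^ 2) *
        (Phi (39 / 50) / (39 / 50) ^ 2 - Phi ρ / ρ ^ 2)) -
      B * ((Phi (39 / 50) / (39 / 50) ^ 2 - Phi ρ / ρ ^ 2) * T ^ 2) +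
      B * ((1 + m) / 2 * (Phi (39 / 50 * s) / (39 / 50) ^ 2 - Phi (ρ * s) / ρ ^ 2) +
        (1 - m) / 2 * (Phi (39 / 50 * (T / (1 - m))) / (39 / 50) ^ 2 -
          Phi (ρ * (T / (1 - m))) / ρ ^ 2)) := by
    unfold GA
    rw [← hs, ← hhbar, ← hB]
    ring
  set R := 1 - m ^ 2 - T ^ 2 with hRdef
  have g1 : Δ * s ^ 2 / 2 * (hbar - k0 * R) ≤
      (La (39 / 50 * s) - La (ρ * s)) * (hbar - (log 2 - Phi ρ / ρ ^ 2) * R) := by
    apply mul_le_mul f1 _ hO _
    · have : (log 2 - Phi ρ / ρ ^ 2) * R ≤ k0 * R := by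
        apply mul_le_mul_of_nonneg_right _ hR0
        rw [hk0]; linarith
      linarith
    · have : 0 ≤ Δ * s ^ 2 / 2 := by positivity
      linarith
  have g2 : (La s - La (39 / 50 * s)) * (R * (Phi (39 / 50) / (39 / 50) ^ 2 - Phi ρ / ρ ^ 2)) ≤
      (s ^ 2 / 5 + s ^ 4 / 4) * (R * (Δ / 6)) := by
    apply mul_le_mul f2 _ _ (by positivity)
    · exact mul_le_mul_of_nonneg_left f3 hR0
    · apply mul_nonneg hR0
      have : 0 ≤ Δ / 12 := by positivity
      linarith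
  have g3 : B * ((Phi (39 / 50) / (39 / 50) ^ 2 - Phi ρ / ρ ^ 2) * T ^ 2) ≤
      B * (Δ / 6 * T ^ 2) := by
    apply mul_le_mul_of_nonneg_left _ hB0
    exact mul_le_mul_of_nonneg_right f3 (sq_nonneg T)
  have g4 : B * (Δ / 12 * ((1 + m) / 2 * s ^ 4 + (1 - m) / 2 * (T / (1 - m)) ^ 4)) ≤
      B * ((1 + m) / 2 * (Phi (39 / 50 * s) / (39 / 50) ^ 2 - Phi (ρ * s) / ρ ^ 2) +
        (1 - m) / 2 * (Phi (39 / 50 * (T / (1 - m))) / (39 / 50) ^ 2 -
          Phi (ρ * (T / (1 - m))) / ρ ^ 2)) := by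
    apply mul_le_mul_of_nonneg_left _ hB0
    have h1 := mul_le_mul_of_nonneg_left f4 (by linarith : 0 ≤ (1 + m) / 2)
    have h2 := mul_le_mul_of_nonneg_left f5 (by linarith : 0 ≤ (1 - m) / 2)
    calc _ = (1 + m) / 2 * (Δ * s ^ 4 / 12) + (1 - m) / 2 * (Δ * (T / (1 - m)) ^ 4 / 12) := by ring
      _ ≤ _ := add_le_add h1 h2
  have g5 : 0 ≤ Δ * s ^ 2 / 2 * (hbar - k0 * R) - (s ^ 2 / 5 + s ^ 4 / 4) * (R * (Δ / 6)) -
      B * (Δ / 6 * T ^ 2) +
      B * (Δ / 12 * ((1 + m) / 2 * s ^ 4 + (1 - m) / 2 * (T / (1 - m)) ^ 4)) := by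
    rw [hPP, hT2]
    have : Δ * s ^ 2 / 2 * (hbar - k0 * R) - (s ^ 2 / 5 + s ^ 4 / 4) * (R * (Δ / 6)) -
      B * (Δ / 6 * (s ^ 2 * (4 / (1 + x) ^ 2))) +
      B * (Δ / 12 * (s ^ 2 * (s ^ 2 * (1 + x ^ 3) / (x ^ 3 * (1 + x))))) =
      Δ * s ^ 2 / 2 * (hbar - k0 * R - (1 / 15 + s ^ 2 / 12) * R - B * (4 / (1 + x) ^ 2) / 3 +
        B * (s ^ 2 * (1 + x ^ 3) / (6 * x ^ 3 * (1 + x)))) := by
      field_simp
      ring
    rw [this]
    apply mul_nonneg (by positivity)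
    rw [hR]
    exact hS
  linarith

/-- (A) at `ρ = 39/50` implies (A) at every smaller `ρ`. -/
theorem A1_mono {ρ m T : ℝ} (hρ0 : 0 < ρ) (hρ1 : ρ ≤ 39 / 50) (hm0 : 0 ≤ m) (hT0 : 0 < T)
    (hT : T ≤ 1 / 2) (hmT : m + T < 1)
    (hA : (kap (39 / 50) * T ^ 2 - ((1 + m) / 2 * WW (39 / 50) (T / (1 + m)) +
        (1 - m) / 2 * WW (39 / 50) (T / (1 - m)))) * (log (2 / (1 + m)) + La (T / (1 + m))) ≤
      (La (T / (1 + m)) - La (39 / 50 * (T / (1 + m)))) *
        ((39 / 50) ^ 2 * ((hb (m + T) + hb (m - T)) / 2) - kap (39 / 50) * (1 - m ^ 2 - T ^ 2))) :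
    (kap ρ * T ^ 2 - ((1 + m) / 2 * WW ρ (T / (1 + m)) + (1 - m) / 2 * WW ρ (T / (1 - m)))) *
        (log (2 / (1 + m)) + La (T / (1 + m))) ≤
      (La (T / (1 + m)) - La (ρ * (T / (1 + m)))) *
        (ρ ^ 2 * ((hb (m + T) + hb (m - T)) / 2) - kap ρ * (1 - m ^ 2 - T ^ 2)) := by
  rw [A_iff_GA hρ0 (by linarith)]
  rw [A_iff_GA (by norm_num) (by norm_num)] at hA
  exact hA.trans (GA_mono hρ0 hρ1 hm0 hT0 hT hmT)

end

end Vale.Agent.P322
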