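import Vale.Agent.P322.Mono

/-!
# P322: the tangent certificate at `(a,b)` itself
-/

namespace Vale.Agent.P322

open Real Finset

noncomputable section

theorem cert_C1 {ρ : ℝ} (hρ0 : 0 < ρ) (hρ1 : ρ < 1) (hS1 : S1 ρ) {m T : ℝ} (hm0 : 0 ≤ m)
    (hT0 : 0 < T) (hmT : m + T < 1)
    (h : (kap ρ * T ^ 2 - ((1 + m) / 2 * WW ρ (T / (1 + m)) + (1 - m) / 2 * WW ρ (T / (1 - m)))) *
        (log (2 / (1 + m)) + La (T / (1 + m))) ≤
      (La (T / (1 + m)) - La (ρ * (T / (1 + m)))) *
        (ρ ^ 2 * ((hb (m + T) + hb (m - T)) / 2) - kap ρ * (1 - m ^ 2 - T ^ 2))) :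
    Cert ρ (m + T) (m - T) := by
  have e1 : (m + T + (m - T)) / 2 = m := by ring
  have e2 : (m + T - (m - T)) / 2 = T := by ring
  have key := cert_of_line' hρ0 hρ1 hS1 (x := m + T) (y := m - T) (p := 1) (by linarith) hmT
    (by linarith) (by
      rw [e1, e2]
      have k1 : R1 ρ (m + T) (m - T) 1 =
          -(kap ρ * T ^ 2 - ((1 + m) / 2 * WW ρ (T / (1 + m)) +
            (1 - m) / 2 * WW ρ (T / (1 - m)))) := by
        have h1 := R1_eq (ρ := ρ) (u := (1 - m - T) / 2) (v := (1 - m + T) / 2) (p := 1) hρ0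
          hρ1.le (by linarith) (by linarith) (by linarith) one_pos le_rfl
        have f1 : 1 - 2 * ((1 - m - T) / 2) = m + T := by ring
        have f2 : 1 - 2 * ((1 - m + T) / 2) = m - T := by ring
        have f3 : ((1 - m - T) / 2 + (1 - m + T) / 2) / 2 = (1 - m) / 2 := by ring
        have f4 : ((1 - m + T) / 2 - (1 - m - T) / 2) / 2 = T / 2 := by ring
        have f5 : 1 - (1 - m) / 2 = (1 + m) / 2 := by ring
        have f6 : T / 2 / ((1 - m) / 2) = T / (1 - m) := by
          have : (1 - m) ≠ 0 := by linarith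
          field_simp
        have f7 : T / 2 / ((1 + m) / 2) = T / (1 + m) := by
          have : (1 + m) ≠ 0 := by linarith
          field_simp
        rw [f1, f2, f3, f4, div_one, f5, f6, f7] at h1
        rw [h1]
        ring
      have k2 : R2 ρ (m + T) (m - T) 1 =
          ρ ^ 2 * ((hb (m + T) + hb (m - T)) / 2) - kap ρ * (1 - m ^ 2 - T ^ 2) := by
        unfold R2 HH
        have f1 : 1 - 1 * (1 - (m + T)) = m + T := by ring
        have f2 : 1 - 1 * (1 - (m - T)) = m - T := by ring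
        rw [f1, f2]
        ring
      rw [k1, k2]
      linarith)
  have f1 : 1 - 1 * (1 - (m + T)) = m + T := by ring
  have f2 : 1 - 1 * (1 - (m - T)) = m - T := by ring
  rw [f1, f2] at key
  exact key

end

end Vale.Agent.P322
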