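import Vale.Agent.P322.Mono

/-!
# P322: power series of `La` and `Phi`, and three elementary logarithm bounds
-/

namespace Vale.Agent.P322

open Real Finset

noncomputable section

theorem hasSum_La {t : ℝ} (ht : |t| < 1) :
    HasSum (fun n : ℕ => (t ^ 2) ^ (n + 1) / (2 * ((n : ℝ) + 1))) (La t) := by
  have h1 : |t ^ 2| < 1 := by
    rw [abs_pow]
    exact pow_lt_one₀ (abs_nonneg t) ht two_ne_zero
  have h2 := (Real.hasSum_pow_div_log_of_abs_lt_one h1).div_const 2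
  unfold La
  have e : (fun n : ℕ => (t ^ 2) ^ (n + 1) / (2 * ((n : ℝ) + 1))) =
      fun n : ℕ => (t ^ 2) ^ (n + 1) / ((n : ℝ) + 1) / 2 := by
    funext n
    rw [div_div]
    congr 1
    ring
  rw [e]
  exact h2

theorem hasSum_Phi {t : ℝ} (ht : |t| < 1) :
    HasSum (fun n : ℕ => (t ^ 2) ^ (n + 1) / ((2 * (n : ℝ) + 1) * (2 * (n : ℝ) + 2))) (Phi t) := by
  have h1 := (Real.hasSum_log_sub_log_of_abs_lt_one ht).mul_left (t / 2)
  have h2 := hasSum_La ht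
  have ht' := abs_lt.mp ht
  have h3 := h1.sub h2
  have e0 : t / 2 * (log (1 + t) - log (1 - t)) - La t = Phi t := by
    rw [Phi_eq ht'.1 ht'.2]
    unfold ath
    ring
  rw [e0] at h3
  have e : (fun n : ℕ => (t ^ 2) ^ (n + 1) / ((2 * (n : ℝ) + 1) * (2 * (n : ℝ) + 2))) =
      fun k : ℕ => t / 2 * ((2 : ℝ) * (1 / (2 * k + 1)) * t ^ (2 * k + 1)) -
        (t ^ 2) ^ (k + 1) / (2 * ((k : ℝ) + 1)) := by
    funext n
    have e1 : (t ^ 2) ^ (n + 1) = t * t ^ (2 * n + 1) := by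
      rw [← pow_mul, ← pow_succ']
      rfl
    rw [e1]
    field_simp
    ring
  rw [e]
  exact h3

theorem Phi_ge_partial {t : ℝ} (ht : |t| < 1) (n : ℕ) :
    ∑ i ∈ range n, (t ^ 2) ^ (i + 1) / ((2 * (i : ℝ) + 1) * (2 * (i : ℝ) + 2)) ≤ Phi t :=
  sum_le_hasSum _ (fun i _ => by positivity) (hasSum_Phi ht)

/-- lower bound for `W` with a controlled tail -/
theorem WW_ge_tail {ρ t : ℝ} (hρ0 : 0 < ρ) (hρ1 : ρ ≤ 1) (ht : |t| < 1) (n : ℕ) :
    ρ ^ 2 * (1 - (ρ ^ 2) ^ n) * (Phi t -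
        ∑ i ∈ range n, (t ^ 2) ^ (i + 1) / ((2 * (i : ℝ) + 1) * (2 * (i : ℝ) + 2))) +
      ∑ i ∈ range n, ρ ^ 2 * (1 - (ρ ^ 2) ^ i) * ((t ^ 2) ^ (i + 1) /
        ((2 * (i : ℝ) + 1) * (2 * (i : ℝ) + 2))) ≤ WW ρ t := by
  have hρt : |ρ * t| < 1 := by
    rw [abs_mul, abs_of_pos hρ0]
    exact lt_of_le_of_lt (mul_le_of_le_one_left (abs_nonneg t) hρ1) ht
  have h1 := (hasSum_Phi ht).mul_left (ρ ^ 2)
  have h2 := hasSum_Phi hρt
  have h3 := (hasSum_Phi ht).mul_left (ρ ^ 2 * (1 - (ρ ^ 2) ^ n))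
  have h4 := (h1.sub h2).sub h3
  have hq0 : 0 ≤ ρ ^ 2 := sq_nonneg ρ
  have hq1 : ρ ^ 2 ≤ 1 := by nlinarith
  have hterm : ∀ i : ℕ, ρ ^ 2 * ((t ^ 2) ^ (i + 1) / ((2 * (i : ℝ) + 1) * (2 * (i : ℝ) + 2))) -
      ((ρ * t) ^ 2) ^ (i + 1) / ((2 * (i : ℝ) + 1) * (2 * (i : ℝ) + 2)) -
      ρ ^ 2 * (1 - (ρ ^ 2) ^ n) * ((t ^ 2) ^ (i + 1) / ((2 * (i : ℝ) + 1) * (2 * (i : ℝ) + 2))) =
      ρ ^ 2 * ((ρ ^ 2) ^ n - (ρ ^ 2) ^ i) *
        ((t ^ 2) ^ (i + 1) / ((2 * (i : ℝ) + 1) * (2 * (i : ℝ) + 2))) := by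
    intro i
    have : ((ρ * t) ^ 2) ^ (i + 1) = ρ ^ 2 * (ρ ^ 2) ^ i * (t ^ 2) ^ (i + 1) := by
      rw [mul_pow, mul_pow, pow_succ (ρ ^ 2)]
      ring
    rw [this]
    ring
  have h5 := sum_le_hasSum (range n) (fun i hi => by
    rw [hterm i]
    rw [Finset.mem_range, not_lt] at hi
    apply mul_nonneg (mul_nonneg hq0 _) (by positivity)
    rw [sub_nonneg]
    exact pow_le_pow_of_le_one hq0 hq1 hi) h4
  have h6 : ∑ i ∈ range n, (ρ ^ 2 * ((t ^ 2) ^ (i + 1) / ((2 * (i : ℝ) + 1) * (2 * (i : ℝ) + 2))) -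
      ((ρ * t) ^ 2) ^ (i + 1) / ((2 * (i : ℝ) + 1) * (2 * (i : ℝ) + 2)) -
      ρ ^ 2 * (1 - (ρ ^ 2) ^ n) * ((t ^ 2) ^ (i + 1) / ((2 * (i : ℝ) + 1) * (2 * (i : ℝ) + 2)))) =
      ∑ i ∈ range n, ρ ^ 2 * (1 - (ρ ^ 2) ^ i) * ((t ^ 2) ^ (i + 1) /
        ((2 * (i : ℝ) + 1) * (2 * (i : ℝ) + 2))) - ρ ^ 2 * (1 - (ρ ^ 2) ^ n) *
        ∑ i ∈ range n, (t ^ 2) ^ (i + 1) / ((2 * (i : ℝ) + 1) * (2 * (i : ℝ) + 2)) := by
    rw [Finset.mul_sum, ← Finset.sum_sub_distrib]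
    apply Finset.sum_congr rfl
    intro i _
    rw [hterm i]
    ring
  rw [h6] at h5
  unfold WW
  linarith

/-- `La s - La (ρ s)` is bounded below by its partial sums -/
theorem La_sub_ge_sum {ρ t : ℝ} (hρ0 : 0 < ρ) (hρ1 : ρ ≤ 1) (ht : |t| < 1) (n : ℕ) :
    ∑ i ∈ range n, (1 - (ρ ^ 2) ^ (i + 1)) * ((t ^ 2) ^ (i + 1) / (2 * ((i : ℝ) + 1))) ≤
      La t - La (ρ * t) := by
  have hρt : |ρ * t| < 1 := by
    rw [abs_mul, abs_of_pos hρ0]
    exact lt_of_le_of_lt (mul_le_of_le_one_left (abs_nonneg t) hρ1) ht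
  have hq0 : 0 ≤ ρ ^ 2 := sq_nonneg ρ
  have hq1 : ρ ^ 2 ≤ 1 := by nlinarith
  have h4 := (hasSum_La ht).sub (hasSum_La hρt)
  have e : (fun n : ℕ => (t ^ 2) ^ (n + 1) / (2 * ((n : ℝ) + 1)) -
      ((ρ * t) ^ 2) ^ (n + 1) / (2 * ((n : ℝ) + 1))) =
      fun i : ℕ => (1 - (ρ ^ 2) ^ (i + 1)) * ((t ^ 2) ^ (i + 1) / (2 * ((i : ℝ) + 1))) := by
    funext n
    rw [mul_pow ρ t, mul_pow]
    ring
  rw [e] at h4
  refine sum_le_hasSum _ (fun i _ => ?_) h4
  apply mul_nonneg _ (by positivity)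
  rw [sub_nonneg]
  exact pow_le_one₀ hq0 hq1

theorem La_ge_half {t : ℝ} (ht : |t| < 1) : t ^ 2 / 2 ≤ La t := by
  have h := sum_le_hasSum {0} (fun i _ => by positivity) (hasSum_La ht)
  simpa using h

/-- `La t ≤ t²/2 + t⁴/3` for `t² ≤ 1/4` -/
theorem La_le_quart {t : ℝ} (h : t ^ 2 ≤ 1 / 4) : La t ≤ t ^ 2 / 2 + (t ^ 2) ^ 2 / 3 := by
  unfold La
  set y := t ^ 2 with hy
  have hy0 : 0 ≤ y := by rw [hy]; positivity
  have hder : ∀ z ∈ Set.Icc (0:ℝ) y, HasDerivAt (fun z : ℝ => z / 2 + z ^ 2 / 3 + log (1 - z) / 2)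
      (1 / 2 + 2 * z / 3 + -1 / (1 - z) / 2) z := by
    intro z hz
    have hz1 : 1 - z ≠ 0 := by
      have := hz.2
      intro h0
      linarith
    have a2 : HasDerivAt (fun t : ℝ => 1 - t) (-1) z := by
      simpa using (hasDerivAt_id z).const_sub 1
    have a3 : HasDerivAt (fun z : ℝ => z / 2) (1 / 2) z := (hasDerivAt_id z).div_const 2
    have a4 : HasDerivAt (fun z : ℝ => z ^ 2 / 3) (2 * z / 3) z := by
      have := (hasDerivAt_pow 2 z).div_const 3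
      simpa using this
    exact (a3.add a4).add ((a2.log hz1).div_const 2)
  have hmono : MonotoneOn (fun z : ℝ => z / 2 + z ^ 2 / 3 + log (1 - z) / 2) (Set.Icc 0 y) := by
    apply monotoneOn_of_deriv_nonneg (convex_Icc 0 y)
    · intro z hz
      exact (hder z hz).continuousAt.continuousWithinAt
    · intro z hz
      rw [interior_Icc] at hz
      exact (hder z ⟨hz.1.le, hz.2.le⟩).differentiableAt.differentiableWithinAt
    · intro z hz
      rw [interior_Icc] at hz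
      rw [(hder z ⟨hz.1.le, hz.2.le⟩).deriv]
      have hz1 : 0 < 1 - z := by linarith [hz.2]
      have e : 1 / 2 + 2 * z / 3 + -1 / (1 - z) / 2 = z * (1 - 4 * z) / (6 * (1 - z)) := by
        field_simp
        ring
      rw [e]
      apply div_nonneg (mul_nonneg hz.1.le (by linarith [hz.2])) (by linarith)
  have := hmono ⟨le_refl _, hy0⟩ ⟨hy0, le_refl _⟩ hy0
  simp only [ne_eq, OfNat.ofNat_ne_zero, not_false_eq_true, zero_pow, zero_div, sub_zero, log_one,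
    add_zero] at this
  linarith

/-- Padé upper bound for `log (1 + x)` -/
theorem log_one_add_le {x : ℝ} (hx : 0 ≤ x) : log (1 + x) ≤ x * (6 + x) / (6 + 4 * x) := by
  have hder : ∀ z ∈ Set.Icc (0:ℝ) x, HasDerivAt
      (fun z : ℝ => z * (6 + z) / (6 + 4 * z) - log (1 + z))
      (4 * z ^ 3 / ((6 + 4 * z) ^ 2 * (1 + z))) z := by
    intro z hz
    have hz0 := hz.1
    have h1 : 1 + z ≠ 0 := by intro h; linarith
    have h2 : 6 + 4 * z ≠ 0 := by intro h; linarith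
    have a1 : HasDerivAt (fun t : ℝ => 1 + t) 1 z := by
      simpa using (hasDerivAt_id z).const_add 1
    have a2 : HasDerivAt (fun t : ℝ => 6 + t) 1 z := by
      simpa using (hasDerivAt_id z).const_add 6
    have a3 : HasDerivAt (fun t : ℝ => 6 + 4 * t) 4 z := by
      simpa using ((hasDerivAt_id z).const_mul 4).const_add 6
    have a5 : HasDerivAt (fun t : ℝ => t * (6 + t)) (1 * (6 + z) + z * 1) z :=
      (hasDerivAt_id z).mul a2
    have a4 := (a5.div a3 h2).sub (a1.log h1)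
    refine a4.congr_deriv ?_
    field_simp
    ring
  have hmono : MonotoneOn (fun z : ℝ => z * (6 + z) / (6 + 4 * z) - log (1 + z))
      (Set.Icc 0 x) := by
    apply monotoneOn_of_deriv_nonneg (convex_Icc 0 x)
    · intro z hz
      exact (hder z hz).continuousAt.continuousWithinAt
    · intro z hz
      rw [interior_Icc] at hz
      exact (hder z ⟨hz.1.le, hz.2.le⟩).differentiableAt.differentiableWithinAt
    · intro z hz
      rw [interior_Icc] at hz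
      rw [(hder z ⟨hz.1.le, hz.2.le⟩).deriv]
      have := hz.1
      positivity
  have := hmono ⟨le_refl _, hx⟩ ⟨hx, le_refl _⟩ hx
  simp at this
  linarith

/-- Padé lower bound for `-log x` -/
theorem neg_log_ge {x : ℝ} (hx : 0 < x) (hx1 : x ≤ 1) :
    3 * (1 - x ^ 2) / (1 + 4 * x + x ^ 2) ≤ -log x := by
  have hder : ∀ z ∈ Set.Icc x 1, HasDerivAt
      (fun z : ℝ => -log z - 3 * (1 - z ^ 2) / (1 + 4 * z + z ^ 2))
      (-(1 - z) ^ 4 / (z * (1 + 4 * z + z ^ 2) ^ 2)) z := by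
    intro z hz
    have hz0 : 0 < z := lt_of_lt_of_le hx hz.1
    have h2 : 1 + 4 * z + z ^ 2 ≠ 0 := by positivity
    have a1 : HasDerivAt (fun t : ℝ => t ^ 2) (2 * z) z := by
      simpa using hasDerivAt_pow 2 z
    have a2 : HasDerivAt (fun t : ℝ => 3 * (1 - t ^ 2)) (3 * (-(2 * z))) z :=
      (a1.const_sub 1).const_mul 3
    have a3 : HasDerivAt (fun t : ℝ => 1 + 4 * t + t ^ 2) (4 + 2 * z) z := by
      have a0 : HasDerivAt (fun t : ℝ => 1 + 4 * t) 4 z := by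
        simpa using ((hasDerivAt_id z).const_mul 4).const_add 1
      exact a0.add a1
    have a4 := (Real.hasDerivAt_log hz0.ne').neg.sub (a2.div a3 h2)
    refine a4.congr_deriv ?_
    field_simp
    ring
  have hanti : AntitoneOn (fun z : ℝ => -log z - 3 * (1 - z ^ 2) / (1 + 4 * z + z ^ 2))
      (Set.Icc x 1) := by
    apply antitoneOn_of_deriv_nonpos (convex_Icc x 1)
    · intro z hz
      exact (hder z hz).continuousAt.continuousWithinAt
    · intro z hz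
      rw [interior_Icc] at hz
      exact (hder z ⟨hz.1.le, hz.2.le⟩).differentiableAt.differentiableWithinAt
    · intro z hz
      rw [interior_Icc] at hz
      rw [(hder z ⟨hz.1.le, hz.2.le⟩).deriv]
      have hz0 : 0 < z := lt_trans hx hz.1
      apply div_nonpos_of_nonpos_of_nonneg
      · have : 0 ≤ (1 - z) ^ 4 := by positivity
        linarith
      · positivity
  have := hanti ⟨le_refl _, hx1⟩ ⟨hx1, le_refl _⟩ hx1
  simp at this
  linarith

end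

end Vale.Agent.P322
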