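import Vale.Agent.P322.A2Main
import Vale.Agent.P322.Series
import Vale.Agent.P322.CertC1

/-!
# P322: (A2), the inequality for the tangent certificate at `ρ = 39/50`
-/

namespace Vale.Agent.P322

open Real Finset

noncomputable section

theorem kap_eq' {ρ : ℝ} (h0 : -1 < ρ) (h1 : ρ < 1) : kap ρ = ρ ^ 2 * log 2 - Phi ρ := by
  unfold kap
  rw [hb_eq_log h0 h1]
  ring

theorem kap_bound : 4 * kap (39 / 50) ≤ 2469 / 5000 * (39 / 50) ^ 2 := by
  rw [kap_eq' (by norm_num) (by norm_num)]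
  have h := Phi_ge_partial (t := 39 / 50) (by rw [abs_of_pos (by norm_num)]; norm_num) 10
  have h2 := Real.log_two_lt_d9
  simp only [Finset.sum_range_succ, Finset.sum_range_zero] at h
  norm_num at h ⊢
  linarith

/-- four terms of the series of `Phi` -/
def P4 (z : ℝ) : ℝ := z / 2 + z ^ 2 / 12 + z ^ 3 / 30 + z ^ 4 / 56

/-- three terms of the series of `WW / ρ²`, with rounded coefficients -/
def A4 (z : ℝ) : ℝ :=
  1 / 12 * (979 / 2500) * z ^ 2 + 1 / 30 * (3149 / 5000) * z ^ 3 + 1 / 56 * (7747 / 10000) * z ^ 4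

theorem P4_le {t : ℝ} (ht : |t| < 1) : P4 (t ^ 2) ≤ Phi t := by
  have h := Phi_ge_partial ht 4
  simp only [Finset.sum_range_succ, Finset.sum_range_zero] at h
  unfold P4
  norm_num at h
  linarith

theorem WW_ge_A4 {t : ℝ} (ht : |t| < 1) :
    (39 / 50) ^ 2 * ((1 - ((39 / 50 : ℝ) ^ 2) ^ 4) * (Phi t - P4 (t ^ 2)) + A4 (t ^ 2)) ≤
      WW (39 / 50) t := by
  have h := WW_ge_tail (ρ := 39 / 50) (by norm_num) (by norm_num) ht 4
  refine le_trans ?_ h
  simp only [Finset.sum_range_succ, Finset.sum_range_zero]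
  unfold P4 A4
  have h2 : 0 ≤ t ^ 2 := sq_nonneg t
  have h3 : 0 ≤ (t ^ 2) ^ 3 := by positivity
  have h4 : 0 ≤ (t ^ 2) ^ 4 := by positivity
  norm_num
  linarith

theorem E_bounds {s : ℝ} (hs : 0 < s) (hs1 : s ^ 2 ≤ 1 / 4) :
    s ^ 2 * Ef (s ^ 2) ≤ La s - La (39 / 50 * s) ∧
    La s - La (39 / 50 * s) ≤ (1 - ((39 / 50 : ℝ) ^ 2) ^ 4) * La s := by
  have hs2 : |s| < 1 := by
    rw [abs_of_pos hs]
    nlinarith
  have hs3 : |39 / 50 * s| < 1 := by
    rw [abs_of_pos (by positivity)]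
    rw [abs_of_pos hs] at hs2
    linarith
  constructor
  · have h := La_sub_ge_sum (ρ := 39 / 50) (by norm_num) (by norm_num) hs2 3
    refine le_trans ?_ h
    simp only [Finset.sum_range_succ, Finset.sum_range_zero]
    unfold Ef
    have h2 : 0 ≤ s ^ 2 := sq_nonneg s
    have h3 : 0 ≤ (s ^ 2) ^ 2 := by positivity
    have h4 : 0 ≤ (s ^ 2) ^ 3 := by positivity
    norm_num
    nlinarith
  · have h1 := La_ge_half hs3
    have h2 := La_le_quart hs1
    have h3 : 0 ≤ s ^ 2 := sq_nonneg s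
    have h4 : (39 / 50 * s) ^ 2 = 1521 / 2500 * s ^ 2 := by ring
    rw [h4] at h1
    have h5 : (s ^ 2) ^ 2 ≤ 1 / 4 * s ^ 2 := by nlinarith
    norm_num
    linarith

theorem A2_alg {q L e E Q R b1y b2 M1 M2 : ℝ} (hq : 0 ≤ q) (hLe : 0 ≤ L + e) (hE : 0 ≤ E)
    (L1 : M1 ≤ q * (-b1y - Q * R)) (L2 : q * (b2 - R) ≤ M2)
    (hmain : 0 ≤ (L + e) * b1y + E * b2) (htail : 0 ≤ R * (Q * (L + e) - E)) :
    M1 * (L + e) ≤ E * M2 := by
  have L3 : M1 * (L + e) ≤ q * (-b1y - Q * R) * (L + e) := mul_le_mul_of_nonneg_right L1 hLe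
  have L4 : E * (q * (b2 - R)) ≤ E * M2 := mul_le_mul_of_nonneg_left L2 hE
  have L5 : 0 ≤ q * (((L + e) * b1y + E * b2) + R * (Q * (L + e) - E)) :=
    mul_nonneg hq (by linarith)
  have L6 : E * (q * (b2 - R)) - q * (-b1y - Q * R) * (L + e) =
      q * (((L + e) * b1y + E * b2) + R * (Q * (L + e) - E)) := by ring
  linarith

theorem A2_main {y L e E b1 b2 F : ℝ} (hy : 0 ≤ y) (hLe : 0 ≤ L + e)
    (he1 : e ≤ y / 2 + y ^ 2 / 3) (hE : 0 ≤ E) (hEF : y * F ≤ E)
    (hp : 0 ≤ (L + y / 2 + y ^ 2 / 3) * b1 + F * b2) (hb2 : 0 ≤ b2) :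
    0 ≤ (L + e) * (y * b1) + E * b2 := by
  rcases le_total 0 b1 with hb | hb
  · have h1 : 0 ≤ (L + e) * (y * b1) := mul_nonneg hLe (mul_nonneg hy hb)
    have h2 : 0 ≤ E * b2 := mul_nonneg hE hb2
    linarith
  · have h1 : (L + y / 2 + y ^ 2 / 3) * (y * b1) ≤ (L + e) * (y * b1) :=
      mul_le_mul_of_nonpos_right (by linarith) (mul_nonpos_of_nonneg_of_nonpos hy hb)
    have h2 : (y * F) * b2 ≤ E * b2 := mul_le_mul_of_nonneg_right hEF hb2
    have h3 : 0 ≤ y * ((L + y / 2 + y ^ 2 / 3) * b1 + F * b2) := mul_nonneg hy hp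
    have h4 : y * ((L + y / 2 + y ^ 2 / 3) * b1 + F * b2) =
        (L + y / 2 + y ^ 2 / 3) * (y * b1) + (y * F) * b2 := by ring
    linarith

theorem A2_core {x s : ℝ} (hx : 0 < x) (hx1 : x ≤ 1) (hs : 0 < s) (hsx : s < x)
    (hs4 : s ≤ (1 + x) / 4) :
    (4 * kap (39 / 50) / (1 + x) * s ^ 2 - WW (39 / 50) s - x * WW (39 / 50) (s / x)) *
        (log (1 + x) + La s) ≤
      (La s - La (39 / 50 * s)) * ((39 / 50) ^ 2 * ((1 + x) * log (1 + x) + x * (-log x) - Phi s -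
        x * Phi (s / x)) - 4 * kap (39 / 50) / (1 + x) * (x - s ^ 2)) := by
  set y := s ^ 2 with hy
  have hy0 : 0 < y := by rw [hy]; positivity
  have hyx : y ≤ x ^ 2 := by rw [hy]; exact pow_le_pow_left₀ hs.le hsx.le 2
  have hy1 : y ≤ (1 + x) ^ 2 / 16 := by
    have := pow_le_pow_left₀ hs.le hs4 2
    have e : ((1 + x) / 4) ^ 2 = (1 + x) ^ 2 / 16 := by ring
    rw [e] at this
    exact this
  have hy4 : y ≤ 1 / 4 := by nlinarith
  have hs1 : s < 1 := by linarith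
  have hs2 : |s| < 1 := by rw [abs_of_pos hs]; exact hs1
  have hr0 : 0 < s / x := div_pos hs hx
  have hr1 : s / x < 1 := by rw [div_lt_one hx]; exact hsx
  have hr2 : |s / x| < 1 := by rw [abs_of_pos hr0]; exact hr1
  set L := log (1 + x) with hL
  have hL0 : 0 < L := log_pos (by linarith)
  have hLm : 2 * x / (2 + x) ≤ L := by
    have := Real.le_log_one_add_of_nonneg hx.le
    rw [add_comm 2 x]
    exact this
  have hLp : L ≤ x * (6 + x) / (6 + 4 * x) := log_one_add_le hx.le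
  have hl := neg_log_ge hx hx1
  set l := -log x with hl'
  have hp := p_nonneg hx hx1 hy0.le hyx hy1 hLm hLp hl
  have hb2 := b2f_nonneg hx hx1 hy0.le hyx hy1 hLm hl
  obtain ⟨hE1, hE2⟩ := E_bounds hs hy4
  rw [← hy] at hE1
  set e := La s with he
  set E := e - La (39 / 50 * s) with hEdef
  have he0 : 0 ≤ e := La_nonneg (by linarith) hs1
  have he1 : e ≤ y / 2 + y ^ 2 / 3 := La_le_quart hy4
  have hEf : 0 ≤ Ef y := by unfold Ef; positivity
  have hE0 : 0 ≤ E := le_trans (mul_nonneg hy0.le hEf) hE1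
  set Q : ℝ := 1 - ((39 / 50 : ℝ) ^ 2) ^ 4 with hQ
  have hQ0 : 0 ≤ Q := by rw [hQ]; norm_num
  -- the tails
  have t1 := P4_le hs2
  have t2 := P4_le hr2
  have w1 := WW_ge_A4 hs2
  have w2 := WW_ge_A4 hr2
  rw [← hy, ← hQ] at w1
  rw [← hQ] at w2
  rw [← hy] at t1
  set Rs := Phi s - P4 y with hRs
  set Rr := Phi (s / x) - P4 ((s / x) ^ 2) with hRr
  have hR : 0 ≤ Rs + x * Rr := by
    have h1 : 0 ≤ Rs := by rw [hRs]; linarith
    have h2 : 0 ≤ Rr := by rw [hRr]; linarith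
    have := mul_nonneg hx.le h2
    linarith
  -- brackets
  have b1e : y * b1f x y = -(2469 / 5000 / (1 + x) * y) + A4 y + x * A4 ((s / x) ^ 2) := by
    have hr : (s / x) ^ 2 = y / x ^ 2 := by rw [hy, div_pow]
    rw [hr]
    unfold b1f A4
    have hx0 : x ≠ 0 := hx.ne'
    field_simp
    ring
  have b2e : b2f x y L l = (1 + x) * L + x * l - P4 y - x * P4 ((s / x) ^ 2) -
      2469 / 5000 / (1 + x) * (x - y) := by
    have hr : (s / x) ^ 2 = y / x ^ 2 := by rw [hy, div_pow]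
    rw [hr]
    unfold b2f P4
    have hx0 : x ≠ 0 := hx.ne'
    field_simp
    ring
  -- main inequality for the truncated brackets
  have hmain : 0 ≤ (L + e) * (y * b1f x y) + E * b2f x y L l :=
    A2_main hy0.le (by linarith) he1 hE0 hE1 hp hb2
  have htail : 0 ≤ (Rs + x * Rr) * (Q * (L + e) - E) := by
    apply mul_nonneg hR
    have : 0 ≤ Q * L := mul_nonneg hQ0 hL0.le
    linarith
  -- the constant
  have hk := kap_bound
  have hd : 0 < 1 / (1 + x) := by positivity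
  have k1 : 4 * kap (39 / 50) / (1 + x) ≤ (39 / 50) ^ 2 * (2469 / 5000 / (1 + x)) := by
    have h := mul_le_mul_of_nonneg_right hk hd.le
    have e1 : 4 * kap (39 / 50) * (1 / (1 + x)) = 4 * kap (39 / 50) / (1 + x) := by ring
    have e2 : 2469 / 5000 * (39 / 50) ^ 2 * (1 / (1 + x)) =
      (39 / 50) ^ 2 * (2469 / 5000 / (1 + x)) := by ring
    rw [e1, e2] at h
    exact h
  set κ := 4 * kap (39 / 50) / (1 + x) with hκ
  set C := 2469 / 5000 / (1 + x) with hC
  have hxy : 0 ≤ x - y := by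
    have : x ^ 2 ≤ x := by
      have := mul_le_mul_of_nonneg_left hx1 hx.le
      rw [mul_one] at this
      rw [sq]
      exact this
    linarith
  have L1 : κ * y - WW (39 / 50) s - x * WW (39 / 50) (s / x) ≤
      (39 / 50) ^ 2 * (-(y * b1f x y) - Q * (Rs + x * Rr)) := by
    have h1 := mul_le_mul_of_nonneg_right k1 hy0.le
    have h2 := mul_le_mul_of_nonneg_left w2 hx.le
    rw [b1e]
    linarith
  have L2 : (39 / 50) ^ 2 * (b2f x y L l - (Rs + x * Rr)) ≤
      (39 / 50) ^ 2 * ((1 + x) * L + x * l - Phi s - x * Phi (s / x)) - κ * (x - y) := by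
    have h1 := mul_le_mul_of_nonneg_right k1 hxy
    rw [b2e, hRs, hRr]
    linarith
  exact A2_alg (by norm_num) (by linarith) hE0 L1 L2 hmain htail

/-- (A2): the inequality of `cert_C1` at `ρ = 39/50`, for `T ≤ 1/2` -/
theorem A2_holds {m T : ℝ} (hm0 : 0 ≤ m) (hT0 : 0 < T) (hT : T ≤ 1 / 2) (hmT : m + T < 1) :
    (kap (39 / 50) * T ^ 2 - ((1 + m) / 2 * WW (39 / 50) (T / (1 + m)) +
        (1 - m) / 2 * WW (39 / 50) (T / (1 - m)))) *
        (log (2 / (1 + m)) + La (T / (1 + m))) ≤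
      (La (T / (1 + m)) - La (39 / 50 * (T / (1 + m)))) *
        ((39 / 50) ^ 2 * ((hb (m + T) + hb (m - T)) / 2) - kap (39 / 50) * (1 - m ^ 2 - T ^ 2)) := by
  have p1 : 0 < 1 + m := by linarith
  have p2 : 0 < 1 - m := by linarith
  set x := (1 - m) / (1 + m) with hx
  set s := T / (1 + m) with hs
  have hx0 : 0 < x := div_pos p2 p1
  have hx1 : x ≤ 1 := by rw [hx, div_le_one p1]; linarith
  have hs0 : 0 < s := div_pos hT0 p1
  have hsx : s < x := by
    rw [hs, hx, div_lt_div_iff_of_pos_right p1]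
    linarith
  have h1x : 1 + x = 2 / (1 + m) := by
    rw [hx]
    field_simp
    ring
  have hs4 : s ≤ (1 + x) / 4 := by
    rw [h1x, hs, div_div, div_le_div_iff₀ p1 (by positivity)]
    nlinarith
  have hsr : T / (1 - m) = s / x := by
    rw [hs, hx]
    field_simp
  have h := A2_core hx0 hx1 hs0 hsx hs4
  have k := avg_hb (c := m) (e := T) (by linarith) (by linarith)
    (by rw [abs_of_pos hT0]; linarith) (by rw [abs_of_pos hT0]; linarith)
  rw [k, ← hs, hsr, ← h1x]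
  -- entropy of `m`
  have hbm : hb m = (1 + m) / 2 * ((1 + x) * log (1 + x) + x * (-log x)) := by
    have e1 : log (1 + x) = log 2 - log (1 + m) := by rw [h1x, Real.log_div (by norm_num) p1.ne']
    have e2 : log x = log (1 - m) - log (1 + m) := by rw [hx, Real.log_div p2.ne' p1.ne']
    rw [hb_eq_log (by linarith) (by linarith), e1, e2, h1x, hx]
    unfold Phi
    field_simp
    ring
  have e3 : (1 - m) / 2 = (1 + m) / 2 * x := by
    rw [hx]
    field_simp
  have e4 : T = (1 + m) * s := by rw [hs]; field_simp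
  have e5 : kap (39 / 50) * T ^ 2 = (1 + m) / 2 * (4 * kap (39 / 50) / (1 + x) * s ^ 2) := by
    rw [h1x, e4]
    field_simp
    ring
  have e6 : kap (39 / 50) * (1 - m ^ 2 - T ^ 2) =
      (1 + m) / 2 * (4 * kap (39 / 50) / (1 + x) * (x - s ^ 2)) := by
    rw [h1x, e4, hx]
    field_simp
    ring
  rw [hbm, e3, e5, e6]
  have h2 := mul_le_mul_of_nonneg_left h (by linarith : 0 ≤ (1 + m) / 2)
  refine le_trans (le_of_eq ?_) (le_trans h2 (le_of_eq ?_))
  · ring
  · ring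

end

end Vale.Agent.P322
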