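import Vale.Agent.P322.A2Poly

/-!
# P322: (A2), the coefficient inequalities
-/

namespace Vale.Agent.P322

noncomputable section

/-- coefficients of the quadratic minorant -/
def kc0 (x L l : ℝ) : ℝ :=
  -(2469 / 5000 / (1 + x)) * L + 979 / 5000 * ((1 + x) * L + x * l - 2469 / 5000 * x / (1 + x))

/-- coefficients of the quadratic minorant -/
def kc1 (x L l : ℝ) : ℝ :=
  L * (1 / 12 * (979 / 2500) * (1 + 1 / x ^ 3)) - 1 / 2 * (2469 / 5000 / (1 + x)) +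
    979 / 5000 * (2469 / 5000 / (1 + x) - 1 / 2 * (1 + 1 / x)) +
    3149 / 20000 * ((1 + x) * L + x * l - 2469 / 5000 * x / (1 + x))

/-- coefficients of the quadratic minorant -/
def kc2 (x L l : ℝ) : ℝ :=
  L * (1 / 30 * (3149 / 5000) * (1 + 1 / x ^ 5)) + 1 / 2 * (1 / 12 * (979 / 2500) * (1 + 1 / x ^ 3)) -
    1 / 3 * (2469 / 5000 / (1 + x)) - 979 / 5000 * (1 / 12 * (1 + 1 / x ^ 3)) +
    3149 / 20000 * (2469 / 5000 / (1 + x) - 1 / 2 * (1 + 1 / x)) +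
    7747 / 60000 * ((1 + x) * L + x * l - 2469 / 5000 * x / (1 + x))

theorem FmA0 {x : ℝ} (h1 : 0 < x) (h2 : x ≤ 1 / 3) :
    0 ≤ kc0 x (2 * x / (2 + x)) (3 * (1 - x ^ 2) / (1 + 4 * x + x ^ 2)) := by
  have h0 : 0 < x := by linarith
  have hN := NmA0 (x := x) (by linarith) (by linarith)
  have e : kc0 x (2 * x / (2 + x)) (3 * (1 - x ^ 2) / (1 + 4 * x + x ^ 2)) =
      x * (9635698 + (-17719359) * x + 44022094 * x ^ 2 + 12267849 * x ^ 3 + (-4895000) * x ^ 4) / (25000000 * ((2 + x) * (1 + x) * (1 + 4 * x + x ^ 2) * x ^ 0)) := by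
    unfold kc0
    field_simp
    ring
  rw [e]
  exact div_nonneg (mul_nonneg h0.le hN) (by positivity)

theorem FmA1 {x : ℝ} (h1 : 0 < x) (h2 : x ≤ 1 / 3) :
    0 ≤ kc0 x (2 * x / (2 + x)) (3 * (1 - x ^ 2) / (1 + 4 * x + x ^ 2)) + kc1 x (2 * x / (2 + x)) (3 * (1 - x ^ 2) / (1 + 4 * x + x ^ 2)) * (x ^ 2) / 2 := by
  have h0 : 0 < x := by linarith
  have hN := NmA1 (x := x) (by linarith) (by linarith)
  have e : kc0 x (2 * x / (2 + x)) (3 * (1 - x ^ 2) / (1 + 4 * x + x ^ 2)) + kc1 x (2 * x / (2 + x)) (3 * (1 - x ^ 2) / (1 + 4 * x + x ^ 2)) * (x ^ 2) / 2 =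
      x * (19580000 + 270416752 * x + (-799302992) * x ^ 2 + 257723278 * x ^ 3 + 257816461 * x ^ 4 + 363442954 * x ^ 5 + 108590357 * x ^ 6 + (-47235000) * x ^ 7) / (600000000 * ((2 + x) * (1 + x) * (1 + 4 * x + x ^ 2) * x ^ 1)) := by
    unfold kc0 kc1
    field_simp
    ring
  rw [e]
  exact div_nonneg (mul_nonneg h0.le hN) (by positivity)

theorem FmA2 {x : ℝ} (h1 : 0 < x) (h2 : x ≤ 1 / 3) :
    0 ≤ kc0 x (2 * x / (2 + x)) (3 * (1 - x ^ 2) / (1 + 4 * x + x ^ 2)) + kc1 x (2 * x / (2 + x)) (3 * (1 - x ^ 2) / (1 + 4 * x + x ^ 2)) * (x ^ 2) + (kc2 x (2 * x / (2 + x)) (3 * (1 - x ^ 2) / (1 + 4 * x + x ^ 2)) - 3 / 100) * (x ^ 2) ^ 2 := by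
  have h0 : 0 < x := by linarith
  have hN := NmA2 (x := x) (by linarith) (by linarith)
  have e : kc0 x (2 * x / (2 + x)) (3 * (1 - x ^ 2) / (1 + 4 * x + x ^ 2)) + kc1 x (2 * x / (2 + x)) (3 * (1 - x ^ 2) / (1 + 4 * x + x ^ 2)) * (x ^ 2) + (kc2 x (2 * x / (2 + x)) (3 * (1 - x ^ 2) / (1 + 4 * x + x ^ 2)) - 3 / 100) * (x ^ 2) ^ 2 =
      x * (32176000 + 217768376 * x + (-523690684) * x ^ 2 + (-305180850) * x ^ 3 + (-266535941) * x ^ 4 + (-241148945) * x ^ 5 + 1942128 * x ^ 6 + 281480585 * x ^ 7 + 77056157 * x ^ 8 + (-38735000) * x ^ 9) / (300000000 * ((2 + x) * (1 + x) * (1 + 4 * x + x ^ 2) * x ^ 1)) := by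
    unfold kc0 kc1 kc2
    field_simp
    ring
  rw [e]
  exact div_nonneg (mul_nonneg h0.le hN) (by positivity)

theorem FmB0 {x : ℝ} (h1 : 1 / 3 ≤ x) (h2 : x ≤ 1) :
    0 ≤ kc0 x (2 * x / (2 + x)) (3 * (1 - x ^ 2) / (1 + 4 * x + x ^ 2)) := by
  have h0 : 0 < x := by linarith
  have hN := NmB0 (x := x) (by linarith) (by linarith)
  have e : kc0 x (2 * x / (2 + x)) (3 * (1 - x ^ 2) / (1 + 4 * x + x ^ 2)) =
      x * (9635698 + (-17719359) * x + 44022094 * x ^ 2 + 12267849 * x ^ 3 + (-4895000) * x ^ 4) / (25000000 * ((2 + x) * (1 + x) * (1 + 4 * x + x ^ 2) * x ^ 0)) := by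
    unfold kc0
    field_simp
    ring
  rw [e]
  exact div_nonneg (mul_nonneg h0.le hN) (by positivity)

theorem FmB1 {x : ℝ} (h1 : 1 / 3 ≤ x) (h2 : x ≤ 1) :
    0 ≤ kc0 x (2 * x / (2 + x)) (3 * (1 - x ^ 2) / (1 + 4 * x + x ^ 2)) + kc1 x (2 * x / (2 + x)) (3 * (1 - x ^ 2) / (1 + 4 * x + x ^ 2)) * ((1 + x) ^ 2 / 16) / 2 := by
  have h0 : 0 < x := by linarith
  have hN := NmB1 (x := x) (by linarith) (by linarith)
  have e : kc0 x (2 * x / (2 + x)) (3 * (1 - x ^ 2) / (1 + 4 * x + x ^ 2)) + kc1 x (2 * x / (2 + x)) (3 * (1 - x ^ 2) / (1 + 4 * x + x ^ 2)) * ((1 + x) ^ 2 / 16) / 2 =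
      x * (19580000 + 78320000 * x + (-276138376) * x ^ 2 + 2192384302 * x ^ 3 + (-8812498103) * x ^ 4 + 16513376242 * x ^ 5 + 5744678366 * x ^ 6 + (-1228811332) * x ^ 7 + 14120357 * x ^ 8 + (-47235000) * x ^ 9) / (9600000000 * ((2 + x) * (1 + x) * (1 + 4 * x + x ^ 2) * x ^ 3)) := by
    unfold kc0 kc1
    field_simp
    ring
  rw [e]
  exact div_nonneg (mul_nonneg h0.le hN) (by positivity)

theorem FmB2 {x : ℝ} (h1 : 1 / 3 ≤ x) (h2 : x ≤ 1) :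
    0 ≤ kc0 x (2 * x / (2 + x)) (3 * (1 - x ^ 2) / (1 + 4 * x + x ^ 2)) + kc1 x (2 * x / (2 + x)) (3 * (1 - x ^ 2) / (1 + 4 * x + x ^ 2)) * ((1 + x) ^ 2 / 16) + (kc2 x (2 * x / (2 + x)) (3 * (1 - x ^ 2) / (1 + 4 * x + x ^ 2)) - 3 / 100) * ((1 + x) ^ 2 / 16) ^ 2 := by
  have h0 : 0 < x := by linarith
  have hN := NmB2 (x := x) (by linarith) (by linarith)
  have e : kc0 x (2 * x / (2 + x)) (3 * (1 - x ^ 2) / (1 + 4 * x + x ^ 2)) + kc1 x (2 * x / (2 + x)) (3 * (1 - x ^ 2) / (1 + 4 * x + x ^ 2)) * ((1 + x) ^ 2 / 16) + (kc2 x (2 * x / (2 + x)) (3 * (1 - x ^ 2) / (1 + 4 * x + x ^ 2)) - 3 / 100) * ((1 + x) ^ 2 / 16) ^ 2 =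
      x * (12596000 + 113364000 * x + 703756000 * x ^ 2 + 1898665000 * x ^ 3 + (-4291512230) * x ^ 4 + 3412465821 * x ^ 5 + (-91664479909) * x ^ 6 + 123357086523 * x ^ 7 + 51949585041 * x ^ 8 + (-3471682989) * x ^ 9 + 1741536765 * x ^ 10 + (-351229787) * x ^ 11 + (-77883843) * x ^ 12 + (-38735000) * x ^ 13) / (76800000000 * ((2 + x) * (1 + x) * (1 + 4 * x + x ^ 2) * x ^ 5)) := by
    unfold kc0 kc1 kc2
    field_simp
    ring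
  rw [e]
  exact div_nonneg (mul_nonneg h0.le hN) (by positivity)

theorem FpA0 {x : ℝ} (h1 : 0 < x) (h2 : x ≤ 1 / 3) :
    0 ≤ kc0 x (x * (6 + x) / (6 + 4 * x)) (3 * (1 - x ^ 2) / (1 + 4 * x + x ^ 2)) := by
  have h0 : 0 < x := by linarith
  have hN := NpA0 (x := x) (by linarith) (by linarith)
  have e : kc0 x (x * (6 + x) / (6 + 4 * x)) (3 * (1 - x ^ 2) / (1 + 4 * x + x ^ 2)) =
      x * (14453547 + (-24170114) * x + 58536339 * x ^ 2 + 28153198 * x ^ 3 + 2447500 * x ^ 5) / (12500000 * ((6 + 4 * x) * (1 + x) * (1 + 4 * x + x ^ 2) * x ^ 0)) := by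
    unfold kc0
    field_simp
    ring
  rw [e]
  exact div_nonneg (mul_nonneg h0.le hN) (by positivity)

theorem FpA1 {x : ℝ} (h1 : 0 < x) (h2 : x ≤ 1 / 3) :
    0 ≤ kc0 x (x * (6 + x) / (6 + 4 * x)) (3 * (1 - x ^ 2) / (1 + 4 * x + x ^ 2)) + kc1 x (x * (6 + x) / (6 + 4 * x)) (3 * (1 - x ^ 2) / (1 + 4 * x + x ^ 2)) * (x ^ 2) / 2 := by
  have h0 : 0 < x := by linarith
  have hN := NpA1 (x := x) (by linarith) (by linarith)
  have e : kc0 x (x * (6 + x) / (6 + 4 * x)) (3 * (1 - x ^ 2) / (1 + 4 * x + x ^ 2)) + kc1 x (x * (6 + x) / (6 + 4 * x)) (3 * (1 - x ^ 2) / (1 + 4 * x + x ^ 2)) * (x ^ 2) / 2 =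
      x * (29370000 + 410520128 * x + (-1131350300) * x ^ 2 + 120494575 * x ^ 3 + 476378182 * x ^ 4 + 801125551 * x ^ 5 + 385075714 * x ^ 6 + 4895000 * x ^ 7 + 23617500 * x ^ 8) / (300000000 * ((6 + 4 * x) * (1 + x) * (1 + 4 * x + x ^ 2) * x ^ 1)) := by
    unfold kc0 kc1
    field_simp
    ring
  rw [e]
  exact div_nonneg (mul_nonneg h0.le hN) (by positivity)

theorem FpA2 {x : ℝ} (h1 : 0 < x) (h2 : x ≤ 1 / 3) :
    0 ≤ kc0 x (x * (6 + x) / (6 + 4 * x)) (3 * (1 - x ^ 2) / (1 + 4 * x + x ^ 2)) + kc1 x (x * (6 + x) / (6 + 4 * x)) (3 * (1 - x ^ 2) / (1 + 4 * x + x ^ 2)) * (x ^ 2) + (kc2 x (x * (6 + x) / (6 + 4 * x)) (3 * (1 - x ^ 2) / (1 + 4 * x + x ^ 2)) - 3 / 100) * (x ^ 2) ^ 2 := by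
  have h0 : 0 < x := by linarith
  have hN := NpA2 (x := x) (by linarith) (by linarith)
  have e : kc0 x (x * (6 + x) / (6 + 4 * x)) (3 * (1 - x ^ 2) / (1 + 4 * x + x ^ 2)) + kc1 x (x * (6 + x) / (6 + 4 * x)) (3 * (1 - x ^ 2) / (1 + 4 * x + x ^ 2)) * (x ^ 2) + (kc2 x (x * (6 + x) / (6 + 4 * x)) (3 * (1 - x ^ 2) / (1 + 4 * x + x ^ 2)) - 3 / 100) * (x ^ 2) ^ 2 =
      x * (48264000 + 334696564 * x + (-731093932) * x ^ 2 + (-618154993) * x ^ 3 + (-435827265) * x ^ 4 + (-282252476) * x ^ 5 + 74090485 * x ^ 6 + 543386013 * x ^ 7 + 264646814 * x ^ 8 + 3149000 * x ^ 9 + 19367500 * x ^ 10) / (150000000 * ((6 + 4 * x) * (1 + x) * (1 + 4 * x + x ^ 2) * x ^ 1)) := by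
    unfold kc0 kc1 kc2
    field_simp
    ring
  rw [e]
  exact div_nonneg (mul_nonneg h0.le hN) (by positivity)

theorem FpB0 {x : ℝ} (h1 : 1 / 3 ≤ x) (h2 : x ≤ 1) :
    0 ≤ kc0 x (x * (6 + x) / (6 + 4 * x)) (3 * (1 - x ^ 2) / (1 + 4 * x + x ^ 2)) := by
  have h0 : 0 < x := by linarith
  have hN := NpB0 (x := x) (by linarith) (by linarith)
  have e : kc0 x (x * (6 + x) / (6 + 4 * x)) (3 * (1 - x ^ 2) / (1 + 4 * x + x ^ 2)) =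
      x * (14453547 + (-24170114) * x + 58536339 * x ^ 2 + 28153198 * x ^ 3 + 2447500 * x ^ 5) / (12500000 * ((6 + 4 * x) * (1 + x) * (1 + 4 * x + x ^ 2) * x ^ 0)) := by
    unfold kc0
    field_simp
    ring
  rw [e]
  exact div_nonneg (mul_nonneg h0.le hN) (by positivity)

theorem FpB1 {x : ℝ} (h1 : 1 / 3 ≤ x) (h2 : x ≤ 1) :
    0 ≤ kc0 x (x * (6 + x) / (6 + 4 * x)) (3 * (1 - x ^ 2) / (1 + 4 * x + x ^ 2)) + kc1 x (x * (6 + x) / (6 + 4 * x)) (3 * (1 - x ^ 2) / (1 + 4 * x + x ^ 2)) * ((1 + x) ^ 2 / 16) / 2 := by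
  have h0 : 0 < x := by linarith
  have hN := NpB1 (x := x) (by linarith) (by linarith)
  have e : kc0 x (x * (6 + x) / (6 + 4 * x)) (3 * (1 - x ^ 2) / (1 + 4 * x + x ^ 2)) + kc1 x (x * (6 + x) / (6 + 4 * x)) (3 * (1 - x ^ 2) / (1 + 4 * x + x ^ 2)) * ((1 + x) ^ 2 / 16) / 2 =
      x * (29370000 + 122375000 * x + (-394627564) * x ^ 2 + 3226884359 * x ^ 3 + (-12600645032) * x ^ 4 + 21596105026 * x ^ 5 + 12540116278 * x ^ 6 + 1458691979 * x ^ 7 + 1299583214 * x ^ 8 + 52130000 * x ^ 9 + 23617500 * x ^ 10) / (4800000000 * ((6 + 4 * x) * (1 + x) * (1 + 4 * x + x ^ 2) * x ^ 3)) := by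
    unfold kc0 kc1
    field_simp
    ring
  rw [e]
  exact div_nonneg (mul_nonneg h0.le hN) (by positivity)

theorem FpB2 {x : ℝ} (h1 : 1 / 3 ≤ x) (h2 : x ≤ 1) :
    0 ≤ kc0 x (x * (6 + x) / (6 + 4 * x)) (3 * (1 - x ^ 2) / (1 + 4 * x + x ^ 2)) + kc1 x (x * (6 + x) / (6 + 4 * x)) (3 * (1 - x ^ 2) / (1 + 4 * x + x ^ 2)) * ((1 + x) ^ 2 / 16) + (kc2 x (x * (6 + x) / (6 + 4 * x)) (3 * (1 - x ^ 2) / (1 + 4 * x + x ^ 2)) - 3 / 100) * ((1 + x) ^ 2 / 16) ^ 2 := by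
  have h0 : 0 < x := by linarith
  have hN := NpB2 (x := x) (by linarith) (by linarith)
  have e : kc0 x (x * (6 + x) / (6 + 4 * x)) (3 * (1 - x ^ 2) / (1 + 4 * x + x ^ 2)) + kc1 x (x * (6 + x) / (6 + 4 * x)) (3 * (1 - x ^ 2) / (1 + 4 * x + x ^ 2)) * ((1 + x) ^ 2 / 16) + (kc2 x (x * (6 + x) / (6 + 4 * x)) (3 * (1 - x ^ 2) / (1 + 4 * x + x ^ 2)) - 3 / 100) * ((1 + x) ^ 2 / 16) ^ 2 =
      x * (18894000 + 173195000 * x + 1083975000 * x ^ 2 + 3023936500 * x ^ 3 + (-5962602095) * x ^ 4 + 4169205049 * x ^ 5 + (-135455699067) * x ^ 6 + 156292127159 * x ^ 7 + 109952659005 * x ^ 8 + 25327445055 * x ^ 9 + 16625099631 * x ^ 10 + 2433052269 * x ^ 11 + 747710314 * x ^ 12 + 80619000 * x ^ 13 + 19367500 * x ^ 14) / (38400000000 * ((6 + 4 * x) * (1 + x) * (1 + 4 * x + x ^ 2) * x ^ 5)) := by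
    unfold kc0 kc1 kc2
    field_simp
    ring
  rw [e]
  exact div_nonneg (mul_nonneg h0.le hN) (by positivity)

end

end Vale.Agent.P322
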