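import Vale.Agent.P322.A2Link

/-!
# P322: (A2), positivity of the two-variable minorant
-/

namespace Vale.Agent.P322

noncomputable section

/-- truncated first bracket divided by `y` -/
def b1f (x y : ℝ) : ℝ :=
  -(2469 / 5000 / (1 + x)) + 1 / 12 * (979 / 2500) * (1 + 1 / x ^ 3) * y +
    1 / 30 * (3149 / 5000) * (1 + 1 / x ^ 5) * y ^ 2 + 1 / 56 * (7747 / 10000) * (1 + 1 / x ^ 7) * y ^ 3

/-- truncated second bracket -/
def b2f (x y L l : ℝ) : ℝ :=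
  (1 + x) * L + x * l - 2469 / 5000 * x / (1 + x) +
    (2469 / 5000 / (1 + x) - 1 / 2 * (1 + 1 / x)) * y - 1 / 12 * (1 + 1 / x ^ 3) * y ^ 2 -
    1 / 30 * (1 + 1 / x ^ 5) * y ^ 3 - 1 / 56 * (1 + 1 / x ^ 7) * y ^ 4

/-- truncated `(La s - La (ρ s)) / y` -/
def Ef (y : ℝ) : ℝ := 979 / 5000 + 3149 / 20000 * y + 7747 / 60000 * y ^ 2

def kc3 (x L : ℝ) : ℝ :=
  L * (1 / 56 * (7747 / 10000) * (1 + 1 / x ^ 7)) + 1 / 2 * (1 / 30 * (3149 / 5000) * (1 + 1 / x ^ 5)) +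
    1 / 3 * (1 / 12 * (979 / 2500) * (1 + 1 / x ^ 3)) - 979 / 5000 * (1 / 30 * (1 + 1 / x ^ 5)) -
    3149 / 20000 * (1 / 12 * (1 + 1 / x ^ 3)) +
    7747 / 60000 * (2469 / 5000 / (1 + x) - 1 / 2 * (1 + 1 / x))

def kc456 (x y : ℝ) : ℝ :=
  1 / 2 * (1 / 56 * (7747 / 10000) * (1 + 1 / x ^ 7)) + 1 / 3 * (1 / 30 * (3149 / 5000) * (1 + 1 / x ^ 5)) -
    979 / 5000 * (1 / 56 * (1 + 1 / x ^ 7)) - 3149 / 20000 * (1 / 30 * (1 + 1 / x ^ 5)) -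
    7747 / 60000 * (1 / 12 * (1 + 1 / x ^ 3)) +
    (1 / 3 * (1 / 56 * (7747 / 10000) * (1 + 1 / x ^ 7)) - 3149 / 20000 * (1 / 56 * (1 + 1 / x ^ 7)) -
      7747 / 60000 * (1 / 30 * (1 + 1 / x ^ 5))) * y -
    7747 / 60000 * (1 / 56 * (1 + 1 / x ^ 7)) * y ^ 2

theorem p_eq (x y L l : ℝ) : (L + y / 2 + y ^ 2 / 3) * b1f x y + Ef y * b2f x y L l =
    kc0 x L l + kc1 x L l * y + kc2 x L l * y ^ 2 + kc3 x L * y ^ 3 + kc456 x y * y ^ 4 := by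
  unfold b1f b2f Ef kc0 kc1 kc2 kc3 kc456
  ring

theorem kc3_ge {x L : ℝ} (hx : 0 < x) (hx1 : x ≤ 1) (hL : 0 ≤ L) : -(11 / 100) ≤ kc3 x L := by
  unfold kc3
  have h1 : 0 ≤ L * (1 / 56 * (7747 / 10000) * (1 + 1 / x ^ 7)) := by positivity
  have h2 : 1 / 2 ≤ 1 / (1 + x) := one_div_le_one_div_of_le (by linarith) (by linarith)
  have h3 : 2469 / 5000 / (1 + x) = 2469 / 5000 * (1 / (1 + x)) := by ring
  rw [h3]
  have hu : 1 ≤ 1 / x := by rw [le_div_iff₀ hx]; linarith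
  have e3 : 1 / x ^ 3 = (1 / x) ^ 3 := by rw [div_pow, one_pow]
  have e5 : 1 / x ^ 5 = (1 / x) ^ 5 := by rw [div_pow, one_pow]
  rw [e3, e5]
  set u := 1 / x with hu'
  obtain ⟨t, ht⟩ : ∃ t : ℝ, t = u - 1 := ⟨_, rfl⟩
  have ht0 : 0 ≤ t := by rw [ht]; linarith
  have hut : u = 1 + t := by rw [ht]; ring
  rw [hut]
  nlinarith [mul_nonneg ht0 (sq_nonneg (t - 21 / 50)), sq_nonneg (t - 21 / 50),
    mul_nonneg (mul_nonneg ht0 ht0) (mul_nonneg ht0 ht0), mul_nonneg ht0 ht0,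
    mul_nonneg (mul_nonneg ht0 ht0) ht0,
    mul_nonneg (mul_nonneg (mul_nonneg ht0 ht0) (mul_nonneg ht0 ht0)) ht0]

theorem kc456_ge {x y : ℝ} (hx : 0 < x) (hx1 : x ≤ 1) (hy : 0 ≤ y) (hy1 : y ≤ 1 / 4) :
    -(1 / 50) ≤ kc456 x y := by
  unfold kc456
  have hu : 1 ≤ 1 / x := by rw [le_div_iff₀ hx]; linarith
  have e3 : 1 / x ^ 3 = (1 / x) ^ 3 := by rw [div_pow, one_pow]
  have e5 : 1 / x ^ 5 = (1 / x) ^ 5 := by rw [div_pow, one_pow]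
  have e7 : 1 / x ^ 7 = (1 / x) ^ 7 := by rw [div_pow, one_pow]
  rw [e3, e5, e7]
  set u := 1 / x with hu'
  -- group the powers
  have g7 : 0 ≤ (1 + u ^ 7) * (1 / 56 * ((7747 / 30000 - 3149 / 20000) * y - 7747 / 60000 * y ^ 2)) := by
    apply mul_nonneg (by positivity)
    nlinarith
  have g5 : 0 ≤ (1 + u ^ 5) * (1 / 30 * (3149 / 60000 - 7747 / 60000 * y)) := by
    apply mul_nonneg (by positivity)
    nlinarith
  obtain ⟨t, ht⟩ : ∃ t : ℝ, t = u - 1 := ⟨_, rfl⟩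
  have ht0 : 0 ≤ t := by rw [ht]; linarith
  have hut : u = 1 + t := by rw [ht]; ring
  have g0 : -(1 / 50) ≤ (1 + u ^ 7) * (1 / 56 * (7747 / 20000 - 979 / 5000)) -
      (1 + u ^ 3) * (1 / 12 * (7747 / 60000)) := by
    rw [hut]
    nlinarith [mul_nonneg ht0 ht0, mul_nonneg (mul_nonneg ht0 ht0) ht0,
      mul_nonneg (mul_nonneg ht0 ht0) (mul_nonneg ht0 ht0), sq_nonneg (t - 1 / 10),
      mul_nonneg (mul_nonneg (mul_nonneg ht0 ht0) (mul_nonneg ht0 ht0)) ht0,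
      mul_nonneg (mul_nonneg (mul_nonneg ht0 ht0) (mul_nonneg ht0 ht0)) (mul_nonneg ht0 ht0),
      mul_nonneg (mul_nonneg (mul_nonneg (mul_nonneg ht0 ht0) (mul_nonneg ht0 ht0)) (mul_nonneg ht0 ht0)) ht0]
  linarith

theorem quad_nonneg {c0 c1 c2 y Y : ℝ} (hY : 0 < Y) (hy0 : 0 ≤ y) (hyY : y ≤ Y) (h0 : 0 ≤ c0)
    (h1 : 0 ≤ c0 + c1 * Y / 2) (h2 : 0 ≤ c0 + c1 * Y + c2 * Y ^ 2) :
    0 ≤ c0 + c1 * y + c2 * y ^ 2 := by
  have e : Y ^ 2 * (c0 + c1 * y + c2 * y ^ 2) = c0 * (Y - y) ^ 2 +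
      2 * (y * (Y - y)) * (c0 + c1 * Y / 2) + y ^ 2 * (c0 + c1 * Y + c2 * Y ^ 2) := by ring
  have h3 : 0 ≤ Y ^ 2 * (c0 + c1 * y + c2 * y ^ 2) := by
    rw [e]
    have h4 : 0 ≤ y * (Y - y) := mul_nonneg hy0 (by linarith)
    positivity
  exact nonneg_of_mul_nonneg_right h3 (by positivity)

theorem affine_nonneg {f : ℝ → ℝ} (A B : ℝ) (hf : ∀ L, f L = A + B * L) {L Lm Lp : ℝ}
    (h1 : Lm ≤ L) (h2 : L ≤ Lp) (hm : 0 ≤ f Lm) (hp : 0 ≤ f Lp) : 0 ≤ f L := by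
  rw [hf] at *
  rcases le_total 0 B with hB | hB
  · have := mul_le_mul_of_nonneg_left h1 hB
    linarith
  · have := mul_le_mul_of_nonpos_left h2 hB
    linarith

/-- the three Bernstein conditions for given bounds -/
theorem three_conditions {x L l Y Lm Lp l0 : ℝ} (hx : 0 < x) (hY : 0 < Y) (h1 : Lm ≤ L)
    (h2 : L ≤ Lp) (hl : l0 ≤ l)
    (m0 : 0 ≤ kc0 x Lm l0) (p0 : 0 ≤ kc0 x Lp l0)
    (m1 : 0 ≤ kc0 x Lm l0 + kc1 x Lm l0 * Y / 2) (p1 : 0 ≤ kc0 x Lp l0 + kc1 x Lp l0 * Y / 2)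
    (m2 : 0 ≤ kc0 x Lm l0 + kc1 x Lm l0 * Y + (kc2 x Lm l0 - 3 / 100) * Y ^ 2)
    (p2 : 0 ≤ kc0 x Lp l0 + kc1 x Lp l0 * Y + (kc2 x Lp l0 - 3 / 100) * Y ^ 2) :
    0 ≤ kc0 x L l ∧ 0 ≤ kc0 x L l + kc1 x L l * Y / 2 ∧
      0 ≤ kc0 x L l + kc1 x L l * Y + (kc2 x L l - 3 / 100) * Y ^ 2 := by
  have hxl : 0 ≤ x * (l - l0) := mul_nonneg hx.le (by linarith)
  have q0 : kc0 x L l = kc0 x L l0 + 979 / 5000 * (x * (l - l0)) := by unfold kc0; ring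
  have q1 : kc1 x L l = kc1 x L l0 + 3149 / 20000 * (x * (l - l0)) := by unfold kc1; ring
  have q2 : kc2 x L l = kc2 x L l0 + 7747 / 60000 * (x * (l - l0)) := by unfold kc2; ring
  have a0 : 0 ≤ kc0 x L l0 :=
    affine_nonneg (f := fun L => kc0 x L l0) (kc0 x 0 l0) (kc0 x 1 l0 - kc0 x 0 l0)
      (by intro L; unfold kc0; ring) h1 h2 m0 p0
  have a1 : 0 ≤ kc0 x L l0 + kc1 x L l0 * Y / 2 :=
    affine_nonneg (f := fun L => kc0 x L l0 + kc1 x L l0 * Y / 2)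
      (kc0 x 0 l0 + kc1 x 0 l0 * Y / 2)
      ((kc0 x 1 l0 + kc1 x 1 l0 * Y / 2) - (kc0 x 0 l0 + kc1 x 0 l0 * Y / 2))
      (by intro L; unfold kc0 kc1; ring) h1 h2 m1 p1
  have a2 : 0 ≤ kc0 x L l0 + kc1 x L l0 * Y + (kc2 x L l0 - 3 / 100) * Y ^ 2 :=
    affine_nonneg (f := fun L => kc0 x L l0 + kc1 x L l0 * Y + (kc2 x L l0 - 3 / 100) * Y ^ 2)
      (kc0 x 0 l0 + kc1 x 0 l0 * Y + (kc2 x 0 l0 - 3 / 100) * Y ^ 2)
      ((kc0 x 1 l0 + kc1 x 1 l0 * Y + (kc2 x 1 l0 - 3 / 100) * Y ^ 2) -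
        (kc0 x 0 l0 + kc1 x 0 l0 * Y + (kc2 x 0 l0 - 3 / 100) * Y ^ 2))
      (by intro L; unfold kc0 kc1 kc2; ring) h1 h2 m2 p2
  refine ⟨?_, ?_, ?_⟩
  · rw [q0]; linarith
  · rw [q0, q1]
    have : 0 ≤ (x * (l - l0)) * Y := mul_nonneg hxl hY.le
    nlinarith
  · rw [q0, q1, q2]
    have k1 : 0 ≤ (x * (l - l0)) * Y := mul_nonneg hxl hY.le
    have k2 : 0 ≤ (x * (l - l0)) * Y ^ 2 := mul_nonneg hxl (sq_nonneg Y)
    nlinarith

/-- positivity of the minorant -/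
theorem p_nonneg {x y L l : ℝ} (hx : 0 < x) (hx1 : x ≤ 1) (hy0 : 0 ≤ y) (hyx : y ≤ x ^ 2)
    (hy1 : y ≤ (1 + x) ^ 2 / 16) (hLm : 2 * x / (2 + x) ≤ L) (hLp : L ≤ x * (6 + x) / (6 + 4 * x))
    (hl : 3 * (1 - x ^ 2) / (1 + 4 * x + x ^ 2) ≤ l) :
    0 ≤ (L + y / 2 + y ^ 2 / 3) * b1f x y + Ef y * b2f x y L l := by
  have hL0 : 0 ≤ L := le_trans (by positivity) hLm
  have hy4 : y ≤ 1 / 4 := by nlinarith
  rw [p_eq]
  have h3 := kc3_ge hx hx1 hL0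
  have h4 := kc456_ge hx hx1 hy0 hy4
  have hq : 0 ≤ kc0 x L l + kc1 x L l * y + (kc2 x L l - 3 / 100) * y ^ 2 := by
    rcases le_total x (1 / 3) with hx3 | hx3
    · obtain ⟨c0, c1, c2⟩ := three_conditions (Y := x ^ 2) hx (by positivity) hLm hLp hl
        (FmA0 hx hx3) (FpA0 hx hx3) (FmA1 hx hx3) (FpA1 hx hx3) (FmA2 hx hx3) (FpA2 hx hx3)
      exact quad_nonneg (by positivity) hy0 hyx c0 c1 c2
    · obtain ⟨c0, c1, c2⟩ := three_conditions (Y := (1 + x) ^ 2 / 16) hx (by positivity) hLm hLp hl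
        (FmB0 hx3 hx1) (FpB0 hx3 hx1) (FmB1 hx3 hx1) (FpB1 hx3 hx1) (FmB2 hx3 hx1) (FpB2 hx3 hx1)
      exact quad_nonneg (by positivity) hy0 hy1 c0 c1 c2
  have h5 : -(11 / 100) * y ^ 3 ≤ kc3 x L * y ^ 3 := mul_le_mul_of_nonneg_right h3 (by positivity)
  have h6 : -(1 / 50) * y ^ 4 ≤ kc456 x y * y ^ 4 := mul_le_mul_of_nonneg_right h4 (by positivity)
  have h7 : y ^ 3 ≤ 1 / 4 * y ^ 2 := by
    have : y ^ 3 = y * y ^ 2 := by ring
    rw [this]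
    exact mul_le_mul_of_nonneg_right hy4 (by positivity)
  have h8 : y ^ 4 ≤ 1 / 16 * y ^ 2 := by
    have e : y ^ 4 = y ^ 2 * y ^ 2 := by ring
    rw [e]
    exact mul_le_mul_of_nonneg_right (by nlinarith) (by positivity)
  have h9 : 0 ≤ y ^ 2 := sq_nonneg y
  have h10 : (kc2 x L l - 3 / 100) * y ^ 2 = kc2 x L l * y ^ 2 - 3 / 100 * y ^ 2 := by ring
  rw [h10] at hq
  linarith

theorem NB2 {x : ℝ} (h1 : (1/3) ≤ x) (h2 : x ≤ 1) : 0 ≤ (-6346) + (-28557) * x + 190224 * x ^ 2 + 316074 * x ^ 3 + (-19038) * x ^ 4 + (-83173) * x ^ 5 := by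
  have g1 : 0 ≤ x - (1/3) := by linarith
  have g2 : 0 ≤ 1 - x := by linarith
  linear_combination (249077/2) * (mul_nonneg (pow_nonneg g1 0) (pow_nonneg g2 5)) +
    (3226467/2) * (mul_nonneg (pow_nonneg g1 1) (pow_nonneg g2 4)) +
    6769503 * (mul_nonneg (pow_nonneg g1 2) (pow_nonneg g2 3)) +
    12320613 * (mul_nonneg (pow_nonneg g1 3) (pow_nonneg g2 2)) +
    9926469 * (mul_nonneg (pow_nonneg g1 4) (pow_nonneg g2 1)) +
    2803491 * (mul_nonneg (pow_nonneg g1 5) (pow_nonneg g2 0))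

/-- positivity of the second bracket -/
theorem b2f_nonneg {x y L l : ℝ} (hx : 0 < x) (hx1 : x ≤ 1) (hy0 : 0 ≤ y) (hyx : y ≤ x ^ 2)
    (hy1 : y ≤ (1 + x) ^ 2 / 16) (hLm : 2 * x / (2 + x) ≤ L)
    (hl : 3 * (1 - x ^ 2) / (1 + 4 * x + x ^ 2) ≤ l) : 0 ≤ b2f x y L l := by
  have hl' : 1 - x ≤ l := by
    refine le_trans ?_ hl
    rw [le_div_iff₀ (by positivity)]
    nlinarith [mul_nonneg hx.le (sub_nonneg.mpr hx1), mul_nonneg hx.le (mul_nonneg hx.le (sub_nonneg.mpr hx1))]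
  have hy4 : y ≤ 1 / 4 := by nlinarith
  have hy1' : y ≤ 1 := by linarith
  set u := 1 / x with hu
  have hxu : x * u = 1 := by rw [hu]; field_simp
  have hu1 : 1 ≤ u := by rw [hu, le_div_iff₀ hx]; linarith
  have huy : u ^ 2 * y ≤ 1 := by
    have h := mul_le_mul_of_nonneg_left hyx (sq_nonneg u)
    have e : u ^ 2 * x ^ 2 = 1 := by rw [← mul_pow, mul_comm u x, hxu, one_pow]
    linarith
  have huy0 : 0 ≤ u ^ 2 * y := by positivity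
  have e3 : 1 / x ^ 3 = u ^ 3 := by rw [hu, div_pow, one_pow]
  have e5 : 1 / x ^ 5 = u ^ 5 := by rw [hu, div_pow, one_pow]
  have e7 : 1 / x ^ 7 = u ^ 7 := by rw [hu, div_pow, one_pow]
  unfold b2f
  rw [e3, e5, e7, ← hu]
  have hyu : 0 ≤ y * u := by positivity
  have k2 : (1 + u ^ 3) * y ^ 2 ≤ y * (1 + u) := by
    have a1 : y ^ 2 ≤ y := by nlinarith
    have a2 : u ^ 3 * y ^ 2 ≤ y * u := by
      have : u ^ 3 * y ^ 2 = (y * u) * (u ^ 2 * y) := by ring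
      rw [this]
      exact mul_le_of_le_one_right hyu huy
    linarith
  have k3 : (1 + u ^ 5) * y ^ 3 ≤ y * (1 + u) := by
    have a1 : y ^ 3 ≤ y := by
      have : y ^ 3 = y * y ^ 2 := by ring
      rw [this]
      exact mul_le_of_le_one_right hy0 (by nlinarith)
    have a2 : u ^ 5 * y ^ 3 ≤ y * u := by
      have : u ^ 5 * y ^ 3 = (y * u) * ((u ^ 2 * y) * (u ^ 2 * y)) := by ring
      rw [this]
      exact mul_le_of_le_one_right hyu (by nlinarith)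
    linarith
  have k4 : (1 + u ^ 7) * y ^ 4 ≤ y * (1 + u) := by
    have a1 : y ^ 4 ≤ y := by
      have : y ^ 4 = y * y ^ 3 := by ring
      rw [this]
      exact mul_le_of_le_one_right hy0 (pow_le_one₀ hy0 hy1')
    have a2 : u ^ 7 * y ^ 4 ≤ y * u := by
      have : u ^ 7 * y ^ 4 = (y * u) * (u ^ 2 * y) ^ 3 := by ring
      rw [this]
      exact mul_le_of_le_one_right hyu (pow_le_one₀ huy0 huy)
    linarith
  have hC : 0 ≤ 2469 / 5000 / (1 + x) * y := by positivity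
  -- it remains to bound the main part
  have hmain : 0 ≤ (1 + x) * L + x * l - 2469 / 5000 * x / (1 + x) - 3173 / 5000 * (y * (1 + u)) := by
    have hL' : (1 + x) * (2 * x / (2 + x)) ≤ (1 + x) * L := mul_le_mul_of_nonneg_left hLm (by linarith)
    have hl'' : x * (1 - x) ≤ x * l := mul_le_mul_of_nonneg_left hl' hx.le
    rcases le_total x (1 / 3) with hx3 | hx3
    · have h1 : y * (1 + u) ≤ x ^ 2 * (1 + u) := mul_le_mul_of_nonneg_right hyx (by positivity)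
      have h2 : x ^ 2 * (1 + u) = x ^ 2 + x := by
        have : x ^ 2 * (1 + u) = x ^ 2 + x * (x * u) := by ring
        rw [this, hxu]; ring
      have h3 : 6 / 7 * x ≤ 2 * x / (2 + x) := by
        rw [le_div_iff₀ (by linarith)]
        nlinarith
      have h4 : 2469 / 5000 * x / (1 + x) ≤ 2469 / 5000 * x := by
        apply div_le_self (by positivity) (by linarith)
      nlinarith
    · have h1 : y * (1 + u) ≤ (1 + x) ^ 2 / 16 * (1 + u) :=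
        mul_le_mul_of_nonneg_right hy1 (by positivity)
      have hN := NB2 hx3 hx1
      have e : (1 + x) * (2 * x / (2 + x)) + x * (1 - x) - 2469 / 5000 * x / (1 + x) -
          3173 / 5000 * ((1 + x) ^ 2 / 16 * (1 + u)) =
          ((-6346) + (-28557) * x + 190224 * x ^ 2 + 316074 * x ^ 3 + (-19038) * x ^ 4 +
            (-83173) * x ^ 5) / (80000 * ((2 + x) * (1 + x) * x)) := by
        rw [hu]
        field_simp
        ring
      have h2 : 0 ≤ (1 + x) * (2 * x / (2 + x)) + x * (1 - x) - 2469 / 5000 * x / (1 + x) -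
          3173 / 5000 * ((1 + x) ^ 2 / 16 * (1 + u)) := by
        rw [e]
        exact div_nonneg hN (by positivity)
      linarith
  nlinarith

end

end Vale.Agent.P322
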