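import Mathlib

namespace Vale.Agent.P322

theorem NmA0 {x : ℝ} (h1 : 0 ≤ x) (h2 : x ≤ (1/3)) : 0 ≤ 9635698 + (-17719359) * x + 44022094 * x ^ 2 + 12267849 * x ^ 3 + (-4895000) * x ^ 4 := by
  have g1 : 0 ≤ x - 0 := by linarith
  have g2 : 0 ≤ (1/3) - x := by linarith
  linear_combination 780491538 * (mul_nonneg (pow_nonneg g1 0) (pow_nonneg g2 4)) +
    2643543459 * (mul_nonneg (pow_nonneg g1 1) (pow_nonneg g2 3)) +
    3643879995 * (mul_nonneg (pow_nonneg g1 2) (pow_nonneg g2 2)) +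
    2515899312 * (mul_nonneg (pow_nonneg g1 3) (pow_nonneg g2 1)) +
    730176238 * (mul_nonneg (pow_nonneg g1 4) (pow_nonneg g2 0))

theorem NmA1 {x : ℝ} (h1 : 0 ≤ x) (h2 : x ≤ (1/3)) : 0 ≤ 19580000 + 270416752 * x + (-799302992) * x ^ 2 + 257723278 * x ^ 3 + 257816461 * x ^ 4 + 363442954 * x ^ 5 + 108590357 * x ^ 6 + (-47235000) * x ^ 7 := by
  have g1 : 0 ≤ x - 0 := by linarith
  have g2 : 0 ≤ (1/3) - x := by linarith
  linear_combination 42821460000 * (mul_nonneg (pow_nonneg g1 0) (pow_nonneg g2 7)) +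
    496884032208 * (mul_nonneg (pow_nonneg g1 1) (pow_nonneg g2 6)) +
    1887822906192 * (mul_nonneg (pow_nonneg g1 2) (pow_nonneg g2 5)) +
    3505480733358 * (mul_nonneg (pow_nonneg g1 3) (pow_nonneg g2 4)) +
    3589584460119 * (mul_nonneg (pow_nonneg g1 4) (pow_nonneg g2 3)) +
    2063359205595 * (mul_nonneg (pow_nonneg g1 5) (pow_nonneg g2 2)) +
    622653177624 * (mul_nonneg (pow_nonneg g1 6) (pow_nonneg g2 1)) +
    77110797774 * (mul_nonneg (pow_nonneg g1 7) (pow_nonneg g2 0))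

theorem NmA2 {x : ℝ} (h1 : 0 ≤ x) (h2 : x ≤ (1/3)) : 0 ≤ 32176000 + 217768376 * x + (-523690684) * x ^ 2 + (-305180850) * x ^ 3 + (-266535941) * x ^ 4 + (-241148945) * x ^ 5 + 1942128 * x ^ 6 + 281480585 * x ^ 7 + 77056157 * x ^ 8 + (-38735000) * x ^ 9 := by
  have g1 : 0 ≤ x - 0 := by linarith
  have g2 : 0 ≤ (1/3) - x := by linarith
  linear_combination 633320208000 * (mul_nonneg (pow_nonneg g1 0) (pow_nonneg g2 9)) +
    7128660186936 * (mul_nonneg (pow_nonneg g1 1) (pow_nonneg g2 8)) +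
    33084442481580 * (mul_nonneg (pow_nonneg g1 2) (pow_nonneg g2 7)) +
    84965032769202 * (mul_nonneg (pow_nonneg g1 3) (pow_nonneg g2 6)) +
    134358760528785 * (mul_nonneg (pow_nonneg g1 4) (pow_nonneg g2 5)) +
    136046398019130 * (mul_nonneg (pow_nonneg g1 5) (pow_nonneg g2 4)) +
    87949280751282 * (mul_nonneg (pow_nonneg g1 6) (pow_nonneg g2 3)) +
    34654435581123 * (mul_nonneg (pow_nonneg g1 7) (pow_nonneg g2 2)) +
    7381548377106 * (mul_nonneg (pow_nonneg g1 8) (pow_nonneg g2 1)) +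
    612787055362 * (mul_nonneg (pow_nonneg g1 9) (pow_nonneg g2 0))

theorem NmB0 {x : ℝ} (h1 : (1/3) ≤ x) (h2 : x ≤ 1) : 0 ≤ 9635698 + (-17719359) * x + 44022094 * x ^ 2 + 12267849 * x ^ 3 + (-4895000) * x ^ 4 := by
  have g1 : 0 ≤ x - (1/3) := by linarith
  have g2 : 0 ≤ 1 - x := by linarith
  linear_combination (365088119/8) * (mul_nonneg (pow_nonneg g1 0) (pow_nonneg g2 4)) +
    (466289529/2) * (mul_nonneg (pow_nonneg g1 1) (pow_nonneg g2 3)) +
    544928076 * (mul_nonneg (pow_nonneg g1 2) (pow_nonneg g2 2)) +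
    (1163155383/2) * (mul_nonneg (pow_nonneg g1 3) (pow_nonneg g2 1)) +
    (1754106921/8) * (mul_nonneg (pow_nonneg g1 4) (pow_nonneg g2 0))

theorem NmB1 {x : ℝ} (h1 : (1/3) ≤ x) (h2 : x ≤ 1) : 0 ≤ 19580000 + 78320000 * x + (-276138376) * x ^ 2 + 2192384302 * x ^ 3 + (-8812498103) * x ^ 4 + 16513376242 * x ^ 5 + 5744678366 * x ^ 6 + (-1228811332) * x ^ 7 + 14120357 * x ^ 8 + (-47235000) * x ^ 9 := by
  have g1 : 0 ≤ x - (1/3) := by linarith
  have g2 : 0 ≤ 1 - x := by linarith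
  linear_combination (38555398887/16) * (mul_nonneg (pow_nonneg g1 0) (pow_nonneg g2 9)) +
    (67406687097/2) * (mul_nonneg (pow_nonneg g1 1) (pow_nonneg g2 8)) +
    (15110073161343/64) * (mul_nonneg (pow_nonneg g1 2) (pow_nonneg g2 7)) +
    (67450524500619/64) * (mul_nonneg (pow_nonneg g1 3) (pow_nonneg g2 6)) +
    (201718499199489/64) * (mul_nonneg (pow_nonneg g1 4) (pow_nonneg g2 5)) +
    (402257717633421/64) * (mul_nonneg (pow_nonneg g1 5) (pow_nonneg g2 4)) +
    (520441253731593/64) * (mul_nonneg (pow_nonneg g1 6) (pow_nonneg g2 3)) +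
    (415472968094157/64) * (mul_nonneg (pow_nonneg g1 7) (pow_nonneg g2 2)) +
    (184849053815259/64) * (mul_nonneg (pow_nonneg g1 8) (pow_nonneg g2 1)) +
    (34931854247931/64) * (mul_nonneg (pow_nonneg g1 9) (pow_nonneg g2 0))

theorem NmB2 {x : ℝ} (h1 : (1/3) ≤ x) (h2 : x ≤ 1) : 0 ≤ 12596000 + 113364000 * x + 703756000 * x ^ 2 + 1898665000 * x ^ 3 + (-4291512230) * x ^ 4 + 3412465821 * x ^ 5 + (-91664479909) * x ^ 6 + 123357086523 * x ^ 7 + 51949585041 * x ^ 8 + (-3471682989) * x ^ 9 + 1741536765 * x ^ 10 + (-351229787) * x ^ 11 + (-77883843) * x ^ 12 + (-38735000) * x ^ 13 := by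
  rcases le_total x (2/3) with hm | hm
  · have g1 : 0 ≤ x - (1/3) := by linarith
    have g2 : 0 ≤ (2/3) - x := by linarith
    linear_combination 156873486172672 * (mul_nonneg (pow_nonneg g1 0) (pow_nonneg g2 13)) +
      1984908714539264 * (mul_nonneg (pow_nonneg g1 1) (pow_nonneg g2 12)) +
      10987542186349920 * (mul_nonneg (pow_nonneg g1 2) (pow_nonneg g2 11)) +
      34549351601784320 * (mul_nonneg (pow_nonneg g1 3) (pow_nonneg g2 10)) +
      66718867711949596 * (mul_nonneg (pow_nonneg g1 4) (pow_nonneg g2 9)) +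
      79449504658139178 * (mul_nonneg (pow_nonneg g1 5) (pow_nonneg g2 8)) +
      57369866373622806 * (mul_nonneg (pow_nonneg g1 6) (pow_nonneg g2 7)) +
      37592867535389067 * (mul_nonneg (pow_nonneg g1 7) (pow_nonneg g2 6)) +
      63740101057004079 * (mul_nonneg (pow_nonneg g1 8) (pow_nonneg g2 5)) +
      108024571055178932 * (mul_nonneg (pow_nonneg g1 9) (pow_nonneg g2 4)) +
      108188491703854288 * (mul_nonneg (pow_nonneg g1 10) (pow_nonneg g2 3)) +
      62812493312673216 * (mul_nonneg (pow_nonneg g1 11) (pow_nonneg g2 2)) +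
      19961759389034704 * (mul_nonneg (pow_nonneg g1 12) (pow_nonneg g2 1)) +
      2709804991549088 * (mul_nonneg (pow_nonneg g1 13) (pow_nonneg g2 0))
  · have g1 : 0 ≤ x - (2/3) := by linarith
    have g2 : 0 ≤ 1 - x := by linarith
    linear_combination 2709804991549088 * (mul_nonneg (pow_nonneg g1 0) (pow_nonneg g2 13)) +
      50493170391241584 * (mul_nonneg (pow_nonneg g1 1) (pow_nonneg g2 12)) +
      429189425339155776 * (mul_nonneg (pow_nonneg g1 2) (pow_nonneg g2 11)) +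
      2203815703134107952 * (mul_nonneg (pow_nonneg g1 3) (pow_nonneg g2 10)) +
      7630475844386688372 * (mul_nonneg (pow_nonneg g1 4) (pow_nonneg g2 9)) +
      18822739254773874489 * (mul_nonneg (pow_nonneg g1 5) (pow_nonneg g2 8)) +
      34053095573975056347 * (mul_nonneg (pow_nonneg g1 6) (pow_nonneg g2 7)) +
      45773763273245852532 * (mul_nonneg (pow_nonneg g1 7) (pow_nonneg g2 6)) +
      45740137476969887742 * (mul_nonneg (pow_nonneg g1 8) (pow_nonneg g2 5)) +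
      33575394972325355208 * (mul_nonneg (pow_nonneg g1 9) (pow_nonneg g2 4)) +
      17605675115038441728 * (mul_nonneg (pow_nonneg g1 10) (pow_nonneg g2 3)) +
      6247546775186331744 * (mul_nonneg (pow_nonneg g1 11) (pow_nonneg g2 2)) +
      1345266701244207072 * (mul_nonneg (pow_nonneg g1 12) (pow_nonneg g2 1)) +
      132796792849487616 * (mul_nonneg (pow_nonneg g1 13) (pow_nonneg g2 0))

theorem NpA0 {x : ℝ} (h1 : 0 ≤ x) (h2 : x ≤ (1/3)) : 0 ≤ 14453547 + (-24170114) * x + 58536339 * x ^ 2 + 28153198 * x ^ 3 + 2447500 * x ^ 5 := by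
  have g1 : 0 ≤ x - 0 := by linarith
  have g2 : 0 ≤ (1/3) - x := by linarith
  linear_combination 3512211921 * (mul_nonneg (pow_nonneg g1 0) (pow_nonneg g2 5)) +
    15603280371 * (mul_nonneg (pow_nonneg g1 1) (pow_nonneg g2 4)) +
    28871483427 * (mul_nonneg (pow_nonneg g1 2) (pow_nonneg g2 3)) +
    28370266047 * (mul_nonneg (pow_nonneg g1 3) (pow_nonneg g2 2)) +
    14978143692 * (mul_nonneg (pow_nonneg g1 4) (pow_nonneg g2 1)) +
    3390740122 * (mul_nonneg (pow_nonneg g1 5) (pow_nonneg g2 0))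

theorem NpA1 {x : ℝ} (h1 : 0 ≤ x) (h2 : x ≤ (1/3)) : 0 ≤ 29370000 + 410520128 * x + (-1131350300) * x ^ 2 + 120494575 * x ^ 3 + 476378182 * x ^ 4 + 801125551 * x ^ 5 + 385075714 * x ^ 6 + 4895000 * x ^ 7 + 23617500 * x ^ 8 := by
  have g1 : 0 ≤ x - 0 := by linarith
  have g2 : 0 ≤ (1/3) - x := by linarith
  linear_combination 192696570000 * (mul_nonneg (pow_nonneg g1 0) (pow_nonneg g2 8)) +
    2439380079936 * (mul_nonneg (pow_nonneg g1 1) (pow_nonneg g2 7)) +
    10855402230852 * (mul_nonneg (pow_nonneg g1 2) (pow_nonneg g2 6)) +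
    24725719808181 * (mul_nonneg (pow_nonneg g1 3) (pow_nonneg g2 5)) +
    32725695108627 * (mul_nonneg (pow_nonneg g1 4) (pow_nonneg g2 4)) +
    26187962481855 * (mul_nonneg (pow_nonneg g1 5) (pow_nonneg g2 3)) +
    12470824812915 * (mul_nonneg (pow_nonneg g1 6) (pow_nonneg g2 2)) +
    3250283644428 * (mul_nonneg (pow_nonneg g1 7) (pow_nonneg g2 1)) +
    358750909506 * (mul_nonneg (pow_nonneg g1 8) (pow_nonneg g2 0))

theorem NpA2 {x : ℝ} (h1 : 0 ≤ x) (h2 : x ≤ (1/3)) : 0 ≤ 48264000 + 334696564 * x + (-731093932) * x ^ 2 + (-618154993) * x ^ 3 + (-435827265) * x ^ 4 + (-282252476) * x ^ 5 + 74090485 * x ^ 6 + 543386013 * x ^ 7 + 264646814 * x ^ 8 + 3149000 * x ^ 9 + 19367500 * x ^ 10 := by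
  have g1 : 0 ≤ x - 0 := by linarith
  have g2 : 0 ≤ (1/3) - x := by linarith
  linear_combination 2849940936000 * (mul_nonneg (pow_nonneg g1 0) (pow_nonneg g2 10)) +
    35087241829212 * (mul_nonneg (pow_nonneg g1 1) (pow_nonneg g2 9)) +
    182741127055056 * (mul_nonneg (pow_nonneg g1 2) (pow_nonneg g2 8)) +
    539429317939125 * (mul_nonneg (pow_nonneg g1 3) (pow_nonneg g2 7)) +
    1007776667049930 * (mul_nonneg (pow_nonneg g1 4) (pow_nonneg g2 6)) +
    1249271498700711 * (mul_nonneg (pow_nonneg g1 5) (pow_nonneg g2 5)) +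
    1040365597020057 * (mul_nonneg (pow_nonneg g1 6) (pow_nonneg g2 4)) +
    572436999374022 * (mul_nonneg (pow_nonneg g1 7) (pow_nonneg g2 3)) +
    197342261992899 * (mul_nonneg (pow_nonneg g1 8) (pow_nonneg g2 2)) +
    37776455950650 * (mul_nonneg (pow_nonneg g1 9) (pow_nonneg g2 1)) +
    2925939107278 * (mul_nonneg (pow_nonneg g1 10) (pow_nonneg g2 0))

theorem NpB0 {x : ℝ} (h1 : (1/3) ≤ x) (h2 : x ≤ 1) : 0 ≤ 14453547 + (-24170114) * x + 58536339 * x ^ 2 + 28153198 * x ^ 3 + 2447500 * x ^ 5 := by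
  have g1 : 0 ≤ x - (1/3) := by linarith
  have g2 : 0 ≤ 1 - x := by linarith
  linear_combination (1695370061/16) * (mul_nonneg (pow_nonneg g1 0) (pow_nonneg g2 5)) +
    (10452407223/16) * (mul_nonneg (pow_nonneg g1 1) (pow_nonneg g2 4)) +
    1849132080 * (mul_nonneg (pow_nonneg g1 2) (pow_nonneg g2 3)) +
    2756813265 * (mul_nonneg (pow_nonneg g1 3) (pow_nonneg g2 2)) +
    (32890363227/16) * (mul_nonneg (pow_nonneg g1 4) (pow_nonneg g2 1)) +
    (9649587105/16) * (mul_nonneg (pow_nonneg g1 5) (pow_nonneg g2 0))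

theorem NpB1 {x : ℝ} (h1 : (1/3) ≤ x) (h2 : x ≤ 1) : 0 ≤ 29370000 + 122375000 * x + (-394627564) * x ^ 2 + 3226884359 * x ^ 3 + (-12600645032) * x ^ 4 + 21596105026 * x ^ 5 + 12540116278 * x ^ 6 + 1458691979 * x ^ 7 + 1299583214 * x ^ 8 + 52130000 * x ^ 9 + 23617500 * x ^ 10 := by
  have g1 : 0 ≤ x - (1/3) := by linarith
  have g2 : 0 ≤ 1 - x := by linarith
  linear_combination (179375454753/32) * (mul_nonneg (pow_nonneg g1 0) (pow_nonneg g2 10)) +
    (2691453433431/32) * (mul_nonneg (pow_nonneg g1 1) (pow_nonneg g2 9)) +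
    (80776370799225/128) * (mul_nonneg (pow_nonneg g1 2) (pow_nonneg g2 8)) +
    (97474638436137/32) * (mul_nonneg (pow_nonneg g1 3) (pow_nonneg g2 7)) +
    (645113737552923/64) * (mul_nonneg (pow_nonneg g1 4) (pow_nonneg g2 6)) +
    (738172553748867/32) * (mul_nonneg (pow_nonneg g1 5) (pow_nonneg g2 5)) +
    (288815986926225/8) * (mul_nonneg (pow_nonneg g1 6) (pow_nonneg g2 4)) +
    (1205733116206035/32) * (mul_nonneg (pow_nonneg g1 7) (pow_nonneg g2 3)) +
    (1598909480611587/64) * (mul_nonneg (pow_nonneg g1 8) (pow_nonneg g2 2)) +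
    (152025796979829/16) * (mul_nonneg (pow_nonneg g1 9) (pow_nonneg g2 1)) +
    (201900346409655/128) * (mul_nonneg (pow_nonneg g1 10) (pow_nonneg g2 0))

theorem NpB2 {x : ℝ} (h1 : (1/3) ≤ x) (h2 : x ≤ 1) : 0 ≤ 18894000 + 173195000 * x + 1083975000 * x ^ 2 + 3023936500 * x ^ 3 + (-5962602095) * x ^ 4 + 4169205049 * x ^ 5 + (-135455699067) * x ^ 6 + 156292127159 * x ^ 7 + 109952659005 * x ^ 8 + 25327445055 * x ^ 9 + 16625099631 * x ^ 10 + 2433052269 * x ^ 11 + 747710314 * x ^ 12 + 80619000 * x ^ 13 + 19367500 * x ^ 14 := by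
  rcases le_total x (2/3) with hm | hm
  · have g1 : 0 ≤ x - (1/3) := by linarith
    have g2 : 0 ≤ (2/3) - x := by linarith
    linear_combination 749040411463168 * (mul_nonneg (pow_nonneg g1 0) (pow_nonneg g2 14)) +
      10295080706465536 * (mul_nonneg (pow_nonneg g1 1) (pow_nonneg g2 13)) +
      62942345222817184 * (mul_nonneg (pow_nonneg g1 2) (pow_nonneg g2 12)) +
      224259087591679232 * (mul_nonneg (pow_nonneg g1 3) (pow_nonneg g2 11)) +
      512643898556776676 * (mul_nonneg (pow_nonneg g1 4) (pow_nonneg g2 10)) +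
      785668621823530694 * (mul_nonneg (pow_nonneg g1 5) (pow_nonneg g2 9)) +
      853316365088728158 * (mul_nonneg (pow_nonneg g1 6) (pow_nonneg g2 8)) +
      810308777857592703 * (mul_nonneg (pow_nonneg g1 7) (pow_nonneg g2 7)) +
      986421061742703963 * (mul_nonneg (pow_nonneg g1 8) (pow_nonneg g2 6)) +
      1372248476752311479 * (mul_nonneg (pow_nonneg g1 9) (pow_nonneg g2 5)) +
      1492849654422894551 * (mul_nonneg (pow_nonneg g1 10) (pow_nonneg g2 4)) +
      1096172195088095972 * (mul_nonneg (pow_nonneg g1 11) (pow_nonneg g2 3)) +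
      511217225360252320 * (mul_nonneg (pow_nonneg g1 12) (pow_nonneg g2 2)) +
      137500030959897208 * (mul_nonneg (pow_nonneg g1 13) (pow_nonneg g2 1)) +
      16312679993304304 * (mul_nonneg (pow_nonneg g1 14) (pow_nonneg g2 0))
  · have g1 : 0 ≤ x - (2/3) := by linarith
    have g2 : 0 ≤ 1 - x := by linarith
    linear_combination 16312679993304304 * (mul_nonneg (pow_nonneg g1 0) (pow_nonneg g2 14)) +
      319255008852623304 * (mul_nonneg (pow_nonneg g1 1) (pow_nonneg g2 13)) +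
      2874031937965691568 * (mul_nonneg (pow_nonneg g1 2) (pow_nonneg g2 12)) +
      15775555694572164060 * (mul_nonneg (pow_nonneg g1 3) (pow_nonneg g2 11)) +
      59002220794108316607 * (mul_nonneg (pow_nonneg g1 4) (pow_nonneg g2 10)) +
      159124355236191420837 * (mul_nonneg (pow_nonneg g1 5) (pow_nonneg g2 9)) +
      319257331833967987977 * (mul_nonneg (pow_nonneg g1 6) (pow_nonneg g2 8)) +
      484296155467616211201 * (mul_nonneg (pow_nonneg g1 7) (pow_nonneg g2 7)) +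
      558403694408169231804 * (mul_nonneg (pow_nonneg g1 8) (pow_nonneg g2 6)) +
      487207781007111994518 * (mul_nonneg (pow_nonneg g1 9) (pow_nonneg g2 5)) +
      316764008903311654824 * (mul_nonneg (pow_nonneg g1 10) (pow_nonneg g2 4)) +
      148869130586882847264 * (mul_nonneg (pow_nonneg g1 11) (pow_nonneg g2 3)) +
      47823450653128506336 * (mul_nonneg (pow_nonneg g1 12) (pow_nonneg g2 2)) +
      9402716807002110816 * (mul_nonneg (pow_nonneg g1 13) (pow_nonneg g2 1)) +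
      853898597604046080 * (mul_nonneg (pow_nonneg g1 14) (pow_nonneg g2 0))
end Vale.Agent.P322
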