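import Vale.Agent.P322.Basic

/-!
# P322: the inequality `R2 ≥ 0` (comparison of the entropies in the certificate)
-/

namespace Vale.Agent.P322

open Real Finset

noncomputable section

/-! ### A one-dimensional inequality by sign changes -/

/-- once negative, the function does not become positive any more -/
def SgnOnce (f : ℝ → ℝ) : Prop := ∀ x y : ℝ, 0 < x → x ≤ y → y < 1 → f x < 0 → f y ≤ 0

theorem sgnOnce_of_deriv {f g : ℝ → ℝ} (hf0 : f 0 = 0)
    (hd : ∀ x : ℝ, 0 ≤ x → x < 1 → HasDerivAt f (g x) x) (hg : SgnOnce g) :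
    ∀ x y : ℝ, 0 < x → x ≤ y → y < 1 → f x < 0 → f y ≤ f x := by
  intro x y hx hxy hy hfx
  have hcont : ∀ a b : ℝ, 0 ≤ a → b < 1 → ContinuousOn f (Set.Icc a b) := by
    intro a b ha hb z hz
    exact (hd z (ha.trans hz.1) (lt_of_le_of_lt hz.2 hb)).continuousAt.continuousWithinAt
  obtain ⟨ξ, hξ, hξ2⟩ := exists_hasDerivAt_eq_slope f g hx
    (hcont 0 x le_rfl (lt_of_le_of_lt hxy hy))
    (fun z hz => hd z hz.1.le (by linarith [hz.2]))
  rw [hf0, sub_zero, sub_zero] at hξ2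
  have hgξ : g ξ < 0 := by
    rw [hξ2]
    exact div_neg_of_neg_of_pos hfx hx
  have hanti : AntitoneOn f (Set.Icc ξ y) := by
    apply antitoneOn_of_deriv_nonpos (convex_Icc ξ y) (hcont ξ y hξ.1.le hy)
    · intro z hz
      rw [interior_Icc] at hz
      exact (hd z (by linarith [hξ.1, hz.1]) (by linarith [hz.2])).differentiableAt.differentiableWithinAt
    · intro z hz
      rw [interior_Icc] at hz
      rw [(hd z (by linarith [hξ.1, hz.1]) (by linarith [hz.2])).deriv]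
      exact hg ξ z hξ.1 hz.1.le (by linarith [hz.2]) hgξ
  exact hanti ⟨hξ.2.le, hxy⟩ ⟨hξ.2.le.trans hxy, le_rfl⟩ hxy

theorem sgnOnce_of_deriv' {f g : ℝ → ℝ} (hf0 : f 0 = 0)
    (hd : ∀ x : ℝ, 0 ≤ x → x < 1 → HasDerivAt f (g x) x) (hg : SgnOnce g) : SgnOnce f := by
  intro x y hx hxy hy hfx
  exact (sgnOnce_of_deriv hf0 hd hg x y hx hxy hy hfx).trans hfx.le

/-- the constant `3 - 4 log 2` -/
def mu : ℝ := 3 - 4 * log 2

theorem mu_gt : 0.22 < mu := by
  unfold mu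
  have := Real.log_two_lt_d9
  linarith

theorem mu_lt : mu < 0.23 := by
  unfold mu
  have := Real.log_two_gt_d9
  linarith

def V0 (x : ℝ) : ℝ := (1 + x) ^ 2 * log (1 + x) + (1 - x) ^ 2 * log (1 - x) +
  (1 - x ^ 2) * log (1 - mu * x ^ 2) - 4 * x ^ 2 * log 2

def V1 (x : ℝ) : ℝ := 2 * ((1 + x) * log (1 + x)) - 2 * ((1 - x) * log (1 - x)) -
  2 * (x * log (1 - mu * x ^ 2)) + 2 * (1 - mu) * (x / (1 - mu * x ^ 2)) - 8 * x * log 2

def V2 (x : ℝ) : ℝ := 2 * log (1 + x) + 2 * log (1 - x) - 2 * log (1 - mu * x ^ 2) +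
  4 / (1 - mu * x ^ 2) + 2 * (1 - mu) * (2 / (1 - mu * x ^ 2) ^ 2 - 1 / (1 - mu * x ^ 2)) -
  8 * log 2

def V3 (x : ℝ) : ℝ := 4 * x * (-1 / (1 - x ^ 2) + mu / (1 - mu * x ^ 2) +
  mu * (1 + mu) / (1 - mu * x ^ 2) ^ 2 + 4 * mu * (1 - mu) / (1 - mu * x ^ 2) ^ 3)

theorem D_pos {x : ℝ} (h0 : 0 ≤ x) (h1 : x ≤ 1) : 0 < 1 - mu * x ^ 2 := by
  have h2 : x ^ 2 ≤ 1 := by nlinarith
  have := mu_gt
  have := mu_lt
  nlinarith [sq_nonneg x]

theorem hasDerivAt_D (x : ℝ) :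
    HasDerivAt (fun x : ℝ => 1 - mu * x ^ 2) (-(2 * mu * x)) x := by
  have := ((hasDerivAt_pow 2 x).const_mul mu).const_sub 1
  refine this.congr_deriv ?_
  norm_num
  ring

theorem hasDerivAt_logD {x : ℝ} (h0 : 0 ≤ x) (h1 : x ≤ 1) :
    HasDerivAt (fun x : ℝ => log (1 - mu * x ^ 2)) (-(2 * mu * x) / (1 - mu * x ^ 2)) x :=
  (hasDerivAt_D x).log (D_pos h0 h1).ne'

theorem hasDerivAt_log1p {x : ℝ} (h0 : 0 ≤ x) :
    HasDerivAt (fun x : ℝ => log (1 + x)) (1 / (1 + x)) x := by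
  have h2 : HasDerivAt (fun x : ℝ => 1 + x) 1 x := (hasDerivAt_id x).const_add 1
  exact h2.log (by linarith)

theorem hasDerivAt_log1m {x : ℝ} (h1 : x < 1) :
    HasDerivAt (fun x : ℝ => log (1 - x)) (-1 / (1 - x)) x := by
  have h2 : HasDerivAt (fun x : ℝ => 1 - x) (-1) x := (hasDerivAt_id x).const_sub 1
  exact h2.log (by linarith)

theorem auxD1 {m x D : ℝ} (hD : D ≠ 0) (h : D = 1 - m * x ^ 2) :
    (1 - x ^ 2) * (-(2 * m * x) / D) = 2 * (1 - m) * (x / D) - 2 * x := by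
  have e : m * x ^ 2 = 1 - D := by rw [h]; ring
  field_simp
  linear_combination x * e

theorem auxD2 {m x D : ℝ} (hD : D ≠ 0) (h : D = 1 - m * x ^ 2) :
    x * (-(2 * m * x) / D) = 2 - 2 * (1 / D) := by
  have e : m * x ^ 2 = 1 - D := by rw [h]; ring
  field_simp
  linear_combination (-1) * e

theorem auxD3 {m x D : ℝ} (hD : D ≠ 0) (h : D = 1 - m * x ^ 2) :
    (1 * D - x * -(2 * m * x)) / D ^ 2 = 2 / D ^ 2 - 1 / D := by
  have e : m * x ^ 2 = 1 - D := by rw [h]; ring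
  field_simp
  linear_combination 2 * e

theorem hasDerivAt_V0 {x : ℝ} (h0 : 0 ≤ x) (h1 : x < 1) : HasDerivAt V0 (V1 x) x := by
  have hp : (1 : ℝ) + x ≠ 0 := by linarith
  have hm : (1 : ℝ) - x ≠ 0 := by linarith
  have hD := (D_pos h0 h1.le).ne'
  have a1 := (((hasDerivAt_id x).const_add 1).pow 2).mul (hasDerivAt_log1p h0)
  have a2 := (((hasDerivAt_id x).const_sub 1).pow 2).mul (hasDerivAt_log1m h1)
  have a3 := ((hasDerivAt_pow 2 x).const_sub 1).mul (hasDerivAt_logD h0 h1.le)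
  have a4 := ((hasDerivAt_pow 2 x).const_mul 4).mul_const (log 2)
  have := ((a1.add a2).add a3).sub a4
  refine HasDerivAt.congr_deriv (f := V0) this ?_
  unfold V1
  simp only [id, Pi.pow_apply]
  push_cast
  rw [show (1 + x) ^ 2 * (1 / (1 + x)) = 1 + x by field_simp,
    show (1 - x) ^ 2 * (-1 / (1 - x)) = -(1 - x) by field_simp,
    auxD1 hD rfl]
  ring

theorem hasDerivAt_V1 {x : ℝ} (h0 : 0 ≤ x) (h1 : x < 1) : HasDerivAt V1 (V2 x) x := by
  have hp : (1 : ℝ) + x ≠ 0 := by linarith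
  have hm : (1 : ℝ) - x ≠ 0 := by linarith
  have hD := (D_pos h0 h1.le).ne'
  have a1 := ((((hasDerivAt_id x).const_add 1)).mul (hasDerivAt_log1p h0)).const_mul 2
  have a2 := ((((hasDerivAt_id x).const_sub 1)).mul (hasDerivAt_log1m h1)).const_mul 2
  have a3 := ((hasDerivAt_id x).mul (hasDerivAt_logD h0 h1.le)).const_mul 2
  have hDd := hasDerivAt_D x
  have a5 := ((hasDerivAt_id x).div hDd hD).const_mul (2 * (1 - mu))
  have a4 := ((hasDerivAt_id x).const_mul 8).mul_const (log 2)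
  have := (((a1.sub a2).sub a3).add a5).sub a4
  refine HasDerivAt.congr_deriv (f := V1) this ?_
  unfold V2
  simp only [id]
  rw [show (1 + x) * (1 / (1 + x)) = 1 by field_simp,
    show (1 - x) * (-1 / (1 - x)) = -1 by field_simp,
    auxD2 hD rfl, auxD3 hD rfl]
  ring

theorem hasDerivAt_V2 {x : ℝ} (h0 : 0 ≤ x) (h1 : x < 1) : HasDerivAt V2 (V3 x) x := by
  have hp : (1 : ℝ) + x ≠ 0 := by linarith
  have hm : (1 : ℝ) - x ≠ 0 := by linarith
  have hpm : (1 : ℝ) - x ^ 2 ≠ 0 := by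
    have : (1 : ℝ) - x ^ 2 = (1 + x) * (1 - x) := by ring
    rw [this]
    exact mul_ne_zero hp hm
  have hD := (D_pos h0 h1.le).ne'
  have a1 := (hasDerivAt_log1p h0).const_mul 2
  have a2 := (hasDerivAt_log1m h1).const_mul 2
  have a3 := (hasDerivAt_logD h0 h1.le).const_mul 2
  have hDd := hasDerivAt_D x
  have a4 := (hasDerivAt_const x (4 : ℝ)).div hDd hD
  have a5 := (hasDerivAt_const x (2 : ℝ)).div (hDd.pow 2) (pow_ne_zero 2 hD)
  have a6 := (hasDerivAt_const x (1 : ℝ)).div hDd hD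
  have := (((((a1.add a2).sub a3).add a4).add ((a5.sub a6).const_mul (2 * (1 - mu)))).sub_const
    (8 * log 2))
  refine HasDerivAt.congr_deriv (f := V2) this ?_
  unfold V3
  simp only [Pi.pow_apply]
  push_cast
  rw [show 2 * (1 / (1 + x)) = -(2 * (-1 / (1 - x))) + 4 * x * (-1 / (1 - x ^ 2)) by
    have e : (1 : ℝ) - x ^ 2 = (1 + x) * (1 - x) := by ring
    rw [e]
    field_simp
    ring]
  set D := 1 - mu * x ^ 2 with hDdef
  field_simp
  ring

theorem ratio_anti {p q : ℝ} (hp : 0 ≤ p) (hpq : p ≤ q) (hq : q < 1) :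
    (1 - q) / (1 - mu * q) ≤ (1 - p) / (1 - mu * p) ∧
    (1 - q) / (1 - mu * q) ^ 2 ≤ (1 - p) / (1 - mu * p) ^ 2 ∧
    (1 - q) / (1 - mu * q) ^ 3 ≤ (1 - p) / (1 - mu * p) ^ 3 := by
  have hm1 := mu_gt
  have hm2 := mu_lt
  have hDp : 0 < 1 - mu * p := by nlinarith
  have hDq : 0 < 1 - mu * q := by nlinarith
  have hDq1 : 1 - mu * q ≤ 1 - mu * p := by nlinarith
  -- r = Dq/Dp
  have key : (1 - q) * (1 - mu * p) ≤ (1 - p) * (1 - mu * q) := by nlinarith
  set a := 1 - mu * p with ha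
  set b := 1 - mu * q with hb'
  have hab : a - b = mu * (q - p) := by rw [ha, hb']; ring
  -- (1-q) a^k ≤ (1-p) b^k
  have k3 : (1 - q) * a ^ 3 ≤ (1 - p) * b ^ 3 := by
    have e1 : (1 - p) * b ^ 3 - (1 - q) * a ^ 3 =
        (q - p) * a ^ 3 - (1 - p) * (a ^ 3 - b ^ 3) := by ring
    have e2 : a ^ 3 - b ^ 3 ≤ 3 * a ^ 2 * (mu * (q - p)) := by
      rw [← hab]
      nlinarith [mul_nonneg (sub_nonneg.mpr hDq1) (mul_nonneg (sub_nonneg.mpr hDq1) hDp.le),
        mul_nonneg (sub_nonneg.mpr hDq1) (mul_nonneg (sub_nonneg.mpr hDq1) hDq.le)]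
    have e3 : 3 * mu * (1 - p) ≤ a := by rw [ha]; nlinarith
    have e4 : (1 - p) * (a ^ 3 - b ^ 3) ≤ (1 - p) * (3 * a ^ 2 * (mu * (q - p))) :=
      mul_le_mul_of_nonneg_left e2 (by linarith)
    have e5 : (1 - p) * (3 * a ^ 2 * (mu * (q - p))) ≤ (q - p) * a ^ 3 := by
      have : (1 - p) * (3 * a ^ 2 * (mu * (q - p))) = (3 * mu * (1 - p)) * (a ^ 2 * (q - p)) := by
        ring
      rw [this]
      have h : (q - p) * a ^ 3 = a * (a ^ 2 * (q - p)) := by ring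
      rw [h]
      exact mul_le_mul_of_nonneg_right e3 (mul_nonneg (sq_nonneg a) (by linarith))
    linarith
  have k2 : (1 - q) * a ^ 2 ≤ (1 - p) * b ^ 2 := by
    -- from k3: (1-q) a^2 * a ≤ (1-p) b^2 * b ≤ (1-p) b^2 * a
    have h1 : (1 - q) * a ^ 2 * a ≤ (1 - p) * b ^ 2 * a := by
      calc (1 - q) * a ^ 2 * a = (1 - q) * a ^ 3 := by ring
        _ ≤ (1 - p) * b ^ 3 := k3
        _ = (1 - p) * b ^ 2 * b := by ring
        _ ≤ (1 - p) * b ^ 2 * a := by
            apply mul_le_mul_of_nonneg_left hDq1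
            apply mul_nonneg (by linarith) (sq_nonneg b)
    exact le_of_mul_le_mul_right h1 hDp
  refine ⟨?_, ?_, ?_⟩
  · rw [div_le_div_iff₀ hDq hDp]; exact key
  · rw [div_le_div_iff₀ (by positivity) (by positivity)]; exact k2
  · rw [div_le_div_iff₀ (by positivity) (by positivity)]; exact k3

theorem sgnOnce_V3 : SgnOnce V3 := by
  intro x y hx hxy hy hfx
  have hm1 := mu_gt
  have hm2 := mu_lt
  have hx1 : x < 1 := lt_of_le_of_lt hxy hy
  have hq1 : 0 < 1 - x ^ 2 := by nlinarith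
  have hq2 : 0 < 1 - y ^ 2 := by nlinarith
  have hD1 := D_pos hx.le hx1.le
  have hD2 := D_pos (hx.le.trans hxy) hy.le
  obtain ⟨r1, r2, r3⟩ := ratio_anti (p := x ^ 2) (q := y ^ 2) (sq_nonneg x)
    (by nlinarith) (by linarith)
  unfold V3 at *
  set Ex := (-1 / (1 - x ^ 2) + mu / (1 - mu * x ^ 2) +
    mu * (1 + mu) / (1 - mu * x ^ 2) ^ 2 + 4 * mu * (1 - mu) / (1 - mu * x ^ 2) ^ 3) with hEx
  set Ey := (-1 / (1 - y ^ 2) + mu / (1 - mu * y ^ 2) +
    mu * (1 + mu) / (1 - mu * y ^ 2) ^ 2 + 4 * mu * (1 - mu) / (1 - mu * y ^ 2) ^ 3) with hEy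
  have hEx0 : Ex < 0 := by
    by_contra h
    push Not at h
    have : 0 ≤ 4 * x * Ex := by positivity
    linarith
  have e1 : (1 - x ^ 2) * Ex = -1 + mu * ((1 - x ^ 2) / (1 - mu * x ^ 2)) +
      mu * (1 + mu) * ((1 - x ^ 2) / (1 - mu * x ^ 2) ^ 2) +
      4 * mu * (1 - mu) * ((1 - x ^ 2) / (1 - mu * x ^ 2) ^ 3) := by
    rw [hEx]
    field_simp
  have e2 : (1 - y ^ 2) * Ey = -1 + mu * ((1 - y ^ 2) / (1 - mu * y ^ 2)) +
      mu * (1 + mu) * ((1 - y ^ 2) / (1 - mu * y ^ 2) ^ 2) +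
      4 * mu * (1 - mu) * ((1 - y ^ 2) / (1 - mu * y ^ 2) ^ 3) := by
    rw [hEy]
    field_simp
  have e3 : (1 - y ^ 2) * Ey ≤ (1 - x ^ 2) * Ex := by
    rw [e1, e2]
    have t1 := mul_le_mul_of_nonneg_left r1 (by linarith : (0 : ℝ) ≤ mu)
    have t2 := mul_le_mul_of_nonneg_left r2 (by nlinarith : (0 : ℝ) ≤ mu * (1 + mu))
    have t3 := mul_le_mul_of_nonneg_left r3 (by nlinarith : (0 : ℝ) ≤ 4 * mu * (1 - mu))
    linarith
  have e4 : (1 - y ^ 2) * Ey < 0 := lt_of_le_of_lt e3 (mul_neg_of_pos_of_neg hq1 hEx0)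
  have e5 : Ey < 0 := by
    by_contra h
    push Not at h
    have : 0 ≤ (1 - y ^ 2) * Ey := mul_nonneg hq2.le h
    linarith
  have hy0 : 0 < y := lt_of_lt_of_le hx hxy
  have : 0 ≤ 4 * y * (-Ey) := by
    apply mul_nonneg (by linarith) (by linarith)
  linarith

theorem V0_nonneg {x : ℝ} (h0 : 0 ≤ x) (h1 : x ≤ 1) : 0 ≤ V0 x := by
  have hV2_0 : V2 0 = 0 := by
    unfold V2 mu
    norm_num
    ring
  have hV1_0 : V1 0 = 0 := by
    unfold V1
    norm_num
  have hV0_0 : V0 0 = 0 := by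
    unfold V0
    norm_num
  have hV0_1 : V0 1 = 0 := by
    unfold V0
    norm_num
  rcases h0.eq_or_lt with h | h0
  · rw [← h, hV0_0]
  rcases h1.eq_or_lt with h | h1
  · rw [h, hV0_1]
  have s2 : SgnOnce V2 := sgnOnce_of_deriv' hV2_0 (fun x h0 h1 => hasDerivAt_V2 h0 h1) sgnOnce_V3
  have s1 : SgnOnce V1 := sgnOnce_of_deriv' hV1_0 (fun x h0 h1 => hasDerivAt_V1 h0 h1) s2
  by_contra hneg
  push Not at hneg
  have s0 := sgnOnce_of_deriv hV0_0 (fun x h0 h1 => hasDerivAt_V0 h0 h1) s1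
  -- continuity at 1
  have hcont : ContinuousWithinAt V0 (Set.Iio 1) 1 := by
    have c1 : Continuous (fun x : ℝ => (1 + x) ^ 2 * log (1 + x) + (1 - x) ^ 2 * log (1 - x)) := by
      have e : (fun x : ℝ => (1 + x) ^ 2 * log (1 + x) + (1 - x) ^ 2 * log (1 - x)) =
          fun x : ℝ => (1 + x) * ((1 + x) * log (1 + x)) + (1 - x) * ((1 - x) * log (1 - x)) := by
        funext x; ring
      rw [e]
      have m1 : Continuous (fun x : ℝ => (1 + x) * log (1 + x)) :=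
        Real.continuous_mul_log.comp (by fun_prop : Continuous fun x : ℝ => 1 + x)
      have m2 : Continuous (fun x : ℝ => (1 - x) * log (1 - x)) :=
        Real.continuous_mul_log.comp (by fun_prop : Continuous fun x : ℝ => 1 - x)
      exact ((by fun_prop : Continuous fun x : ℝ => 1 + x).mul m1).add
        ((by fun_prop : Continuous fun x : ℝ => 1 - x).mul m2)
    have c2 : ContinuousAt (fun x : ℝ => (1 - x ^ 2) * log (1 - mu * x ^ 2)) 1 := by
      apply ContinuousAt.mul (by fun_prop)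
      apply ContinuousAt.log (by fun_prop)
      exact (D_pos zero_le_one le_rfl).ne'
    have c3 : ContinuousAt (fun x : ℝ => 4 * x ^ 2 * log 2) 1 := by fun_prop
    have : ContinuousAt V0 1 := (c1.continuousAt.add c2).sub c3
    exact this.continuousWithinAt
  have hle : V0 1 ≤ V0 x := by
    apply le_of_tendsto hcont
    filter_upwards [Ioo_mem_nhdsLT h1] with y hy
    exact s0 x y h0 hy.1.le hy.2 hneg
  rw [hV0_1] at hle
  linarith

/-! ### The entropy function in terms of `log` -/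

theorem hb_eq_log_aux {w : ℝ} (h1 : -1 < w) (h2 : w < 1) :
    hb w = log 2 - ((1 + w) * log (1 + w) + (1 - w) * log (1 - w)) / 2 := by
  unfold hb
  rw [Real.binEntropy_eq_negMulLog_add_negMulLog_one_sub]
  unfold Real.negMulLog
  have e : 1 - (1 + w) / 2 = (1 - w) / 2 := by ring
  rw [e, Real.log_div (by linarith) (by norm_num), Real.log_div (by linarith) (by norm_num)]
  ring

/-- the one-dimensional inequality -/
theorem kap_le_log {ρ : ℝ} (h0 : 0 ≤ ρ) (h1 : ρ < 1) :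
    4 * kap ρ ≤ (1 - ρ ^ 2) * log (1 + 4 * (log 2 - 1 / 2) * ρ ^ 2 / (1 - ρ ^ 2)) := by
  have hN : 0 < 1 - ρ ^ 2 := by nlinarith
  have hV := V0_nonneg h0 h1.le
  unfold V0 at hV
  have hD := D_pos h0 h1.le
  have e1 : 1 + 4 * (log 2 - 1 / 2) * ρ ^ 2 / (1 - ρ ^ 2) = (1 - mu * ρ ^ 2) / (1 - ρ ^ 2) := by
    unfold mu
    field_simp
    ring
  have e2 : log (1 - ρ ^ 2) = log (1 - ρ) + log (1 + ρ) := by
    rw [← Real.log_mul (by linarith) (by linarith)]
    congr 1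
    ring
  rw [e1, Real.log_div hD.ne' hN.ne', e2]
  unfold kap
  rw [hb_eq_log_aux (by linarith) h1]
  linarith

/-! ### The comparison of entropies -/

/-- the elementary lower bound for the relative entropy of Bernoulli laws -/
theorem kl_lower {x t c₁ c₂ : ℝ} (hx : 0 < x) (hxt : x ≤ t) (ht : t < 1) (hc₂ : 0 ≤ c₂)
    (hc : c₁ ≤ log (1 + c₂)) :
    x * (c₁ * (1 - x) - c₂ * (1 - t)) ≤
      x * (log x - log t) + (1 - x) * (log (1 - x) - log (1 - t)) := by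
  have ht0 : 0 < t := lt_of_lt_of_le hx hxt
  have hx1 : 0 < 1 - x := by linarith
  have ht1 : 0 < 1 - t := by linarith
  set β := (1 - t) / (1 - x) with hβ
  have hβ0 : 0 < β := div_pos ht1 hx1
  have hβx : β * (1 - x) = 1 - t := by rw [hβ]; field_simp
  -- first term
  have h1 : x - t ≤ x * (log x - log t) := by
    have h : log (t / x) ≤ t / x - 1 := Real.log_le_sub_one_of_pos (div_pos ht0 hx)
    rw [Real.log_div ht0.ne' hx.ne'] at h
    have h2 := mul_le_mul_of_nonneg_left h hx.le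
    have h3 : x * (t / x - 1) = t - x := by field_simp
    rw [h3] at h2
    linarith
  have hlogβ : log β = log (1 - t) - log (1 - x) := by
    rw [hβ, Real.log_div ht1.ne' hx1.ne']
  have h4 : log β ≤ β - 1 := Real.log_le_sub_one_of_pos hβ0
  have h5 : log (β * (1 + c₂)) ≤ β * (1 + c₂) - 1 :=
    Real.log_le_sub_one_of_pos (mul_pos hβ0 (by linarith))
  rw [Real.log_mul hβ0.ne' (by linarith)] at h5
  -- J = -log β - 1 + β ≥ 0 and c₁ - c₂ β ≤ J
  have hJ0 : 0 ≤ -log β - 1 + β := by linarith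
  have hJ1 : c₁ - c₂ * β ≤ -log β - 1 + β := by nlinarith
  have h6 : x * (1 - x) * (c₁ - c₂ * β) ≤ x * (1 - x) * (-log β - 1 + β) :=
    mul_le_mul_of_nonneg_left hJ1 (mul_pos hx hx1).le
  have h7 : x * (1 - x) * (-log β - 1 + β) ≤ (1 - x) * (-log β - 1 + β) := by
    have : x * ((1 - x) * (-log β - 1 + β)) ≤ 1 * ((1 - x) * (-log β - 1 + β)) :=
      mul_le_mul_of_nonneg_right (by linarith) (mul_nonneg hx1.le hJ0)
    linarith
  have h8 : x * (1 - x) * (c₁ - c₂ * β) = x * (c₁ * (1 - x) - c₂ * (1 - t)) := by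
    rw [← hβx]; ring
  have h9 : (1 - x) * (-log β - 1 + β) = (1 - x) * (log (1 - x) - log (1 - t)) + (x - t) := by
    rw [hlogβ]
    have : x - t = (1 - x) * (-1 + β) := by
      rw [mul_add, mul_comm (1 - x) β, hβx]; ring
    rw [this]; ring
  linarith

theorem binEntropy_eq' (t : ℝ) : binEntropy t = -(t * log t) - (1 - t) * log (1 - t) := by
  rw [Real.binEntropy_eq_negMulLog_add_negMulLog_one_sub]
  unfold Real.negMulLog
  ring

/-- one term of `R2` -/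
theorem R2_term {ρ F t : ℝ} (h0 : 0 ≤ ρ) (h1 : ρ < 1) (hF : 0 ≤ F) (ht0 : 0 ≤ t) (ht1 : t < 1) :
    ρ ^ 2 * (binEntropy t + F * log (1 - t) - 4 * (log 2 - 1 / 2) * (t * (1 - t))) ≤
      binEntropy t -
        (1 - ρ ^ 2 + ρ ^ 2 * F) * binEntropy ((1 - ρ ^ 2) * t / (1 - ρ ^ 2 + ρ ^ 2 * F)) -
        4 * kap ρ * (t * (1 - (1 - ρ ^ 2) * t / (1 - ρ ^ 2 + ρ ^ 2 * F))) := by
  have hN : 0 < 1 - ρ ^ 2 := by nlinarith
  have hq : 0 ≤ ρ ^ 2 := sq_nonneg ρ
  set q := ρ ^ 2 with hqdef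
  set N := 1 - q with hNdef
  set M := N + q * F with hMdef
  have hqF : 0 ≤ q * F := mul_nonneg hq hF
  have hMN : N ≤ M := by rw [hMdef]; linarith
  have hM : 0 < M := lt_of_lt_of_le hN hMN
  rcases ht0.eq_or_lt with h | ht0
  · rw [← h]; simp
  set x := N * t / M with hx
  have hx0 : 0 < x := div_pos (mul_pos hN ht0) hM
  have hxt : x ≤ t := by
    rw [hx, div_le_iff₀ hM]
    nlinarith
  have hMx : M * x = N * t := by rw [hx]; field_simp
  have hlog2 := Real.log_two_gt_d9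
  have hkey := kl_lower (c₁ := 4 * kap ρ / N) (c₂ := 4 * (log 2 - 1 / 2) * q / N) hx0 hxt ht1
    (by
      apply div_nonneg _ hN.le
      apply mul_nonneg _ hq
      linarith)
    (by
      rw [div_le_iff₀ hN]
      have := kap_le_log h0 h1
      rw [← hqdef, ← hNdef] at this
      linarith)
  have hkey2 := mul_le_mul_of_nonneg_left hkey hM.le
  rw [binEntropy_eq' t, binEntropy_eq' x]
  have e1 : M * (x * (4 * kap ρ / N * (1 - x) - 4 * (log 2 - 1 / 2) * q / N * (1 - t))) =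
      t * (4 * kap ρ * (1 - x) - 4 * (log 2 - 1 / 2) * q * (1 - t)) := by
    have : M * (x * (4 * kap ρ / N * (1 - x) - 4 * (log 2 - 1 / 2) * q / N * (1 - t))) =
        (M * x) * ((4 * kap ρ * (1 - x) - 4 * (log 2 - 1 / 2) * q * (1 - t)) / N) := by
      ring
    rw [this, hMx]
    field_simp
  have e2 : M * (x * (log x - log t) + (1 - x) * (log (1 - x) - log (1 - t))) =
      M * (x * log x + (1 - x) * log (1 - x)) - N * t * log t - (M - N * t) * log (1 - t) := by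
    have : M * (x * (log x - log t) + (1 - x) * (log (1 - x) - log (1 - t))) =
        M * (x * log x + (1 - x) * log (1 - x)) - (M * x) * log t - (M - M * x) * log (1 - t) := by
      ring
    rw [this, hMx]
  rw [e1, e2] at hkey2
  have e3 : M = 1 - q + q * F := by rw [hMdef]
  have e4 : (M - N * t) * log (1 - t) = ((1 - q) * (1 - t) + q * F) * log (1 - t) := by
    rw [e3, hNdef]; ring
  rw [e4] at hkey2
  have e5 : N * t * log t = (1 - q) * (t * log t) := by rw [hNdef]; ring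
  rw [e5] at hkey2
  nlinarith [hkey2]

/-- **R2.** The comparison of the entropies in the certificate. -/
theorem R2_nonneg {ρ u v F : ℝ} (h0 : 0 ≤ ρ) (h1 : ρ < 1) (hu0 : 0 ≤ u) (hu1 : u < 1)
    (hv0 : 0 ≤ v) (hv1 : v < 1) (hF : 0 ≤ F)
    (hY : F * (-log (1 - u) - log (1 - v)) ≤
      binEntropy u + binEntropy v - 4 * (log 2 - 1 / 2) * (u * (1 - u) + v * (1 - v))) :
    0 ≤ (binEntropy u -
        (1 - ρ ^ 2 + ρ ^ 2 * F) * binEntropy ((1 - ρ ^ 2) * u / (1 - ρ ^ 2 + ρ ^ 2 * F)) -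
        4 * kap ρ * (u * (1 - (1 - ρ ^ 2) * u / (1 - ρ ^ 2 + ρ ^ 2 * F)))) +
      (binEntropy v -
        (1 - ρ ^ 2 + ρ ^ 2 * F) * binEntropy ((1 - ρ ^ 2) * v / (1 - ρ ^ 2 + ρ ^ 2 * F)) -
        4 * kap ρ * (v * (1 - (1 - ρ ^ 2) * v / (1 - ρ ^ 2 + ρ ^ 2 * F)))) := by
  have a := R2_term h0 h1 hF hu0 hu1
  have b := R2_term h0 h1 hF hv0 hv1
  have c : 0 ≤ ρ ^ 2 * (binEntropy u + binEntropy v -
      4 * (log 2 - 1 / 2) * (u * (1 - u) + v * (1 - v)) - F * (-log (1 - u) - log (1 - v))) :=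
    mul_nonneg (sq_nonneg ρ) (by linarith)
  nlinarith [a, b, c]

end

end Vale.Agent.P322
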