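import Vale.Agent.P322.Fun

/-!
# P322, regime 2: one-variable facts
-/

namespace Vale.Agent.P322

open Real Set

noncomputable section

theorem le_of_deriv_nonpos {f f' : ℝ → ℝ} {a b : ℝ} (hab : a ≤ b) (hc : ContinuousOn f (Icc a b))
    (hd : ∀ x ∈ Ioo a b, HasDerivAt f (f' x) x) (hn : ∀ x ∈ Ioo a b, f' x ≤ 0) : f b ≤ f a := by
  have h : AntitoneOn f (Icc a b) := by
    apply antitoneOn_of_deriv_nonpos (convex_Icc a b) hc
    · intro x hx
      rw [interior_Icc] at hx
      exact (hd x hx).differentiableAt.differentiableWithinAt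
    · intro x hx
      rw [interior_Icc] at hx
      rw [(hd x hx).deriv]
      exact hn x hx
  exact h (left_mem_Icc.mpr hab) (right_mem_Icc.mpr hab) hab

theorem le_of_deriv_nonneg {f f' : ℝ → ℝ} {a b : ℝ} (hab : a ≤ b) (hc : ContinuousOn f (Icc a b))
    (hd : ∀ x ∈ Ioo a b, HasDerivAt f (f' x) x) (hn : ∀ x ∈ Ioo a b, 0 ≤ f' x) : f a ≤ f b := by
  have h : MonotoneOn f (Icc a b) := by
    apply monotoneOn_of_deriv_nonneg (convex_Icc a b) hc
    · intro x hx
      rw [interior_Icc] at hx
      exact (hd x hx).differentiableAt.differentiableWithinAt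
    · intro x hx
      rw [interior_Icc] at hx
      rw [(hd x hx).deriv]
      exact hn x hx
  exact h (left_mem_Icc.mpr hab) (right_mem_Icc.mpr hab) hab

theorem continuous_Phi : Continuous Phi := by
  have h1 : Continuous fun s : ℝ => (1 + s) * log (1 + s) :=
    Real.continuous_mul_log.comp (continuous_const.add continuous_id)
  have h2 : Continuous fun s : ℝ => (1 - s) * log (1 - s) :=
    Real.continuous_mul_log.comp (continuous_const.sub continuous_id)
  exact (h1.add h2).div_const 2

theorem continuous_Nath : Continuous fun t : ℝ => (1 - t ^ 2) * ath t := by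
  have h1 : Continuous fun s : ℝ => (1 + s) * log (1 + s) :=
    Real.continuous_mul_log.comp (continuous_const.add continuous_id)
  have h2 : Continuous fun s : ℝ => (1 - s) * log (1 - s) :=
    Real.continuous_mul_log.comp (continuous_const.sub continuous_id)
  have h3 : Continuous fun t : ℝ =>
      ((1 - t) * ((1 + t) * log (1 + t)) - (1 + t) * ((1 - t) * log (1 - t))) / 2 :=
    ((((continuous_const.sub continuous_id).mul h1)).sub
      ((continuous_const.add continuous_id).mul h2)).div_const 2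
  refine h3.congr ?_
  intro t
  unfold ath
  ring

theorem hasDerivAt_hb' {t : ℝ} (h1 : -1 < t) (h2 : t < 1) : HasDerivAt hb (-ath t) t := by
  have := hasDerivAt_hb h1 h2
  refine this.congr_deriv ?_
  unfold ath
  ring

theorem hasDerivAt_Nath {t : ℝ} (h1 : -1 < t) (h2 : t < 1) :
    HasDerivAt (fun t : ℝ => (1 - t ^ 2) * ath t) (1 - 2 * t * ath t) t := by
  have a1 : HasDerivAt (fun t : ℝ => 1 - t ^ 2) (-(2 * t)) t := by
    have := ((hasDerivAt_id t).pow 2).const_sub 1
    simpa using this
  have := a1.mul (hasDerivAt_ath h1 h2)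
  refine this.congr_deriv ?_
  have := one_sub_sq_pos h1 h2
  field_simp
  ring

/-- series of `ath` -/
theorem hasSum_ath {x : ℝ} (h : |x| < 1) :
    HasSum (fun k : ℕ => (1 / (2 * (k : ℝ) + 1)) * x ^ (2 * k + 1)) (ath x) := by
  have := (Real.hasSum_log_sub_log_of_abs_lt_one h).div_const 2
  refine (this.congr_fun ?_)
  intro k
  ring

theorem ath_ge {t : ℝ} (h0 : 0 ≤ t) (h1 : t < 1) : t + t ^ 3 / 3 ≤ ath t := by
  have hs := hasSum_ath (x := t) (by rw [abs_of_nonneg h0]; exact h1)
  have := sum_le_hasSum (Finset.range 2) (fun k _ => by positivity) hs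
  rw [Finset.sum_range_succ, Finset.sum_range_one] at this
  norm_num at this
  linarith

theorem ath_ge_self {t : ℝ} (h0 : 0 ≤ t) (h1 : t < 1) : t ≤ ath t := by
  have := ath_ge h0 h1
  have h2 : 0 ≤ t ^ 3 := by positivity
  linarith

theorem ath_scale {X t : ℝ} (hX0 : 0 ≤ X) (hX1 : X ≤ 1) (h0 : 0 ≤ t) (h1 : t < 1) :
    ath (X * t) - X * t - (X * t) ^ 3 / 3 ≤ X ^ 5 * (ath t - t - t ^ 3 / 3) := by
  have hs := hasSum_ath (x := t) (by rw [abs_of_nonneg h0]; exact h1)
  have hXt0 : 0 ≤ X * t := mul_nonneg hX0 h0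
  have hXt1 : X * t < 1 := lt_of_le_of_lt (mul_le_of_le_one_left h0 hX1) h1
  have hs' := hasSum_ath (x := X * t) (by rw [abs_of_nonneg hXt0]; exact hXt1)
  have g := ((hasSum_nat_add_iff' 2).mpr hs).mul_left (X ^ 5)
  have g' := (hasSum_nat_add_iff' 2).mpr hs'
  have := hasSum_le (fun k => ?_) g' g
  · rw [Finset.sum_range_succ, Finset.sum_range_one, Finset.sum_range_succ,
      Finset.sum_range_one] at this
    norm_num at this
    linarith
  · have e : (X * t) ^ (2 * (k + 2) + 1) = X ^ (2 * k) * (X ^ 5 * t ^ (2 * (k + 2) + 1)) := by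
      ring
    rw [e]
    have h2 : X ^ (2 * k) ≤ 1 := pow_le_one₀ hX0 hX1
    have h3 : 0 ≤ X ^ 5 * t ^ (2 * (k + 2) + 1) := by positivity
    have h4 : X ^ (2 * k) * (X ^ 5 * t ^ (2 * (k + 2) + 1)) ≤ X ^ 5 * t ^ (2 * (k + 2) + 1) :=
      mul_le_of_le_one_left h3 h2
    have h5 : (0 : ℝ) ≤ 1 / (2 * ((k + 2 : ℕ) : ℝ) + 1) := by positivity
    calc 1 / (2 * ((k + 2 : ℕ) : ℝ) + 1) * (X ^ (2 * k) * (X ^ 5 * t ^ (2 * (k + 2) + 1)))
        ≤ 1 / (2 * ((k + 2 : ℕ) : ℝ) + 1) * (X ^ 5 * t ^ (2 * (k + 2) + 1)) :=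
          mul_le_mul_of_nonneg_left h4 h5
      _ = X ^ 5 * (1 / (2 * ((k + 2 : ℕ) : ℝ) + 1) * t ^ (2 * (k + 2) + 1)) := by ring

/-- `t h(t) ≤ (1-t²) artanh t` -/
theorem hb_le_Nath {t : ℝ} (h0 : 0 < t) (h1 : t < 1) : t * hb t ≤ (1 - t ^ 2) * ath t := by
  have key := le_of_deriv_nonpos (f := fun x => (1 - x ^ 2) * ath x / x - hb x)
    (f' := fun x => (x - ath x) / x ^ 2) h1.le ?_ ?_ ?_
  · simp only [hb_one] at key
    norm_num at key
    have : hb t ≤ (1 - t ^ 2) * ath t / t := key
    rw [le_div_iff₀ h0] at this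
    linarith
  · apply ContinuousOn.sub
    · apply ContinuousOn.div continuous_Nath.continuousOn continuousOn_id
      intro x hx
      have := hx.1
      simp only [id]
      linarith
    · exact continuous_hb.continuousOn
  · intro x hx
    have hx0 : 0 < x := by linarith [hx.1]
    have a1 := (hasDerivAt_Nath (t := x) (by linarith) hx.2).div (hasDerivAt_id x) hx0.ne'
    have := a1.sub (hasDerivAt_hb' (t := x) (by linarith) hx.2)
    refine this.congr_deriv ?_
    simp only [id]
    field_simp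
    ring
  · intro x hx
    have hx0 : 0 < x := by linarith [hx.1]
    have := ath_ge_self hx0.le hx.2
    apply div_nonpos_of_nonpos_of_nonneg
    · linarith
    · positivity

/-- `h(t) ≤ (1-t²)(1/4 + artanh(t)/(2t))` -/
theorem hb_le_D1 {t : ℝ} (h0 : 0 < t) (h1 : t < 1) :
    2 * t * hb t ≤ (1 - t ^ 2) * (t / 2 + ath t) := by
  have key := le_of_deriv_nonpos
    (f := fun x => (1 - x ^ 2) / 4 + (1 - x ^ 2) * ath x / x / 2 - hb x)
    (f' := fun x => (1 - x ^ 2) * (x - ath x) / (2 * x ^ 2)) h1.le ?_ ?_ ?_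
  · simp only [hb_one] at key
    norm_num at key
    have h2 : hb t ≤ (1 - t ^ 2) / 4 + (1 - t ^ 2) * ath t / t / 2 := by linarith
    have h3 := mul_le_mul_of_nonneg_left h2 (by positivity : (0 : ℝ) ≤ 2 * t)
    have e : 2 * t * ((1 - t ^ 2) / 4 + (1 - t ^ 2) * ath t / t / 2) =
        (1 - t ^ 2) * (t / 2 + ath t) := by
      field_simp
      ring
    rw [e] at h3
    exact h3
  · apply ContinuousOn.sub
    · apply ContinuousOn.add
      · fun_prop
      · apply ContinuousOn.div_const
        apply ContinuousOn.div continuous_Nath.continuousOn continuousOn_id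
        intro x hx
        have := hx.1
        simp only [id]
        linarith
    · exact continuous_hb.continuousOn
  · intro x hx
    have hx0 : 0 < x := by linarith [hx.1]
    have a1 := ((hasDerivAt_Nath (t := x) (by linarith) hx.2).div
      (hasDerivAt_id x) hx0.ne').div_const 2
    have a2 : HasDerivAt (fun t : ℝ => (1 - t ^ 2) / 4) (-(2 * x) / 4) x := by
      have := (((hasDerivAt_id x).pow 2).const_sub 1).div_const 4
      simpa using this
    have := (a2.add a1).sub (hasDerivAt_hb' (t := x) (by linarith) hx.2)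
    refine this.congr_deriv ?_
    simp only [id]
    field_simp
    ring
  · intro x hx
    have hx0 : 0 < x := by linarith [hx.1]
    have := ath_ge_self hx0.le hx.2
    have h3 : 0 < 1 - x ^ 2 := one_sub_sq_pos (by linarith) hx.2
    apply div_nonpos_of_nonpos_of_nonneg
    · nlinarith
    · positivity

/-- `(1+t²) h(t) - t(1-t²) artanh t ≥ (1-t²)/2` -/
theorem hb_ge_D2 {t : ℝ} (h0 : 0 < t) (h1 : t < 1) :
    (1 - t ^ 2) / 2 + t * ((1 - t ^ 2) * ath t) ≤ (1 + t ^ 2) * hb t := by
  have key := le_of_deriv_nonpos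
    (f := fun x => (1 + x ^ 2) * hb x - x * ((1 - x ^ 2) * ath x) - (1 - x ^ 2) / 2)
    (f' := fun x => 2 * (x * hb x - (1 - x ^ 2) * ath x)) h1.le ?_ ?_ ?_
  · simp only [hb_one] at key
    norm_num at key
    linarith
  · apply ContinuousOn.sub
    · apply ContinuousOn.sub
      · exact ((continuous_const.add (continuous_pow 2)).mul continuous_hb).continuousOn
      · exact (continuous_id.mul continuous_Nath).continuousOn
    · fun_prop
  · intro x hx
    have hx0 : 0 < x := by linarith [hx.1]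
    have a0 : HasDerivAt (fun t : ℝ => 1 + t ^ 2) (2 * x) x := by
      have := ((hasDerivAt_id x).pow 2).const_add 1
      simpa using this
    have a1 := a0.mul (hasDerivAt_hb' (t := x) (by linarith) hx.2)
    have a2 := (hasDerivAt_id x).mul (hasDerivAt_Nath (t := x) (by linarith) hx.2)
    have a3 : HasDerivAt (fun t : ℝ => (1 - t ^ 2) / 2) (-(2 * x) / 2) x := by
      have := (((hasDerivAt_id x).pow 2).const_sub 1).div_const 2
      simpa using this
    refine ((a1.sub a2).sub a3).congr_deriv ?_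
    simp only [id]
    ring
  · intro x hx
    have hx0 : 0 < x := by linarith [hx.1]
    have := hb_le_Nath hx0 hx.2
    linarith

end

end Vale.Agent.P322
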