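import Vale.Agent.P322.Star
import Vale.Agent.P322.Reg2A
import Vale.Agent.P322.R2

/-!
# P322: inequality (A) for `m ≥ 3/4`
-/

namespace Vale.Agent.P322

open Real Finset

noncomputable section

theorem Phi_le_sq {x : ℝ} (h0 : 0 ≤ x) (h1 : x < 1) : Phi x ≤ x ^ 2 * log 2 := by
  have := kap_nonneg h0 h1.le
  unfold kap at this
  rw [hb_eq_log (by linarith) h1] at this
  linarith

theorem Phi_ge_sq {x : ℝ} (h0 : 0 ≤ x) (h1 : x < 1) : x ^ 2 / 2 ≤ Phi x := by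
  have := hb_le_sq (m := x) (by rw [abs_of_nonneg h0]; exact h1.le)
  rw [hb_eq_log (by linarith) h1] at this
  linarith

theorem kap_le_k0 {ρ : ℝ} (h0 : 0 ≤ ρ) (h1 : ρ < 1) : kap ρ ≤ ρ ^ 2 * (log 2 - 1 / 2) := by
  have := Phi_ge_sq h0 h1
  unfold kap
  rw [hb_eq_log (by linarith) h1]
  linarith

theorem WW_ge {ρ x : ℝ} (hρ0 : 0 < ρ) (hρ1 : ρ < 1) (h0 : 0 ≤ x) (h1 : x < 1) :
    ρ ^ 2 * (1 - ρ ^ 2) * x ^ 4 / 12 ≤ WW ρ x := by
  have key := le_of_deriv_nonneg (f := fun x => WW ρ x - ρ ^ 2 * (1 - ρ ^ 2) * x ^ 4 / 12)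
    (f' := fun x => ρ ^ 2 * ath x - ρ * ath (ρ * x) - ρ ^ 2 * (1 - ρ ^ 2) * x ^ 3 / 3)
    (a := 0) (b := x) h0 ?_ ?_ ?_
  · simp only [WW, Phi_zero, mul_zero] at key
    unfold WW
    norm_num at key
    linarith
  · apply Continuous.continuousOn
    unfold WW
    have := continuous_Phi
    fun_prop
  · intro t ht
    have ht1 : t < 1 := lt_trans ht.2 h1
    have hρt : ρ * t < 1 := by nlinarith [ht.1]
    have hρt0 : 0 < ρ * t := mul_pos hρ0 ht.1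
    have d1 := (hasDerivAt_Phi (t := t) (by linarith [ht.1]) ht1).const_mul (ρ ^ 2)
    have d2 : HasDerivAt (fun x => Phi (ρ * x)) (ath (ρ * t) * ρ) t := by
      have hin : HasDerivAt (fun x : ℝ => ρ * x) ρ t := by
        simpa using (hasDerivAt_id t).const_mul ρ
      exact (hasDerivAt_Phi (t := ρ * t) (by linarith) hρt).comp t hin
    have d3 : HasDerivAt (fun x : ℝ => ρ ^ 2 * (1 - ρ ^ 2) * x ^ 4 / 12)
        (ρ ^ 2 * (1 - ρ ^ 2) * t ^ 3 / 3) t := by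
      refine (((hasDerivAt_pow 4 t).const_mul (ρ ^ 2 * (1 - ρ ^ 2))).div_const 12).congr_deriv ?_
      norm_num
      ring
    refine ((d1.sub d2).sub d3).congr_deriv ?_
    ring
  · intro t ht
    have ht1 : t < 1 := lt_trans ht.2 h1
    have hs := ath_scale (X := ρ) (t := t) hρ0.le hρ1.le ht.1.le ht1
    have hg := ath_ge ht.1.le ht1
    have h5 : ρ ^ 6 ≤ ρ ^ 2 := pow_le_pow_of_le_one hρ0.le hρ1.le (by norm_num)
    have h6 : ρ ^ 6 * (ath t - t - t ^ 3 / 3) ≤ ρ ^ 2 * (ath t - t - t ^ 3 / 3) :=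
      mul_le_mul_of_nonneg_right h5 (by linarith)
    have h7 := mul_le_mul_of_nonneg_left hs hρ0.le
    have e1 : ρ * (ρ ^ 5 * (ath t - t - t ^ 3 / 3)) = ρ ^ 6 * (ath t - t - t ^ 3 / 3) := by ring
    rw [e1] at h7
    have e2 : ρ * (ath (ρ * t) - ρ * t - (ρ * t) ^ 3 / 3) =
        ρ * ath (ρ * t) - ρ ^ 2 * t - ρ ^ 4 * t ^ 3 / 3 := by ring
    rw [e2] at h7
    have e3 : ρ ^ 2 * (ath t - t - t ^ 3 / 3) = ρ ^ 2 * ath t - ρ ^ 2 * t - ρ ^ 2 * t ^ 3 / 3 := by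
      ring
    rw [e3] at h6
    have e4 : ρ ^ 2 * (1 - ρ ^ 2) * t ^ 3 / 3 = ρ ^ 2 * t ^ 3 / 3 - ρ ^ 4 * t ^ 3 / 3 := by ring
    show 0 ≤ ρ ^ 2 * ath t - ρ * ath (ρ * t) - ρ ^ 2 * (1 - ρ ^ 2) * t ^ 3 / 3
    rw [e4]
    linarith

/-- `4κ ≤ (4/3) ρ² (1-ρ²)` for `ρ ≤ 39/50` -/
theorem kap_le_43 {ρ : ℝ} (h0 : 0 ≤ ρ) (h1 : ρ ≤ 39 / 50) :
    kap ρ ≤ ρ ^ 2 * (1 - ρ ^ 2) / 3 := by
  have hρ1 : ρ < 1 := by linarith
  have hk := kap_le_log h0 hρ1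
  set q := ρ ^ 2 with hq
  have hq0 : 0 ≤ q := sq_nonneg ρ
  have hq1 : q ≤ 1521 / 2500 := by
    rw [hq]
    nlinarith
  have hN : 0 < 1 - q := by linarith
  have hl := Real.log_two_lt_d9
  have hl' := Real.log_two_gt_d9
  have hexp := Real.sum_le_exp_of_nonneg (x := 4 / 3 * q) (by positivity) 4
  rw [Finset.sum_range_succ, Finset.sum_range_succ, Finset.sum_range_succ,
    Finset.sum_range_one] at hexp
  norm_num [Nat.factorial] at hexp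
  have hle : 1 + 4 * (log 2 - 1 / 2) * q / (1 - q) ≤ exp (4 / 3 * q) := by
    refine le_trans ?_ hexp
    have e : 1 + 4 * (log 2 - 1 / 2) * q / (1 - q) = (1 - q + 4 * (log 2 - 1 / 2) * q) / (1 - q) := by
      field_simp
    rw [e, div_le_iff₀ hN]
    have h3 : 4 * (log 2 - 1 / 2) * q ≤ 0.7727 * q := by
      apply mul_le_mul_of_nonneg_right _ hq0
      linarith
    have hq2 : q ^ 2 ≤ 1521 / 2500 * q := by nlinarith
    have hq3 : q ^ 3 ≤ (1521 / 2500) ^ 2 * q := by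
      have : q ^ 3 = q * q ^ 2 := by ring
      rw [this]
      have h4 : q * q ^ 2 ≤ q * (1521 / 2500 * q) := mul_le_mul_of_nonneg_left hq2 hq0
      nlinarith
    have hq4 : q ^ 4 ≤ (1521 / 2500) ^ 3 * q := by
      have : q ^ 4 = q * q ^ 3 := by ring
      rw [this]
      have h4 : q * q ^ 3 ≤ q * ((1521 / 2500) ^ 2 * q) := mul_le_mul_of_nonneg_left hq3 hq0
      nlinarith
    nlinarith
  have hlog : log (1 + 4 * (log 2 - 1 / 2) * q / (1 - q)) ≤ 4 / 3 * q := by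
    rw [Real.log_le_iff_le_exp]
    · exact hle
    · have : 0 ≤ 4 * (log 2 - 1 / 2) * q / (1 - q) := by
        apply div_nonneg _ hN.le
        apply mul_nonneg _ hq0
        linarith
      linarith
  have h5 := mul_le_mul_of_nonneg_left hlog hN.le
  linarith

theorem La_le_sq {s : ℝ} (h1 : s ^ 2 < 1) : La s ≤ s ^ 2 / (2 * (1 - s ^ 2)) := by
  have h := Real.one_sub_inv_le_log_of_pos (x := 1 - s ^ 2) (by linarith)
  unfold La
  have e : 1 - (1 - s ^ 2)⁻¹ = -(s ^ 2 / (1 - s ^ 2)) := by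
    have : 1 - s ^ 2 ≠ 0 := by linarith
    field_simp
    ring
  rw [e] at h
  have e2 : s ^ 2 / (2 * (1 - s ^ 2)) = s ^ 2 / (1 - s ^ 2) / 2 := by
    have : 1 - s ^ 2 ≠ 0 := by linarith
    field_simp
  rw [e2]
  linarith

theorem La_sub_ge {ρ s : ℝ} (hρ0 : 0 ≤ ρ) (hρ1 : ρ ≤ 1) (h1 : s ^ 2 < 1) :
    (1 - ρ ^ 2) * s ^ 2 / 2 ≤ La s - La (ρ * s) := by
  have hq1 : ρ ^ 2 ≤ 1 := by nlinarith
  have hs : 0 ≤ s ^ 2 := sq_nonneg s
  have hq0 : 0 ≤ ρ ^ 2 := sq_nonneg ρ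
  have hqs : ρ ^ 2 * s ^ 2 < 1 := by nlinarith
  have hp1 : 0 < 1 - s ^ 2 := by linarith
  have hp2 : 0 < 1 - ρ ^ 2 * s ^ 2 := by linarith
  have h := Real.log_le_sub_one_of_pos (x := (1 - s ^ 2) / (1 - ρ ^ 2 * s ^ 2)) (div_pos hp1 hp2)
  rw [Real.log_div hp1.ne' hp2.ne'] at h
  unfold La
  have e0 : (ρ * s) ^ 2 = ρ ^ 2 * s ^ 2 := by ring
  rw [e0]
  have e : (1 - s ^ 2) / (1 - ρ ^ 2 * s ^ 2) - 1 = -((1 - ρ ^ 2) * s ^ 2 / (1 - ρ ^ 2 * s ^ 2)) := by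
    rw [div_sub_one hp2.ne', ← neg_div]
    congr 1
    ring
  rw [e] at h
  have h2 : (1 - ρ ^ 2) * s ^ 2 ≤ (1 - ρ ^ 2) * s ^ 2 / (1 - ρ ^ 2 * s ^ 2) := by
    rw [le_div_iff₀ hp2]
    have h3 : 0 ≤ (1 - ρ ^ 2) * s ^ 2 := mul_nonneg (by linarith) hs
    nlinarith
  linarith

/-- the polynomial core of `A_small` -/
theorem A_small_core {δ p Lm e Ld c : ℝ} (hδ0 : 0 < δ) (hδ1 : δ ≤ 1 / 4) (hp0 : 0 ≤ p) (hp1 : p ≤ 1)
    (hc0 : 0.6931 < c) (hc1 : c < 0.6932)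
    (hL0 : δ / 2 ≤ Lm) (hL1 : Lm ≤ δ / (2 - δ)) (he : e ≤ 49 / 96 * (p * δ ^ 2 / (2 - δ) ^ 2))
    (hLd : 3 * c + 1 - 4 * δ ≤ Ld) :
    2 * (2 - δ) ^ 2 * ((Lm + e) / 3 - p * Lm / (24 * δ)) ≤
      ((2 - δ) * Lm + δ * Ld) / 2 - c * (p * δ ^ 2) * (1 / (2 * (2 - δ)) + 1 / (2 * δ)) -
        (c - 1 / 2) * (δ * (2 - δ) - p * δ ^ 2) ∧
    0 ≤ ((2 - δ) * Lm + δ * Ld) / 2 - c * (p * δ ^ 2) * (1 / (2 * (2 - δ)) + 1 / (2 * δ)) -
        (c - 1 / 2) * (δ * (2 - δ) - p * δ ^ 2) := by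
  have h2 : 0 < 2 - δ := by linarith
  have eA : c * (p * δ ^ 2) * (1 / (2 * (2 - δ)) + 1 / (2 * δ)) = c * p * δ * (1 / (2 - δ)) := by
    field_simp
    ring
  have hinv : 1 / (2 - δ) ≤ 4 / 7 := by
    rw [div_le_div_iff₀ h2 (by norm_num)]
    linarith
  have hinv0 : 0 ≤ 1 / (2 - δ) := by positivity
  have hA1 : c * p * δ * (1 / (2 - δ)) ≤ c * p * δ * (4 / 7) :=
    mul_le_mul_of_nonneg_left hinv (by positivity)
  have hLd2 : δ * (3 * c + 1 - 4 * δ) ≤ δ * Ld := mul_le_mul_of_nonneg_left hLd hδ0.le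
  rw [eA]
  constructor
  · have e1 : 2 * (2 - δ) ^ 2 * ((Lm + e) / 3 - p * Lm / (24 * δ)) =
        2 / 3 * (2 - δ) ^ 2 * Lm + 2 / 3 * ((2 - δ) ^ 2 * e) - p * (2 - δ) ^ 2 / 12 * (Lm / δ) := by
      field_simp
      ring
    rw [e1]
    have he2 : (2 - δ) ^ 2 * e ≤ 49 / 96 * (p * δ ^ 2) := by
      have := mul_le_mul_of_nonneg_left he (sq_nonneg (2 - δ))
      have e3 : (2 - δ) ^ 2 * (49 / 96 * (p * δ ^ 2 / (2 - δ) ^ 2)) = 49 / 96 * (p * δ ^ 2) := by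
        field_simp
      linarith
    have hL3 : 1 / 2 ≤ Lm / δ := by
      rw [le_div_iff₀ hδ0]
      linarith
    have hL4 : p * (2 - δ) ^ 2 / 12 * (1 / 2) ≤ p * (2 - δ) ^ 2 / 12 * (Lm / δ) :=
      mul_le_mul_of_nonneg_left hL3 (by positivity)
    -- the coefficient of Lm
    have hcoef : 0 ≤ 2 / 3 * (2 - δ) ^ 2 - (2 - δ) / 2 := by nlinarith
    have hL5 : (2 / 3 * (2 - δ) ^ 2 - (2 - δ) / 2) * Lm ≤ (2 / 3 * (2 - δ) - 1 / 2) * δ := by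
      have := mul_le_mul_of_nonneg_left hL1 hcoef
      have e4 : (2 / 3 * (2 - δ) ^ 2 - (2 - δ) / 2) * (δ / (2 - δ)) = (2 / 3 * (2 - δ) - 1 / 2) * δ := by
        field_simp
      linarith
    -- the p-part
    have hp : p * (49 / 144 * δ ^ 2 + c * δ * (4 / 7) - (c - 1 / 2) * δ ^ 2 - (2 - δ) ^ 2 / 24) ≤ 0 := by
      apply mul_nonpos_of_nonneg_of_nonpos hp0
      nlinarith
    -- the constant part
    have h0 : (2 / 3 * (2 - δ) - 1 / 2) * δ ≤ δ * (3 * c + 1 - 4 * δ) / 2 - (c - 1 / 2) * (δ * (2 - δ)) := by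
      have : 0 ≤ δ * ((3 * c + 1 - 4 * δ) / 2 - (c - 1 / 2) * (2 - δ) - (2 / 3 * (2 - δ) - 1 / 2)) := by
        apply mul_nonneg hδ0.le
        nlinarith
      linarith
    nlinarith
  · have hL6 : (2 - δ) * (δ / 2) ≤ (2 - δ) * Lm := mul_le_mul_of_nonneg_left hL0 h2.le
    have hA2 : c * p * δ * (4 / 7) ≤ c * δ * (4 / 7) := by
      have : c * p * δ ≤ c * 1 * δ := by
        apply mul_le_mul_of_nonneg_right _ hδ0.le
        apply mul_le_mul_of_nonneg_left hp1 (by linarith)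
      linarith
    have h3 : 0 ≤ δ * ((2 - δ) / 4 + (3 * c + 1 - 4 * δ) / 2 - c * (4 / 7) - (c - 1 / 2) * (2 - δ)) := by
      apply mul_nonneg hδ0.le
      nlinarith
    have h4 : 0 ≤ (c - 1 / 2) * (p * δ ^ 2) := mul_nonneg (by linarith) (by positivity)
    linarith

/-- lower bound of the bracket -/
theorem A_small_br {ρ m T δ p : ℝ} (hρ0 : 0 < ρ) (hρ1 : ρ < 1) (hm : m = 1 - δ) (hδ0 : 0 < δ)
    (hδ1 : δ ≤ 1 / 4) (hT : 0 < T) (hTδ : T < δ) (hp1 : p ≤ 1)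
    (hT2 : T ^ 2 = p * δ ^ 2) :
    ρ ^ 2 * (hb m - log 2 * (p * δ ^ 2) * (1 / (2 * (2 - δ)) + 1 / (2 * δ)) -
        (log 2 - 1 / 2) * (δ * (2 - δ) - p * δ ^ 2)) ≤
      ρ ^ 2 * ((hb (m + T) + hb (m - T)) / 2) - kap ρ * (1 - m ^ 2 - T ^ 2) := by
  have h2 : 0 < 2 - δ := by linarith
  have e1m : 1 + m = 2 - δ := by linarith
  have e2m : 1 - m = δ := by linarith
  have hq0 : 0 < ρ ^ 2 := by positivity
  have hk2 := kap_le_k0 hρ0.le hρ1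
  have hs0 : 0 < T / (1 + m) := by apply div_pos hT; linarith
  have hs1 : T / (1 + m) < 1 := by
    rw [div_lt_iff₀ (by linarith)]
    linarith
  have hr0 : 0 < T / (1 - m) := by apply div_pos hT; linarith
  have hr1 : T / (1 - m) < 1 := by
    rw [div_lt_iff₀ (by linarith)]
    linarith
  have hs2 : (T / (1 + m)) ^ 2 = p * δ ^ 2 / (2 - δ) ^ 2 := by
    rw [e1m, div_pow, hT2]
  have hr2 : (T / (1 - m)) ^ 2 = p := by
    rw [e2m, div_pow, hT2]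
    field_simp
  have havg := avg_hb (c := m) (e := T) (by linarith) (by linarith)
    (by rw [abs_of_pos hT]; linarith) (by rw [abs_of_pos hT]; linarith)
  have hΦs := Phi_le_sq hs0.le hs1
  have hΦr := Phi_le_sq hr0.le hr1
  have e5 : 1 - m ^ 2 - T ^ 2 = δ * (2 - δ) - p * δ ^ 2 := by rw [hT2, hm]; ring
  rw [e5]
  have hpos5 : 0 ≤ δ * (2 - δ) - p * δ ^ 2 := by
    have : p * δ ^ 2 ≤ 1 * δ ^ 2 := mul_le_mul_of_nonneg_right hp1 (sq_nonneg δ)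
    nlinarith
  have h6 : kap ρ * (δ * (2 - δ) - p * δ ^ 2) ≤
      ρ ^ 2 * (log 2 - 1 / 2) * (δ * (2 - δ) - p * δ ^ 2) :=
    mul_le_mul_of_nonneg_right hk2 hpos5
  have h7 : hb m - log 2 * (p * δ ^ 2) * (1 / (2 * (2 - δ)) + 1 / (2 * δ)) ≤
      (hb (m + T) + hb (m - T)) / 2 := by
    rw [havg]
    have h8 : (1 + m) / 2 * Phi (T / (1 + m)) ≤ (2 - δ) / 2 * (p * δ ^ 2 / (2 - δ) ^ 2 * log 2) := by
      rw [← hs2, ← e1m]
      exact mul_le_mul_of_nonneg_left hΦs (by linarith)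
    have h9 : (1 - m) / 2 * Phi (T / (1 - m)) ≤ δ / 2 * (p * log 2) := by
      have := mul_le_mul_of_nonneg_left hΦr (by linarith : 0 ≤ (1 - m) / 2)
      rw [hr2, e2m] at this
      rw [e2m]
      exact this
    have e6 : (2 - δ) / 2 * (p * δ ^ 2 / (2 - δ) ^ 2 * log 2) + δ / 2 * (p * log 2) =
        log 2 * (p * δ ^ 2) * (1 / (2 * (2 - δ)) + 1 / (2 * δ)) := by
      field_simp
    linarith
  have h10 := mul_le_mul_of_nonneg_left h7 hq0.le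
  have h11 : ρ ^ 2 * (hb m - log 2 * (p * δ ^ 2) * (1 / (2 * (2 - δ)) + 1 / (2 * δ)) -
        (log 2 - 1 / 2) * (δ * (2 - δ) - p * δ ^ 2)) =
      ρ ^ 2 * (hb m - log 2 * (p * δ ^ 2) * (1 / (2 * (2 - δ)) + 1 / (2 * δ))) -
        ρ ^ 2 * (log 2 - 1 / 2) * (δ * (2 - δ) - p * δ ^ 2) := by ring
  rw [h11]
  linarith

/-- upper bound of the first factor -/
theorem A_small_left {ρ m T δ p : ℝ} (hρ0 : 0 < ρ) (hρ1 : ρ ≤ 39 / 50) (hm : m = 1 - δ)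
    (hδ0 : 0 < δ) (hδ1 : δ ≤ 1 / 4) (hT : 0 < T) (hTδ : T < δ) (hT2 : T ^ 2 = p * δ ^ 2) :
    kap ρ * T ^ 2 - ((1 + m) / 2 * WW ρ (T / (1 + m)) + (1 - m) / 2 * WW ρ (T / (1 - m))) ≤
      ρ ^ 2 * (1 - ρ ^ 2) * T ^ 2 * (1 / 3 - p / (24 * δ)) := by
  have hρ1' : ρ < 1 := by linarith
  have e2m : 1 - m = δ := by linarith
  have hs0 : 0 < T / (1 + m) := by apply div_pos hT; linarith
  have hs1 : T / (1 + m) < 1 := by
    rw [div_lt_iff₀ (by linarith)]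
    linarith
  have hr0 : 0 < T / (1 - m) := by apply div_pos hT; linarith
  have hr1 : T / (1 - m) < 1 := by
    rw [div_lt_iff₀ (by linarith)]
    linarith
  have hr2 : (T / (1 - m)) ^ 2 = p := by
    rw [e2m, div_pow, hT2]
    field_simp
  have hN0 : 0 < 1 - ρ ^ 2 := by nlinarith
  have hk1 := kap_le_43 hρ0.le hρ1
  have hWs : 0 ≤ WW ρ (T / (1 + m)) :=
    le_trans (by positivity) (WW_ge hρ0 hρ1' hs0.le hs1)
  have hWr := WW_ge hρ0 hρ1' hr0.le hr1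
  have h8 : kap ρ * T ^ 2 ≤ ρ ^ 2 * (1 - ρ ^ 2) / 3 * T ^ 2 :=
    mul_le_mul_of_nonneg_right hk1 (sq_nonneg T)
  have h9 : 0 ≤ (1 + m) / 2 * WW ρ (T / (1 + m)) := mul_nonneg (by linarith) hWs
  have h10 : δ / 2 * (ρ ^ 2 * (1 - ρ ^ 2) * p ^ 2 / 12) ≤ (1 - m) / 2 * WW ρ (T / (1 - m)) := by
    have := mul_le_mul_of_nonneg_left hWr (by linarith : 0 ≤ δ / 2)
    have e : (T / (1 - m)) ^ 4 = p ^ 2 := by rw [← hr2]; ring
    rw [e] at this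
    rw [e2m] at this ⊢
    exact this
  have e7 : δ / 2 * (ρ ^ 2 * (1 - ρ ^ 2) * p ^ 2 / 12) =
      ρ ^ 2 * (1 - ρ ^ 2) * T ^ 2 * (p / (24 * δ)) := by
    rw [hT2]
    field_simp
    ring
  rw [e7] at h10
  linarith

theorem A_small_logs {m δ : ℝ} (hm : m = 1 - δ) (hδ0 : 0 < δ) (hδ1 : δ ≤ 1 / 4) :
    log (2 / (1 + m)) ≤ δ / (2 - δ) ∧ δ / 2 ≤ log (2 / (1 + m)) ∧
    3 * log 2 + 1 - 4 * δ ≤ log 2 - log δ ∧
    hb m = ((2 - δ) * log (2 / (1 + m)) + δ * (log 2 - log δ)) / 2 := by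
  have h2 : 0 < 2 - δ := by linarith
  have e1m : 1 + m = 2 - δ := by linarith
  have e2m : 1 - m = δ := by linarith
  have hLm : log (2 / (1 + m)) = log 2 - log (2 - δ) := by
    rw [e1m, Real.log_div (by norm_num) h2.ne']
  refine ⟨?_, ?_, ?_, ?_⟩
  · have := Real.log_le_sub_one_of_pos (x := 2 / (1 + m)) (by apply div_pos <;> linarith)
    have e : 2 / (1 + m) - 1 = δ / (2 - δ) := by
      rw [e1m]
      field_simp
      ring
    linarith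
  · have := Real.one_sub_inv_le_log_of_pos (x := 2 / (1 + m)) (by apply div_pos <;> linarith)
    have e : 1 - (2 / (1 + m))⁻¹ = δ / 2 := by
      rw [e1m, inv_div]
      ring
    linarith
  · have h := Real.log_le_sub_one_of_pos (x := 4 * δ) (by linarith)
    have h4 : log (4 * δ) = 2 * log 2 + log δ := by
      rw [Real.log_mul (by norm_num) hδ0.ne']
      have : (4 : ℝ) = 2 ^ 2 := by norm_num
      rw [this, Real.log_pow]
      norm_num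
    linarith
  · rw [hb_eq_log (by linarith) (by linarith), hLm]
    unfold Phi
    rw [e1m, e2m]
    ring

/-- algebraic assembly -/
theorem A_small_fin {q N T2 p δ Lm e B s2 A E Br : ℝ} (hq : 0 < q) (hN : 0 < N) (hδ : 0 < δ)
    (h2 : 0 < 2 - δ) (hp : 0 ≤ p) (he : 0 ≤ e) (hT2 : T2 = p * δ ^ 2)
    (hs2 : s2 = p * δ ^ 2 / (2 - δ) ^ 2) (hLe : 0 ≤ Lm + e)
    (hcore : 2 * (2 - δ) ^ 2 * ((Lm + e) / 3 - p * Lm / (24 * δ)) ≤ B) (hB : 0 ≤ B)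
    (hA : A ≤ q * N * T2 * (1 / 3 - p / (24 * δ))) (hE : N * s2 / 2 ≤ E) (hBr : q * B ≤ Br) :
    A * (Lm + e) ≤ E * Br := by
  have hs20 : 0 ≤ s2 := by rw [hs2]; positivity
  have hT20 : 0 ≤ T2 := by rw [hT2]; positivity
  have hR : N * s2 / 2 * (q * B) ≤ E * Br :=
    mul_le_mul hE hBr (mul_nonneg hq.le hB) (le_trans (by positivity) hE)
  refine le_trans (mul_le_mul_of_nonneg_right hA hLe) (le_trans ?_ hR)
  have hfin : (1 / 3 - p / (24 * δ)) * (Lm + e) ≤ B / (2 * (2 - δ) ^ 2) := by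
    rw [le_div_iff₀ (by positivity)]
    have h11 : (1 / 3 - p / (24 * δ)) * (Lm + e) ≤
        (Lm + e) / 3 - p * Lm / (24 * δ) := by
      have : 0 ≤ p / (24 * δ) * e := by positivity
      have e8 : p * Lm / (24 * δ) = p / (24 * δ) * Lm := by ring
      rw [e8]
      linarith
    have h12 := mul_le_mul_of_nonneg_right h11 (by positivity : 0 ≤ 2 * (2 - δ) ^ 2)
    linarith
  have h13 := mul_le_mul_of_nonneg_left hfin (by positivity : 0 ≤ q * N * T2)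
  have e9 : q * N * T2 * (B / (2 * (2 - δ) ^ 2)) = N * s2 / 2 * (q * B) := by
    rw [hs2, hT2]
    field_simp
  rw [e9] at h13
  linarith

/-- inequality (A) for `m ≥ 3/4` -/
theorem A_small {ρ : ℝ} (hρ0 : 0 < ρ) (hρ1 : ρ ≤ 39 / 50) {m T : ℝ} (hm : 3 / 4 ≤ m) (hT : 0 < T)
    (hmT : m + T < 1) :
    (kap ρ * T ^ 2 - ((1 + m) / 2 * WW ρ (T / (1 + m)) + (1 - m) / 2 * WW ρ (T / (1 - m)))) *
        (log (2 / (1 + m)) + La (T / (1 + m))) ≤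
      (La (T / (1 + m)) - La (ρ * (T / (1 + m)))) *
        (ρ ^ 2 * ((hb (m + T) + hb (m - T)) / 2) - kap ρ * (1 - m ^ 2 - T ^ 2)) := by
  have hρ1' : ρ < 1 := by linarith
  obtain ⟨δ, hδ⟩ : ∃ δ, δ = 1 - m := ⟨_, rfl⟩
  have hm' : m = 1 - δ := by linarith
  have hδ0 : 0 < δ := by linarith
  have hδ1 : δ ≤ 1 / 4 := by linarith
  have hTδ : T < δ := by linarith
  have h2 : 0 < 2 - δ := by linarith
  obtain ⟨p, hp⟩ : ∃ p, p = T ^ 2 / δ ^ 2 := ⟨_, rfl⟩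
  have hp0 : 0 ≤ p := by rw [hp]; positivity
  have hT2 : T ^ 2 = p * δ ^ 2 := by rw [hp]; field_simp
  have hp1 : p ≤ 1 := by
    rw [hp, div_le_one (by positivity)]
    exact pow_le_pow_left₀ hT.le hTδ.le 2
  have hc0 : 0.6931 < log 2 := lt_trans (by norm_num) Real.log_two_gt_d9
  have hc1 : log 2 < 0.6932 := lt_trans Real.log_two_lt_d9 (by norm_num)
  have hq0 : 0 < ρ ^ 2 := by positivity
  have hN0 : 0 < 1 - ρ ^ 2 := by nlinarith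
  obtain ⟨hL1, hL0, hLd, hhbm⟩ := A_small_logs hm' hδ0 hδ1
  have hbr := A_small_br hρ0 hρ1' hm' hδ0 hδ1 hT hTδ hp1 hT2
  have hL := A_small_left hρ0 hρ1 hm' hδ0 hδ1 hT hTδ hT2
  have hs1 : T / (1 + m) < 1 / 7 := by
    rw [div_lt_iff₀ (by linarith)]
    linarith
  have hs0 : 0 < T / (1 + m) := by apply div_pos hT; linarith
  have hs2 : (T / (1 + m)) ^ 2 = p * δ ^ 2 / (2 - δ) ^ 2 := by
    have e1m : 1 + m = 2 - δ := by linarith
    rw [e1m, div_pow, hT2]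
  have hs49 : (T / (1 + m)) ^ 2 ≤ 1 / 49 := by
    have := pow_le_pow_left₀ hs0.le hs1.le 2
    norm_num at this
    linarith
  have hLa0 : 0 ≤ La (T / (1 + m)) := La_nn (by linarith)
  have hLa1 : La (T / (1 + m)) ≤ 49 / 96 * (p * δ ^ 2 / (2 - δ) ^ 2) := by
    have h := La_le_sq (s := T / (1 + m)) (by linarith)
    rw [← hs2]
    refine le_trans h ?_
    have h0 := sq_nonneg (T / (1 + m))
    rw [div_le_iff₀ (by linarith)]
    nlinarith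
  have hcore := A_small_core (e := La (T / (1 + m))) hδ0 hδ1 hp0 hp1 hc0 hc1 hL0 hL1 hLa1 hLd
  rw [← hhbm] at hcore
  exact A_small_fin hq0 hN0 hδ0 h2 hp0 hLa0 hT2 hs2 (by linarith) hcore.1 hcore.2 hL
    (La_sub_ge hρ0.le hρ1'.le (by linarith)) hbr

end

end Vale.Agent.P322
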