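import Vale.Agent.P322.Basic

/-!
# P322: the induction needs certificates at interior points only; endpoints `ρ ∈ {0,1}`
-/

namespace Vale.Agent.P322

open Real Finset

noncomputable section

theorem hb_ge_half {m : ℝ} (hm : |m| ≤ 1) : (1 - m ^ 2) / 2 ≤ hb m := by
  rw [abs_le] at hm
  unfold hb
  rw [Real.binEntropy_eq_negMulLog_add_negMulLog_one_sub]
  have key : ∀ x : ℝ, 0 ≤ x → x * (1 - x) ≤ Real.negMulLog x := by
    intro x hx
    unfold Real.negMulLog
    rcases hx.eq_or_lt with h | h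
    · rw [← h]; simp
    · have := Real.log_le_sub_one_of_pos h
      nlinarith
  have h1 := key ((1 + m) / 2) (by linarith)
  have h2 := key (1 - (1 + m) / 2) (by linarith)
  nlinarith

theorem HH_le_hb {ρ : ℝ} (h0 : 0 ≤ ρ) (h1 : ρ ≤ 1) {m : ℝ} (hm : |m| ≤ 1) : HH ρ m ≤ hb m := by
  have hl := Real.log_two_lt_d9
  have e2 := hb_le_sq (m := ρ) (by rw [abs_of_nonneg h0]; exact h1)
  have e3 := hb_ge_half hm
  have hm' : m ^ 2 ≤ 1 := (sq_le_one_iff_abs_le_one m).mpr hm
  unfold HH kap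
  have hρ2 : 0 ≤ ρ ^ 2 := sq_nonneg ρ
  have k2 : (hb ρ - (1 - ρ ^ 2) * log 2) * (1 - m ^ 2) ≤ (ρ ^ 2 * (log 2 - 1 / 2)) * (1 - m ^ 2) :=
    mul_le_mul_of_nonneg_right (by nlinarith) (by linarith)
  have k3 : (ρ ^ 2 * (log 2 - 1 / 2)) * (1 - m ^ 2) ≤ (ρ ^ 2 * (1 / 2)) * (1 - m ^ 2) :=
    mul_le_mul_of_nonneg_right (mul_le_mul_of_nonneg_left (by linarith) hρ2) (by linarith)
  have k4 : ρ ^ 2 * ((1 - m ^ 2) / 2) ≤ ρ ^ 2 * hb m := mul_le_mul_of_nonneg_left e3 hρ2
  nlinarith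

/-- one induction step -/
theorem step {ρ : ℝ} {n : ℕ} (U W : Cube n → ℝ) {a b : ℝ} (hcert : Cert ρ a b)
    (hU : ∀ y, |U y| ≤ 1) (hW : ∀ y, |W y| ≤ 1)
    (hUa : (1 / 2 : ℝ) ^ n * ∑ y, U y = a) (hWb : (1 / 2 : ℝ) ^ n * ∑ y, W y = b)
    (hEa : HH ρ a ≤ (1 / 2 : ℝ) ^ n * ∑ y, hb (U y))
    (hEb : HH ρ b ≤ (1 / 2 : ℝ) ^ n * ∑ y, hb (W y)) :
    HH ρ ((a + b) / 2) ≤ (1 / 2 : ℝ) ^ n * ∑ y, HS ρ (U y) (W y) := by
  obtain ⟨g, α, β₁, β₂, hg, hpt, hfin⟩ := hcert
  refine le_trans hfin ?_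
  have hsum : (1 / 2 : ℝ) ^ n * ∑ y, (g * ((hb (U y) + hb (W y)) / 2) + α + β₁ * U y + β₂ * W y) ≤
      (1 / 2 : ℝ) ^ n * ∑ y, HS ρ (U y) (W y) := by
    apply mul_le_mul_of_nonneg_left _ (by positivity)
    apply Finset.sum_le_sum
    intro y _
    exact hpt _ _ (hU y) (hW y)
  refine le_trans ?_ hsum
  have hexp : (1 / 2 : ℝ) ^ n * ∑ y, (g * ((hb (U y) + hb (W y)) / 2) + α + β₁ * U y + β₂ * W y)
      = g * (((1 / 2 : ℝ) ^ n * ∑ y, hb (U y) + (1 / 2 : ℝ) ^ n * ∑ y, hb (W y)) / 2) + α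
        + β₁ * a + β₂ * b := by
    rw [← hUa, ← hWb]
    have hα : (1 / 2 : ℝ) ^ n * ∑ _y : Cube n, α = α := by
      rw [Finset.sum_const, nsmul_eq_mul, ← mul_assoc]
      have := card_cube n
      rw [Finset.card_univ, this, one_mul]
    have hsplit : ∑ y, (g * ((hb (U y) + hb (W y)) / 2) + α + β₁ * U y + β₂ * W y)
        = g / 2 * ∑ y, hb (U y) + g / 2 * ∑ y, hb (W y) + ∑ _y : Cube n, α
          + β₁ * ∑ y, U y + β₂ * ∑ y, W y := by
      rw [Finset.mul_sum, Finset.mul_sum, Finset.mul_sum, Finset.mul_sum,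
        ← Finset.sum_add_distrib, ← Finset.sum_add_distrib, ← Finset.sum_add_distrib,
        ← Finset.sum_add_distrib]
      apply Finset.sum_congr rfl
      intro y _
      ring
    rw [hsplit, mul_add, mul_add, mul_add, mul_add, hα]
    ring
  rw [hexp]
  have := mul_le_mul_of_nonneg_left (add_le_add hEa hEb) (by linarith : 0 ≤ g / 2)
  nlinarith [this]

/-- if the mean is `±1`, the posterior mean is constant -/
theorem post_eq_of_mean {n : ℕ} {ε : ℝ} (h0 : 0 ≤ ε) (h1 : ε ≤ 1) (f : Cube n → Bool)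
    (hm : ¬ |mean f| < 1) (y : Cube n) : post ε f y = mean f := by
  have hc := card_cube n
  have hpos : (0:ℝ) < (1 / 2) ^ n := by positivity
  have hmean := mean_post ε f
  have hab := fun y => abs_le.mp (abs_post_le h0 h1 f y)
  have hconst : ∀ s : ℝ, (1 / 2 : ℝ) ^ n * ∑ _y : Cube n, s = s := by
    intro s
    rw [Finset.sum_const, nsmul_eq_mul, ← mul_assoc, Finset.card_univ, hc, one_mul]
  have hm1 : mean f = 1 ∨ mean f = -1 := by
    have h2 := abs_mean_le f
    have h3 : |mean f| = 1 := le_antisymm h2 (not_lt.mp hm)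
    exact eq_or_eq_neg_of_abs_eq h3
  rcases hm1 with h | h
  · have hs : ∑ y, (1 - post ε f y) = 0 := by
      rw [Finset.sum_sub_distrib]
      have h4 : (1 / 2 : ℝ) ^ n * (∑ _y : Cube n, (1:ℝ) - ∑ y, post ε f y) = 0 := by
        rw [mul_sub, hconst 1, hmean, h]
        ring
      rcases mul_eq_zero.mp h4 with h5 | h5
      · exact absurd h5 hpos.ne'
      · exact h5
    have := (Finset.sum_eq_zero_iff_of_nonneg (fun y _ => by linarith [(hab y).2])).mp hs y
      (Finset.mem_univ y)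
    rw [h]
    linarith
  · have hs : ∑ y, (1 + post ε f y) = 0 := by
      rw [Finset.sum_add_distrib]
      have h4 : (1 / 2 : ℝ) ^ n * (∑ _y : Cube n, (1:ℝ) + ∑ y, post ε f y) = 0 := by
        rw [mul_add, hconst 1, hmean, h]
        ring
      rcases mul_eq_zero.mp h4 with h5 | h5
      · exact absurd h5 hpos.ne'
      · exact h5
    have := (Finset.sum_eq_zero_iff_of_nonneg (fun y _ => by linarith [(hab y).1])).mp hs y
      (Finset.mem_univ y)
    rw [h]
    linarith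

/-- the scaling factor: `1` at interior points, `l` at the endpoints -/
def sc (a l : ℝ) : ℝ := if |a| < 1 then 1 else l

theorem continuous_sc (a : ℝ) : Continuous (sc a) := by
  unfold sc
  split_ifs
  · exact continuous_const
  · exact continuous_id

theorem sc_one (a : ℝ) : sc a 1 = 1 := by
  unfold sc
  split_ifs <;> rfl

theorem scaled {ρ : ℝ} (h0 : 0 ≤ ρ) (h1 : ρ ≤ 1) {n : ℕ} {ε : ℝ} (hε0 : 0 ≤ ε) (hε1 : ε ≤ 1)
    (f : Cube n → Bool) (hf : HH ρ (mean f) ≤ (1 / 2 : ℝ) ^ n * ∑ y, hb (post ε f y)) {l : ℝ}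
    (hl0 : 0 < l) (hl1 : l < 1) :
    |sc (mean f) l * mean f| < 1 ∧ (∀ y, |sc (mean f) l * post ε f y| ≤ 1) ∧
    (1 / 2 : ℝ) ^ n * ∑ y, sc (mean f) l * post ε f y = sc (mean f) l * mean f ∧
    HH ρ (sc (mean f) l * mean f) ≤ (1 / 2 : ℝ) ^ n * ∑ y, hb (sc (mean f) l * post ε f y) := by
  have hmean := mean_post ε f
  refine ⟨?_, ?_, ?_, ?_⟩
  · unfold sc
    split_ifs with h
    · rwa [one_mul]
    · rw [abs_mul, abs_of_pos hl0]
      have := abs_mean_le f
      nlinarith [abs_nonneg (mean f)]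
  · intro y
    have := abs_post_le hε0 hε1 f y
    unfold sc
    split_ifs with h
    · rwa [one_mul]
    · rw [abs_mul, abs_of_pos hl0]
      nlinarith [abs_nonneg (post ε f y)]
  · rw [← Finset.mul_sum, ← hmean]
    ring
  · unfold sc
    split_ifs with h
    · simpa using hf
    · have hp := post_eq_of_mean hε0 hε1 f h
      simp only [hp]
      have hconst : ∀ s : ℝ, (1 / 2 : ℝ) ^ n * ∑ _y : Cube n, s = s := by
        intro s
        rw [Finset.sum_const, nsmul_eq_mul, ← mul_assoc, Finset.card_univ, card_cube n, one_mul]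
      rw [hconst]
      apply HH_le_hb h0 h1
      rw [abs_mul, abs_of_pos hl0]
      have := abs_mean_le f
      nlinarith [abs_nonneg (mean f)]

theorem continuous_HS' (ρ : ℝ) : Continuous (fun p : ℝ × ℝ => HS ρ p.1 p.2) := by
  unfold HS
  have h := continuous_hb
  fun_prop

theorem continuous_HH (ρ : ℝ) : Continuous (HH ρ) := by
  unfold HH
  have h := continuous_hb
  fun_prop

/-- the induction, with certificates at interior points only -/
theorem ent_ge_int {ρ : ℝ} (h0 : 0 ≤ ρ) (h1 : ρ ≤ 1)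
    (hcert : ∀ a b : ℝ, |a| < 1 → |b| < 1 → Cert ρ a b) :
    ∀ (n : ℕ) (f : Cube n → Bool), HH ρ (mean f) ≤ Ent ((1 - ρ) / 2) f := by
  intro n
  induction n with
  | zero =>
    intro f
    have hm : mean f = 1 ∨ mean f = -1 := by
      have e : mean f = sgn (f default) := by
        unfold mean
        simp only [pow_zero, one_mul, Finset.univ_unique, Finset.sum_singleton]
        exact congrArg sgn (congrArg f (Subsingleton.elim _ _))
      rw [e]
      cases f default
      · right; simp [sgn]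
      · left; simp [sgn]
    have h2 : HH ρ (mean f) = 0 := by
      unfold HH
      rcases hm with h | h <;> rw [h] <;> simp
    rw [h2]
    unfold Ent
    apply mul_nonneg (by positivity)
    apply Finset.sum_nonneg
    intro y _
    exact hb_nonneg (abs_post_le (by linarith) (by linarith) f y)
  | succ n ih =>
    intro f
    set ε := (1 - ρ) / 2 with hε
    have hε0 : 0 ≤ ε := by rw [hε]; linarith
    have hε1 : ε ≤ 1 := by rw [hε]; linarith
    set a := mean (restr f true) with ha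
    set b := mean (restr f false) with hb'
    rw [mean_succ, ← ha, ← hb', Ent_succ]
    set U : Cube n → ℝ := fun y => post ε (restr f true) y with hU
    set W : Cube n → ℝ := fun y => post ε (restr f false) y with hW
    have hEa : HH ρ a ≤ (1 / 2 : ℝ) ^ n * ∑ y, hb (U y) := ih (restr f true)
    have hEb : HH ρ b ≤ (1 / 2 : ℝ) ^ n * ∑ y, hb (W y) := ih (restr f false)
    have hsub : Set.Ioo (0:ℝ) 1 ⊆ {l : ℝ | HH ρ ((sc a l * a + sc b l * b) / 2) ≤
        (1 / 2 : ℝ) ^ n * ∑ y, HS ρ (sc a l * U y) (sc b l * W y)} := by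
      intro l hl
      obtain ⟨a1, a2, a3, a4⟩ := scaled h0 h1 hε0 hε1 (restr f true) hEa hl.1 hl.2
      obtain ⟨b1, b2, b3, b4⟩ := scaled h0 h1 hε0 hε1 (restr f false) hEb hl.1 hl.2
      exact step _ _ (hcert _ _ a1 b1) a2 b2 a3 b3 a4 b4
    have hclosed : IsClosed {l : ℝ | HH ρ ((sc a l * a + sc b l * b) / 2) ≤
        (1 / 2 : ℝ) ^ n * ∑ y, HS ρ (sc a l * U y) (sc b l * W y)} := by
      have ca := continuous_sc a
      have cb := continuous_sc b
      apply isClosed_le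
      · exact (continuous_HH ρ).comp (by fun_prop)
      · apply Continuous.mul continuous_const
        apply continuous_finset_sum
        intro y _
        exact (continuous_HS' ρ).comp (by fun_prop :
          Continuous (fun l : ℝ => (sc a l * U y, sc b l * W y)))
    have hmem : (1:ℝ) ∈ closure (Set.Ioo (0:ℝ) 1) := by
      rw [closure_Ioo zero_ne_one]
      exact ⟨zero_le_one, le_refl _⟩
    have := hclosed.closure_subset_iff.mpr hsub hmem
    simp only [Set.mem_ofPred_eq, sc_one, one_mul] at this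
    exact this

theorem mi_le_iff {ρ : ℝ} (h0 : 0 ≤ ρ) (h1 : ρ ≤ 1) {n : ℕ} (f : Cube n → Bool)
    (h : hb (mean f) - (log 2 - hb ρ) ≤ Ent ((1 - ρ) / 2) f) :
    mutualInfo (jointLaw ((1 - ρ) / 2) f) ≤ 1 - h2 ((1 - ρ) / 2) := by
  have hlog2 : 0 < log 2 := log_pos (by norm_num)
  have h3 := mutualInfo_eq (ε := (1 - ρ) / 2) (by linarith) (by linarith) f
  have h6 : h2 ((1 - ρ) / 2) * log 2 = hb ρ := by
    rw [h2_eq, ← hb_neg]
    unfold hb
    congr 1
  have h7 : mutualInfo (jointLaw ((1 - ρ) / 2) f) * log 2 ≤ (1 - h2 ((1 - ρ) / 2)) * log 2 := by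
    rw [h3, sub_mul, one_mul, h6]
    linarith
  exact le_of_mul_le_mul_right h7 hlog2

theorem continuous_Ent {n : ℕ} (f : Cube n → Bool) : Continuous (fun ε : ℝ => Ent ε f) := by
  unfold Ent
  apply Continuous.mul continuous_const
  apply continuous_finset_sum
  intro y _
  apply continuous_hb.comp
  unfold post
  apply continuous_finset_sum
  intro x _
  apply Continuous.mul _ continuous_const
  unfold chan
  apply continuous_finset_prod
  intro i _
  split_ifs <;> fun_prop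

/-- Courtade–Kumar for all `0 ≤ ρ ≤ 1` from interior certificates on the cone, for `0 < ρ < 1` -/
theorem ck_of_cert_int
    (h : ∀ ρ : ℝ, 0 < ρ → ρ < 1 → ∀ a b : ℝ, b < a → a < 1 → 0 ≤ a + b → Cert ρ a b)
    {ρ : ℝ} (h0 : 0 ≤ ρ) (h1 : ρ ≤ 1) {n : ℕ} (f : Cube n → Bool) :
    mutualInfo (jointLaw ((1 - ρ) / 2) f) ≤ 1 - h2 ((1 - ρ) / 2) := by
  apply mi_le_iff h0 h1
  have hdiag : ∀ ρ : ℝ, 0 < ρ → ρ < 1 → ∀ a : ℝ, Cert ρ a a := by
    intro ρ hρ0 hρ1 a
    refine ⟨1, 0, 0, 0, zero_le_one, ?_, ?_⟩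
    · intro u v hu hv
      rw [abs_le] at hu hv
      have hc : ConcaveOn ℝ (Set.Icc (-1:ℝ) 1) hb := by
        have h2 := Real.strictConcave_binEntropy.concaveOn
        refine ⟨convex_Icc _ _, ?_⟩
        intro x hx y hy s t hs ht hst
        have h3 := h2.2 (x := (1 + x) / 2) ⟨by linarith [hx.1], by linarith [hx.2]⟩
          (y := (1 + y) / 2) ⟨by linarith [hy.1], by linarith [hy.2]⟩ hs ht hst
        unfold hb
        simp only [smul_eq_mul] at h3 ⊢
        have e : (1 + (s * x + t * y)) / 2 = s * ((1 + x) / 2) + t * ((1 + y) / 2) := by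
          have : s * ((1 + x) / 2) + t * ((1 + y) / 2) = ((s + t) + (s * x + t * y)) / 2 := by ring
          rw [this, hst]
        rw [e]
        exact h3
      have hmu : u ∈ Set.Icc (-1:ℝ) 1 := ⟨hu.1, hu.2⟩
      have hmv : v ∈ Set.Icc (-1:ℝ) 1 := ⟨hv.1, hv.2⟩
      have k1 := hc.2 hmu hmv (show 0 ≤ (1 + ρ) / 2 by linarith)
        (show 0 ≤ (1 - ρ) / 2 by linarith) (by ring)
      have k2 := hc.2 hmu hmv (show 0 ≤ (1 - ρ) / 2 by linarith)
        (show 0 ≤ (1 + ρ) / 2 by linarith) (by ring)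
      simp only [smul_eq_mul] at k1 k2
      unfold HS
      linarith
    · have : (a + a) / 2 = a := by ring
      rw [this]
      linarith
  have hint : ∀ ρ : ℝ, 0 < ρ → ρ < 1 → hb (mean f) - (log 2 - hb ρ) ≤ Ent ((1 - ρ) / 2) f := by
    intro ρ hρ0 hρ1
    have hcert : ∀ a b : ℝ, |a| < 1 → |b| < 1 → Cert ρ a b := by
      intro a b ha hb'
      rw [abs_lt] at ha hb'
      rcases lt_trichotomy a b with hab | hab | hab
      · rcases le_total 0 (a + b) with hs | hs
        · exact (h ρ hρ0 hρ1 b a hab hb'.2 (by linarith)).swap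
        · have := (h ρ hρ0 hρ1 (-a) (-b) (by linarith) (by linarith) (by linarith)).neg
          simpa using this
      · rw [hab]; exact hdiag ρ hρ0 hρ1 b
      · rcases le_total 0 (a + b) with hs | hs
        · exact h ρ hρ0 hρ1 a b hab ha.2 hs
        · have := (h ρ hρ0 hρ1 (-b) (-a) (by linarith) (by linarith) (by linarith)).neg.swap
          simpa using this
    exact le_trans (HH_ge hρ0.le hρ1.le (abs_mean_le f)) (ent_ge_int hρ0.le hρ1.le hcert n f)
  have hclosed : IsClosed {ρ : ℝ | hb (mean f) - (log 2 - hb ρ) ≤ Ent ((1 - ρ) / 2) f} := by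
    apply isClosed_le
    · have := continuous_hb
      fun_prop
    · exact (continuous_Ent f).comp (by fun_prop)
  have hsub : Set.Ioo (0:ℝ) 1 ⊆ {ρ : ℝ | hb (mean f) - (log 2 - hb ρ) ≤ Ent ((1 - ρ) / 2) f} :=
    fun ρ hρ => hint ρ hρ.1 hρ.2
  have hmem : ρ ∈ closure (Set.Ioo (0:ℝ) 1) := by
    rw [closure_Ioo zero_ne_one]
    exact ⟨h0, h1⟩
  exact hclosed.closure_subset_iff.mpr hsub hmem

end

end Vale.Agent.P322
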