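import Vale.Agent.P322.Mono
import Vale.Agent.P322.Interior

/-!
# P322: assembly of the certificates
-/

namespace Vale.Agent.P322

open Real Finset

noncomputable section

/-- The weight in regime 1. -/
def pw (ρ F : ℝ) : ℝ := (1 - ρ ^ 2) / ((1 - ρ ^ 2) + ρ ^ 2 * F)

/-- The weight in regime 2. -/
def ps (ρ z : ℝ) : ℝ := sqrt ((1 - ρ ^ 2) / (1 - ρ ^ 2 * z ^ 2))

theorem pw_pos {ρ F : ℝ} (hρ0 : 0 < ρ) (hρ1 : ρ < 1) (hF : 0 ≤ F) : 0 < pw ρ F := by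
  have hN0 : 0 < 1 - ρ ^ 2 := by nlinarith
  unfold pw
  have := mul_nonneg (sq_nonneg ρ) hF
  exact div_pos hN0 (by linarith)

theorem pw_eq_of {ρ F t : ℝ} (hρ0 : 0 < ρ) (hρ1 : ρ < 1) (hF : 0 ≤ F) (ht : 0 < t)
    (h : t - 1 - ρ ^ 2 / (1 - ρ ^ 2) * F = 0) : pw ρ F = 1 / t := by
  have hN0 : 0 < 1 - ρ ^ 2 := by nlinarith
  have h1 : 0 < (1 - ρ ^ 2) + ρ ^ 2 * F := by
    have := mul_nonneg (sq_nonneg ρ) hF
    linarith
  unfold pw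
  rw [div_eq_div_iff h1.ne' ht.ne']
  have h2 : t = 1 + ρ ^ 2 / (1 - ρ ^ 2) * F := by linarith
  rw [h2]
  field_simp

theorem pw_le_of {ρ F t : ℝ} (hρ0 : 0 < ρ) (hρ1 : ρ < 1) (hF : 0 ≤ F) (ht : 0 < t)
    (h : t - 1 - ρ ^ 2 / (1 - ρ ^ 2) * F < 0) : pw ρ F ≤ 1 / t := by
  have hN0 : 0 < 1 - ρ ^ 2 := by nlinarith
  have h1 : 0 < (1 - ρ ^ 2) + ρ ^ 2 * F := by
    have := mul_nonneg (sq_nonneg ρ) hF
    linarith
  unfold pw
  rw [div_le_div_iff₀ h1 ht]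
  have h2 : t < 1 + ρ ^ 2 / (1 - ρ ^ 2) * F := by linarith
  have h4 := mul_lt_mul_of_pos_left h2 hN0
  have h5 : (1 - ρ ^ 2) * (1 + ρ ^ 2 / (1 - ρ ^ 2) * F) = (1 - ρ ^ 2) + ρ ^ 2 * F := by field_simp
  rw [h5] at h4
  linarith

theorem HS_sym (ρ z : ℝ) : HS ρ z (-z) = hb (ρ * z) := by
  unfold HS
  have e1 : (1 + ρ) / 2 * z + (1 - ρ) / 2 * -z = ρ * z := by ring
  have e2 : (1 - ρ) / 2 * z + (1 + ρ) / 2 * -z = -(ρ * z) := by ring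
  rw [e1, e2, hb_neg]
  ring

/-- regime 2 -/
theorem cert_reg2 {ρ : ℝ} (hρ0 : 0 < ρ) (hρ1 : ρ < 1) (hS1 : S1 ρ)
    (hB1 : ∀ z : ℝ, 0 < z → z < 1 → 0 ≤ R1 ρ z (-z) (ps ρ z))
    (hB2 : ∀ z : ℝ, 0 < z → z < 1 → HH ρ (ps ρ z * z) ≤ ps ρ z * hb z)
    {m e : ℝ} (hm0 : 0 ≤ m) (he0 : 0 < e) (hme : m + e < 1)
    (hcase : (1 - ρ ^ 2) + ρ ^ 2 * e ^ 2 ≤ (1 - m) ^ 2) : Cert ρ (m + e) (m - e) := by
  have hq0 : 0 < ρ ^ 2 := by positivity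
  have hN0 : 0 < 1 - ρ ^ 2 := by nlinarith
  set w := (1 - ρ ^ 2) + ρ ^ 2 * e ^ 2 with hw
  have hw0 : 0 < w := by rw [hw]; positivity
  set P := sqrt w with hP
  have hP0 : 0 < P := Real.sqrt_pos.mpr hw0
  have hPw : P ^ 2 = w := Real.sq_sqrt hw0.le
  have hPm : P ≤ 1 - m := by
    have : sqrt w ≤ sqrt ((1 - m) ^ 2) := Real.sqrt_le_sqrt hcase
    rwa [Real.sqrt_sq (by linarith)] at this
  have heP : e < P := by
    have h1 : e ^ 2 < P ^ 2 := by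
      rw [hPw, hw]
      have : e ^ 2 < 1 := by nlinarith
      nlinarith
    exact lt_of_pow_lt_pow_left₀ 2 hP0.le h1
  set z := e / P with hz
  have hz0 : 0 < z := div_pos he0 hP0
  have hz1 : z < 1 := by rw [hz, div_lt_one hP0]; exact heP
  have hPz : P * z = e := by rw [hz]; field_simp
  have hps : ps ρ z = P := by
    unfold ps
    have h1 : 1 - ρ ^ 2 * z ^ 2 = (1 - ρ ^ 2) / w := by
      rw [hz, div_pow, hPw, eq_div_iff hw0.ne']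
      field_simp
      rw [hw]
      ring
    rw [h1, hP]
    congr 1
    field_simp
  have k1 := hB1 z hz0 hz1
  have k2 := hB2 z hz0 hz1
  rw [hps] at k1 k2
  rw [hPz] at k2
  apply cert_of_sym hρ0 hρ1 hS1 (z := z) (p := P) hz0 hz1 (by rw [hPz]; ring)
  · have hJ := J_mono (m := m) (m' := 1 - P) (e := e) he0.le hm0 (by linarith) (by linarith)
    unfold R1 at k1
    have g2 : 1 - P * (1 - z) = 1 - P + e := by rw [← hPz]; ring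
    have g3 : 1 - P * (1 - -z) = 1 - P - e := by rw [← hPz]; ring
    have g4 : 1 - P * (1 - (z + -z) / 2) = 1 - P := by ring
    have g5 : (m + e + (m - e)) / 2 = m := by ring
    rw [HS_sym, g2, g3, g4, hb_neg] at k1
    rw [g5]
    unfold HH at k1 ⊢
    have hNJ := mul_le_mul_of_nonneg_left hJ hN0.le
    nlinarith
  · have h3 := HH_sym_le hρ0.le hρ1.le he0.le hm0 hme.le
    linarith

/-- the intermediate range -/
theorem cert_mid {ρ : ℝ} (hρ0 : 0 < ρ) (hρ1 : ρ < 1) (hS1 : S1 ρ) {z p pb : ℝ} (hz0 : 0 < z)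
    (hz1 : z < 1) (hpb0 : 0 < pb) (hpb : pb ≤ p) (hp1 : p ≤ 1)
    (hcase : p ^ 2 * (1 - ρ ^ 2 * z ^ 2) ≤ 1 - ρ ^ 2)
    (hB1 : 0 ≤ R1 ρ z (-z) (ps ρ z)) (hA2 : 0 ≤ R2 ρ z (-z) pb) :
    Cert ρ (1 - p * (1 - z)) (1 - p * (1 - -z)) := by
  have hN0 : 0 < 1 - ρ ^ 2 := by nlinarith
  have hq0 : 0 < ρ ^ 2 := by positivity
  have hz2 : z ^ 2 < 1 := by nlinarith
  have hden : 0 < 1 - ρ ^ 2 * z ^ 2 := by nlinarith
  have hp0 : 0 < p := by linarith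
  have hps1 : ps ρ z ≤ 1 := by
    unfold ps
    rw [Real.sqrt_le_one, div_le_one hden]
    nlinarith
  have hple : p ≤ ps ρ z := by
    unfold ps
    apply Real.le_sqrt_of_sq_le
    rw [le_div_iff₀ hden]
    exact hcase
  have k1' : 0 ≤ R1 ρ z (-z) p := R1_sym_mono hρ0 hρ1.le hz0 hz1 hp0 hple hps1 hB1
  have k2' : 0 ≤ R2 ρ z (-z) p := by
    apply R2_mono hρ0.le hρ1.le hpb0 hpb hz1.le (by linarith) _ _ hA2
    · nlinarith
    · nlinarith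
  exact cert_of_line hρ0 hρ1 hS1 (x := z) (y := -z) (p := p) (by linarith) hz1 (by linarith) k1' k2'

/-- regime 1 -/
theorem cert_reg1 {ρ : ℝ} (hρ0 : 0 < ρ) (hρ1 : ρ < 1) (hS1 : S1 ρ) (F : ℝ → ℝ → ℝ)
    (hFc : Continuous (fun p : ℝ × ℝ => F p.1 p.2))
    (hF0 : ∀ u v : ℝ, 0 < u → u < v → u + v ≤ 1 → 0 ≤ F u v)
    (hA1 : ∀ u v : ℝ, 0 < u → u < v → u + v ≤ 1 → 0 ≤ R1 ρ (1 - 2 * u) (1 - 2 * v) (pw ρ (F u v)))
    (hA2 : ∀ u v : ℝ, 0 < u → u < v → u + v ≤ 1 → 0 ≤ R2 ρ (1 - 2 * u) (1 - 2 * v) (pw ρ (F u v)))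
    (hB1 : ∀ z : ℝ, 0 < z → z < 1 → 0 ≤ R1 ρ z (-z) (ps ρ z))
    {u0 v0 : ℝ} (hu00 : 0 < u0) (huv0 : u0 < v0) (hsum : u0 + v0 ≤ 1)
    (hcase : (u0 + v0) ^ 2 ≤ (1 - ρ ^ 2) + ρ ^ 2 * (v0 - u0) ^ 2) :
    Cert ρ (1 - 2 * u0) (1 - 2 * v0) := by
  have hN0 : 0 < 1 - ρ ^ 2 := by nlinarith
  have hp0 : 0 < u0 + v0 := by linarith
  set T := 1 / (u0 + v0) with hT
  have hT1 : 1 ≤ T := by rw [hT, le_div_iff₀ hp0]; linarith
  have hT0 : 0 < T := by linarith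
  have hTm : T * (u0 + v0) = 1 := by rw [hT]; field_simp
  set φ : ℝ → ℝ := fun t => t - 1 - ρ ^ 2 / (1 - ρ ^ 2) * F (t * u0) (t * v0) with hφ
  have hφc : Continuous φ := by
    have : Continuous (fun t : ℝ => F (t * u0) (t * v0)) :=
      hFc.comp (by fun_prop : Continuous (fun t : ℝ => (t * u0, t * v0)))
    simp only [hφ]
    fun_prop
  have hφ1 : φ 1 ≤ 0 := by
    simp only [hφ, one_mul, sub_self, zero_sub]
    have := hF0 u0 v0 hu00 huv0 (by linarith)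
    have : 0 ≤ ρ ^ 2 / (1 - ρ ^ 2) * F u0 v0 := by positivity
    linarith
  rcases le_or_gt 0 (φ T) with hφT | hφT
  · obtain ⟨t, ht, ht'⟩ := intermediate_value_Icc hT1 hφc.continuousOn ⟨hφ1, hφT⟩
    have ht0 : 0 < t := by linarith [ht.1]
    have hu : 0 < t * u0 := by positivity
    have huv : t * u0 < t * v0 := mul_lt_mul_of_pos_left huv0 ht0
    have hsuv : t * u0 + t * v0 ≤ 1 := by
      have : t * (u0 + v0) ≤ T * (u0 + v0) := mul_le_mul_of_nonneg_right ht.2 hp0.le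
      rw [hTm] at this
      linarith
    have hp : pw ρ (F (t * u0) (t * v0)) = 1 / t :=
      pw_eq_of hρ0 hρ1 (hF0 _ _ hu huv hsuv) ht0 ht'
    have k1 := hA1 _ _ hu huv hsuv
    have k2 := hA2 _ _ hu huv hsuv
    rw [hp] at k1 k2
    have h := cert_of_line hρ0 hρ1 hS1 (x := 1 - 2 * (t * u0)) (y := 1 - 2 * (t * v0))
      (p := 1 / t) (by linarith) (by linarith) (by linarith) k1 k2
    have e1 : 1 - 1 / t * (1 - (1 - 2 * (t * u0))) = 1 - 2 * u0 := by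
      field_simp
      ring
    have e2 : 1 - 1 / t * (1 - (1 - 2 * (t * v0))) = 1 - 2 * v0 := by
      field_simp
      ring
    rw [e1, e2] at h
    exact h
  · -- the intermediate range: symmetric reference on the line
    have hu : 0 < T * u0 := by positivity
    have huv : T * u0 < T * v0 := mul_lt_mul_of_pos_left huv0 hT0
    have hsuv : T * u0 + T * v0 = 1 := by linarith
    set z := T * (v0 - u0) with hz
    have hz0 : 0 < z := mul_pos hT0 (by linarith)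
    have hz1 : z < 1 := by
      have : T * (v0 - u0) < T * (u0 + v0) := mul_lt_mul_of_pos_left (by linarith) hT0
      rw [hTm] at this
      exact this
    have hpT : (u0 + v0) * T = 1 := by linarith
    have hpz : (u0 + v0) * z = v0 - u0 := by
      rw [hz, ← mul_assoc, hpT, one_mul]
    have hx : 1 - 2 * (T * u0) = z := by rw [hz]; linarith
    have hy : 1 - 2 * (T * v0) = -z := by rw [hz]; linarith
    have hFb0 : 0 ≤ F (T * u0) (T * v0) := hF0 _ _ hu huv hsuv.le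
    have hpw0 := pw_pos hρ0 hρ1 hFb0
    have hpb : pw ρ (F (T * u0) (T * v0)) ≤ u0 + v0 := by
      have := pw_le_of hρ0 hρ1 hFb0 hT0 hφT
      rw [hT, one_div_one_div] at this
      exact this
    have k2 := hA2 _ _ hu huv hsuv.le
    rw [hx, hy] at k2
    have hcase' : (u0 + v0) ^ 2 * (1 - ρ ^ 2 * z ^ 2) ≤ 1 - ρ ^ 2 := by
      have : (u0 + v0) ^ 2 * (1 - ρ ^ 2 * z ^ 2) =
        (u0 + v0) ^ 2 - ρ ^ 2 * ((u0 + v0) * z) ^ 2 := by ring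
      rw [this, hpz]
      linarith
    have h := cert_mid hρ0 hρ1 hS1 hz0 hz1 hpw0 hpb hsum hcase' (hB1 z hz0 hz1) k2
    have e1 : 1 - (u0 + v0) * (1 - z) = 1 - 2 * u0 := by
      have : (u0 + v0) * (1 - z) = (u0 + v0) - (u0 + v0) * z := by ring
      rw [this, hpz]
      ring
    have e2 : 1 - (u0 + v0) * (1 - -z) = 1 - 2 * v0 := by
      have : (u0 + v0) * (1 - -z) = (u0 + v0) + (u0 + v0) * z := by ring
      rw [this, hpz]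
      ring
    rw [e1, e2] at h
    exact h

theorem cert_all {ρ : ℝ} (hρ0 : 0 < ρ) (hρ1 : ρ < 1) (hS1 : S1 ρ) (F : ℝ → ℝ → ℝ)
    (hFc : Continuous (fun p : ℝ × ℝ => F p.1 p.2))
    (hF0 : ∀ u v : ℝ, 0 < u → u < v → u + v ≤ 1 → 0 ≤ F u v)
    (hA1 : ∀ u v : ℝ, 0 < u → u < v → u + v ≤ 1 → 0 ≤ R1 ρ (1 - 2 * u) (1 - 2 * v) (pw ρ (F u v)))
    (hA2 : ∀ u v : ℝ, 0 < u → u < v → u + v ≤ 1 → 0 ≤ R2 ρ (1 - 2 * u) (1 - 2 * v) (pw ρ (F u v)))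
    (hB1 : ∀ z : ℝ, 0 < z → z < 1 → 0 ≤ R1 ρ z (-z) (ps ρ z))
    (hB2 : ∀ z : ℝ, 0 < z → z < 1 → HH ρ (ps ρ z * z) ≤ ps ρ z * hb z)
    {a b : ℝ} (hab : b < a) (ha1 : a < 1) (hs : 0 ≤ a + b) : Cert ρ a b := by
  rcases le_or_gt ((1 - ρ ^ 2) + ρ ^ 2 * ((a - b) / 2) ^ 2) ((1 - (a + b) / 2) ^ 2) with hcase | hcase
  · have h := cert_reg2 hρ0 hρ1 hS1 hB1 hB2 (m := (a + b) / 2) (e := (a - b) / 2) (by linarith)
      (by linarith) (by linarith) hcase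
    have e1 : (a + b) / 2 + (a - b) / 2 = a := by ring
    have e2 : (a + b) / 2 - (a - b) / 2 = b := by ring
    rw [e1, e2] at h
    exact h
  · have h := cert_reg1 hρ0 hρ1 hS1 F hFc hF0 hA1 hA2 hB1 (u0 := (1 - a) / 2) (v0 := (1 - b) / 2)
      (by linarith) (by linarith) (by linarith) (by
        have e3 : (1 - a) / 2 + (1 - b) / 2 = 1 - (a + b) / 2 := by ring
        have e4 : (1 - b) / 2 - (1 - a) / 2 = (a - b) / 2 := by ring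
        rw [e3, e4]
        exact hcase.le)
    have e1 : 1 - 2 * ((1 - a) / 2) = a := by ring
    have e2 : 1 - 2 * ((1 - b) / 2) = b := by ring
    rw [e1, e2] at h
    exact h

/-- The Courtade–Kumar inequality from the five analytic inputs. -/
theorem ck_of_inputs
    (hS1 : ∀ ρ : ℝ, 0 < ρ → ρ < 1 → S1 ρ) (F : ℝ → ℝ → ℝ)
    (hFc : Continuous (fun p : ℝ × ℝ => F p.1 p.2))
    (hF0 : ∀ u v : ℝ, 0 < u → u < v → u + v ≤ 1 → 0 ≤ F u v)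
    (hA1 : ∀ ρ : ℝ, 0 < ρ → ρ < 1 → ∀ u v : ℝ, 0 < u → u < v → u + v ≤ 1 →
      0 ≤ R1 ρ (1 - 2 * u) (1 - 2 * v) (pw ρ (F u v)))
    (hA2 : ∀ ρ : ℝ, 0 < ρ → ρ < 1 → ∀ u v : ℝ, 0 < u → u < v → u + v ≤ 1 →
      0 ≤ R2 ρ (1 - 2 * u) (1 - 2 * v) (pw ρ (F u v)))
    (hB1 : ∀ ρ : ℝ, 0 < ρ → ρ < 1 → ∀ z : ℝ, 0 < z → z < 1 → 0 ≤ R1 ρ z (-z) (ps ρ z))
    (hB2 : ∀ ρ : ℝ, 0 < ρ → ρ < 1 → ∀ z : ℝ, 0 < z → z < 1 →
      HH ρ (ps ρ z * z) ≤ ps ρ z * hb z)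
    {ρ : ℝ} (h0 : 0 ≤ ρ) (h1 : ρ ≤ 1) {n : ℕ} (f : Cube n → Bool) :
    mutualInfo (jointLaw ((1 - ρ) / 2) f) ≤ 1 - h2 ((1 - ρ) / 2) :=
  ck_of_cert_int (fun ρ hρ0 hρ1 _ _ hab ha1 hs =>
    cert_all hρ0 hρ1 (hS1 ρ hρ0 hρ1) F hFc hF0 (hA1 ρ hρ0 hρ1) (hA2 ρ hρ0 hρ1) (hB1 ρ hρ0 hρ1)
      (hB2 ρ hρ0 hρ1) hab ha1 hs) h0 h1 f

end

end Vale.Agent.P322
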