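import Vale.Agent.P322.Main

/-!
# P322: derivative and elementary bounds for the entropy function `hb`
-/

namespace Vale.Agent.P322

open Real Finset

noncomputable section

theorem hasDerivAt_hb {w : ℝ} (h1 : -1 < w) (h2 : w < 1) :
    HasDerivAt hb ((log (1 - w) - log (1 + w)) / 2) w := by
  have hp0 : (1 + w) / 2 ≠ 0 := by
    have : 0 < (1 + w) / 2 := by linarith
    exact this.ne'
  have hp1 : (1 + w) / 2 ≠ 1 := by
    intro h
    linarith
  have hd := Real.hasDerivAt_binEntropy hp0 hp1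
  have hin : HasDerivAt (fun w : ℝ => (1 + w) / 2) (1 / 2) w := by
    have := ((hasDerivAt_id w).const_add 1).div_const 2
    simpa using this
  have := hd.comp w hin
  have e : (log (1 - (1 + w) / 2) - log ((1 + w) / 2)) * (1 / 2) =
      (log (1 - w) - log (1 + w)) / 2 := by
    have e1 : 1 - (1 + w) / 2 = (1 - w) / 2 := by ring
    rw [e1, Real.log_div (by linarith) (by norm_num), Real.log_div (by linarith) (by norm_num)]
    ring
  rw [e] at this
  exact this

theorem two_mul_le_log {m : ℝ} (h0 : 0 ≤ m) (h1 : m < 1) : 2 * m ≤ log (1 + m) - log (1 - m) := by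
  have hs := Real.hasSum_log_sub_log_of_abs_lt_one (x := m) (by rw [abs_of_nonneg h0]; exact h1)
  have := sum_le_hasSum {0} (fun k _ => by positivity) hs
  simpa using this

theorem hb_le_sq_of_nonneg {m : ℝ} (h0 : 0 ≤ m) (h1 : m ≤ 1) : hb m ≤ log 2 - m ^ 2 / 2 := by
  set φ : ℝ → ℝ := fun x => log 2 - x ^ 2 / 2 - hb x with hφ
  have hcont : ContinuousOn φ (Set.Icc 0 1) := by
    apply Continuous.continuousOn
    exact ((continuous_const.sub ((continuous_pow 2).div_const 2)).sub continuous_hb)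
  have hder : ∀ x ∈ Set.Ioo (0 : ℝ) 1, HasDerivAt φ (-x - (log (1 - x) - log (1 + x)) / 2) x := by
    intro x hx
    have h1 := hasDerivAt_hb (w := x) (by linarith [hx.1]) hx.2
    have h2 : HasDerivAt (fun x : ℝ => log 2 - x ^ 2 / 2) (-x) x := by
      have := (((hasDerivAt_id x).pow 2).div_const 2).const_sub (log 2)
      simp only [id, Nat.cast_ofNat, Nat.add_one_sub_one, pow_one, mul_one] at this
      have e : -(2 * x / 2) = -x := by ring
      rw [e] at this
      exact this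
    exact h2.sub h1
  have hmono : MonotoneOn φ (Set.Icc 0 1) := by
    apply monotoneOn_of_deriv_nonneg (convex_Icc 0 1) hcont
    · intro x hx
      rw [interior_Icc] at hx
      exact (hder x hx).differentiableAt.differentiableWithinAt
    · intro x hx
      rw [interior_Icc] at hx
      rw [(hder x hx).deriv]
      have := two_mul_le_log hx.1.le hx.2
      linarith
  have := hmono (Set.left_mem_Icc.mpr zero_le_one) ⟨h0, h1⟩ h0
  simp only [hφ, hb_zero] at this
  norm_num at this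
  linarith

/-- Pinsker's inequality for the binary entropy -/
theorem hb_le_sq {m : ℝ} (h : |m| ≤ 1) : hb m ≤ log 2 - m ^ 2 / 2 := by
  rcases le_total 0 m with h0 | h0
  · rw [abs_of_nonneg h0] at h
    exact hb_le_sq_of_nonneg h0 h
  · rw [abs_of_nonpos h0] at h
    have := hb_le_sq_of_nonneg (m := -m) (by linarith) h
    rw [hb_neg] at this
    simpa using this

/-- the lower bound `HH` implies the Courtade–Kumar bound -/
theorem HH_ge {ρ : ℝ} (h0 : 0 ≤ ρ) (h1 : ρ ≤ 1) {m : ℝ} (hm : |m| ≤ 1) :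
    hb m - (log 2 - hb ρ) ≤ HH ρ m := by
  have hl := Real.log_two_lt_d9
  have e1 := hb_le_sq hm
  have e2 := hb_le_sq (m := ρ) (by rw [abs_of_nonneg h0]; exact h1)
  unfold HH kap
  have hm2 : 0 ≤ m ^ 2 := sq_nonneg m
  have hρ2 : 0 ≤ ρ ^ 2 := sq_nonneg ρ
  -- goal: ρ² (log 2 - hb m) ≥ kap m²
  have k1 : ρ ^ 2 * (m ^ 2 / 2) ≤ ρ ^ 2 * (log 2 - hb m) :=
    mul_le_mul_of_nonneg_left (by linarith) hρ2
  have k2 : (hb ρ - (1 - ρ ^ 2) * log 2) * m ^ 2 ≤ (ρ ^ 2 * (log 2 - 1 / 2)) * m ^ 2 :=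
    mul_le_mul_of_nonneg_right (by nlinarith) hm2
  have k3 : (ρ ^ 2 * (log 2 - 1 / 2)) * m ^ 2 ≤ ρ ^ 2 * (m ^ 2 / 2) := by
    have : 0 ≤ ρ ^ 2 * m ^ 2 := mul_nonneg hρ2 hm2
    nlinarith
  nlinarith

/-! ### symmetries of the certificates -/

theorem HS_swap (ρ u v : ℝ) : HS ρ v u = HS ρ u v := by
  unfold HS
  rw [add_comm ((1 - ρ) / 2 * u) ((1 + ρ) / 2 * v), add_comm ((1 + ρ) / 2 * u) ((1 - ρ) / 2 * v)]
  ring

theorem HS_neg (ρ u v : ℝ) : HS ρ (-u) (-v) = HS ρ u v := by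
  unfold HS
  rw [← hb_neg ((1 + ρ) / 2 * u + (1 - ρ) / 2 * v), ← hb_neg ((1 - ρ) / 2 * u + (1 + ρ) / 2 * v)]
  ring_nf

theorem HH_neg (ρ m : ℝ) : HH ρ (-m) = HH ρ m := by
  unfold HH
  rw [hb_neg, neg_sq]

theorem Cert.swap {ρ a b : ℝ} (h : Cert ρ a b) : Cert ρ b a := by
  obtain ⟨g, α, β₁, β₂, hg, hpt, hfin⟩ := h
  refine ⟨g, α, β₂, β₁, hg, ?_, ?_⟩
  · intro u v hu hv
    have := hpt v u hv hu
    rw [HS_swap] at this
    linarith
  · rw [add_comm b a, add_comm (HH ρ b)]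
    linarith

theorem Cert.neg {ρ a b : ℝ} (h : Cert ρ a b) : Cert ρ (-a) (-b) := by
  obtain ⟨g, α, β₁, β₂, hg, hpt, hfin⟩ := h
  refine ⟨g, α, -β₁, -β₂, hg, ?_, ?_⟩
  · intro u v hu hv
    have := hpt (-u) (-v) (by rwa [abs_neg]) (by rwa [abs_neg])
    rw [HS_neg, hb_neg, hb_neg] at this
    linarith
  · rw [HH_neg, HH_neg]
    have : (-a + -b) / 2 = -((a + b) / 2) := by ring
    rw [this, HH_neg]
    linarith

/-- it is enough to give the certificates for `b ≤ a` and `0 ≤ a + b` -/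
theorem cert_of_cone {ρ : ℝ}
    (h : ∀ a b : ℝ, |a| ≤ 1 → |b| ≤ 1 → b ≤ a → 0 ≤ a + b → Cert ρ a b) :
    ∀ a b : ℝ, |a| ≤ 1 → |b| ≤ 1 → Cert ρ a b := by
  intro a b ha hb'
  have ha' : |-a| ≤ 1 := by rwa [abs_neg]
  have hb'' : |-b| ≤ 1 := by rwa [abs_neg]
  rcases le_total b a with hab | hab
  · rcases le_total 0 (a + b) with hs | hs
    · exact h a b ha hb' hab hs
    · have := (h (-b) (-a) hb'' ha' (by linarith) (by linarith)).neg.swap
      simpa using this
  · rcases le_total 0 (a + b) with hs | hs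
    · exact (h b a hb' ha hab (by linarith)).swap
    · have := (h (-a) (-b) ha' hb'' (by linarith) (by linarith)).neg
      simpa using this

/-- Courtade–Kumar from the certificates on the cone -/
theorem ck_of_cert_cone {ρ : ℝ} (h0 : 0 ≤ ρ) (h1 : ρ ≤ 1)
    (h : ∀ a b : ℝ, |a| ≤ 1 → |b| ≤ 1 → b ≤ a → 0 ≤ a + b → Cert ρ a b)
    {n : ℕ} (f : Cube n → Bool) :
    mutualInfo (jointLaw ((1 - ρ) / 2) f) ≤ 1 - h2 ((1 - ρ) / 2) :=
  ck_of_cert h0 h1 (cert_of_cone h) (fun _ hm => HH_ge h0 h1 hm) f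

end

end Vale.Agent.P322
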