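import Mathlib

/-!
# P322 (Courtade–Kumar): definitions used in the statement
-/

namespace Vale.Agent.P322

noncomputable section

/-- The cube `{-1,1}^n`, coded by Booleans: `true` is `+1` and `false` is `-1`. -/
abbrev Cube (n : ℕ) := Fin n → Bool

/-- The probability that `Y = y` given `X = x`, for `n` independent binary symmetric channels with
crossover probability `ε`. -/
def chan {n : ℕ} (ε : ℝ) (x y : Cube n) : ℝ :=
  ∏ i, if x i = y i then 1 - ε else ε

/-- The joint law of `(f(X), Y)`, where `X` is uniform on the cube and `Y` is the output of the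
channel with input `X`: the number `jointLaw ε f b y` is `P(f(X) = b, Y = y)`. -/
def jointLaw {n : ℕ} (ε : ℝ) (f : Cube n → Bool) (b : Bool) (y : Cube n) : ℝ :=
  ∑ x : Cube n, if f x = b then (1 / 2) ^ n * chan ε x y else 0

/-- Mutual information (in bits) of a joint law `p` on a finite product `α × β`:
`∑ p(a,b) log₂ (p(a,b) / (p_A(a) p_B(b)))` (terms with `p(a,b) = 0` are zero). -/
def mutualInfo {α β : Type*} [Fintype α] [Fintype β] (p : α → β → ℝ) : ℝ :=
  ∑ a, ∑ b, p a b * Real.logb 2 (p a b / ((∑ b', p a b') * (∑ a', p a' b)))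

/-- The binary entropy function in bits. -/
def h2 (p : ℝ) : ℝ := -p * Real.logb 2 p - (1 - p) * Real.logb 2 (1 - p)

end

end Vale.Agent.P322
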