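import Vale.Agent.P322.Assemble
import Vale.Agent.P322.CertC1

/-!
# P322: certificates for fixed half-difference `e`
-/

namespace Vale.Agent.P322

open Real Finset

noncomputable section

/-- certificates at all points with half-difference `e`, from a reference difference `d` with
weight `P`, `e = P d` -/
theorem cert_e {ρ : ℝ} (hρ0 : 0 < ρ) (hρ1 : ρ < 1) (hS1 : S1 ρ)
    (hB1 : ∀ z : ℝ, 0 < z → z < 1 → 0 ≤ R1 ρ z (-z) (ps ρ z))
    (hB2 : ∀ z : ℝ, 0 < z → z < 1 → HH ρ (ps ρ z * z) ≤ ps ρ z * hb z)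
    {e d P : ℝ} (he0 : 0 < e) (hd1 : d < 1) (hP0 : 0 < P) (hP1 : P ≤ 1) (hPe : P * d = e)
    (hA1 : ∀ u : ℝ, 0 < u → 2 * u + d ≤ 1 → 0 ≤ R1 ρ (1 - 2 * u) (1 - 2 * (u + d)) P)
    (hA2 : ∀ u : ℝ, 0 < u → 2 * u + d ≤ 1 → 0 ≤ R2 ρ (1 - 2 * u) (1 - 2 * (u + d)) P)
    (hZ : ∀ z : ℝ, 0 < z → z ≤ d → ∃ pb : ℝ, 0 < pb ∧ pb ≤ P ∧ 0 ≤ R2 ρ z (-z) pb)
    {m : ℝ} (hm0 : 0 ≤ m) (hme : m + e < 1) : Cert ρ (m + e) (m - e) := by
  rcases le_or_gt ((1 - ρ ^ 2) + ρ ^ 2 * e ^ 2) ((1 - m) ^ 2) with hcase | hcase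
  · exact cert_reg2 hρ0 hρ1 hS1 hB1 hB2 hm0 he0 hme hcase
  rcases le_or_gt (1 - m) P with hmP | hmP
  · -- reference `(u, u + d)` with `u = (1 - m - e) / (2 P)`
    set u := (1 - m - e) / (2 * P) with hu
    have hu0 : 0 < u := div_pos (by linarith) (by linarith)
    have hPu : P * u = (1 - m - e) / 2 := by rw [hu]; field_simp
    have hud : 2 * u + d ≤ 1 := by
      have h1 : P * (2 * u + d) ≤ P * 1 := by
        have : P * (2 * u + d) = 2 * (P * u) + P * d := by ring
        rw [this, hPu, hPe]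
        linarith
      exact le_of_mul_le_mul_left h1 hP0
    have hd0 : 0 < d := by
      by_contra hneg
      push Not at hneg
      have := mul_nonpos_of_nonneg_of_nonpos hP0.le hneg
      linarith
    have h := cert_of_line hρ0 hρ1 hS1 (x := 1 - 2 * u) (y := 1 - 2 * (u + d)) (p := P)
      (by linarith) (by linarith) (by linarith) (hA1 u hu0 hud) (hA2 u hu0 hud)
    have e1 : 1 - P * (1 - (1 - 2 * u)) = m + e := by
      have : P * (1 - (1 - 2 * u)) = 2 * (P * u) := by ring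
      rw [this, hPu]
      ring
    have e2 : 1 - P * (1 - (1 - 2 * (u + d))) = m - e := by
      have : P * (1 - (1 - 2 * (u + d))) = 2 * (P * u) + 2 * (P * d) := by ring
      rw [this, hPu, hPe]
      ring
    rw [e1, e2] at h
    exact h
  · have hp0 : 0 < 1 - m := by linarith
    set z := e / (1 - m) with hz
    have hz0 : 0 < z := div_pos he0 hp0
    have hz1 : z < 1 := by rw [hz, div_lt_one hp0]; linarith
    have hpz : (1 - m) * z = e := by rw [hz]; field_simp
    have hzd : z ≤ d := by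
      rw [hz, div_le_iff₀ hp0]
      have hd0 : 0 < d := by
        by_contra hneg
        push Not at hneg
        have := mul_nonpos_of_nonneg_of_nonpos hP0.le hneg
        linarith
      nlinarith
    obtain ⟨pb, hpb0, hpb1, hpb2⟩ := hZ z hz0 hzd
    have h := cert_mid hρ0 hρ1 hS1 (z := z) (p := 1 - m) hz0 hz1 hpb0 (by linarith) (by linarith)
      (by
        have : (1 - m) ^ 2 * (1 - ρ ^ 2 * z ^ 2) = (1 - m) ^ 2 - ρ ^ 2 * ((1 - m) * z) ^ 2 := by ring
        rw [this, hpz]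
        linarith) (hB1 z hz0 hz1) hpb2
    have e1 : 1 - (1 - m) * (1 - z) = m + e := by
      have : (1 - m) * (1 - z) = (1 - m) - (1 - m) * z := by ring
      rw [this, hpz]
      ring
    have e2 : 1 - (1 - m) * (1 - -z) = m - e := by
      have : (1 - m) * (1 - -z) = (1 - m) + (1 - m) * z := by ring
      rw [this, hpz]
      ring
    rw [e1, e2] at h
    exact h

end

end Vale.Agent.P322
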