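import Vale.Agent.P322.LemmaK3

/-!
# P322: certificates from Lemma K
-/

namespace Vale.Agent.P322

open Real Finset

noncomputable section

/-- The symmetric case of Lemma K at the slope `ρ`. -/
def S1 (ρ : ℝ) : Prop :=
  ∀ g z : ℝ, 0 < g → g < 1 → 0 < z → z < 1 → la ρ g z = (1 - g) * log 2 →
    ∀ u v : ℝ, |u| ≤ 1 → |v| ≤ 1 → ww ρ g z * (u - v) ≤ FF ρ g u v

/-- first scalar quantity for the reference point `(x,y)` and the weight `p` -/
def R1 (ρ x y p : ℝ) : ℝ :=
  p * HS ρ x y - p * ((hb x + hb y) / 2) + (HH ρ (1 - p * (1 - x)) + HH ρ (1 - p * (1 - y))) / 2 -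
    HH ρ (1 - p * (1 - (x + y) / 2))

/-- second scalar quantity for the reference point `(x,y)` and the weight `p` -/
def R2 (ρ x y p : ℝ) : ℝ :=
  p * ((hb x + hb y) / 2) - (HH ρ (1 - p * (1 - x)) + HH ρ (1 - p * (1 - y))) / 2

theorem La_rho_lt {ρ t : ℝ} (hρ0 : 0 < ρ) (hρ1 : ρ < 1) (h0 : 0 < t) (h1 : t < 1) :
    La (ρ * t) < La t := by
  unfold La
  have h2 : (ρ * t) ^ 2 < t ^ 2 := by
    have : ρ * t < t := by nlinarith
    have h3 : 0 < ρ * t := by positivity
    nlinarith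
  have h3 : t ^ 2 < 1 := by nlinarith
  have h4 : log (1 - t ^ 2) < log (1 - (ρ * t) ^ 2) := Real.log_lt_log (by linarith) (by linarith)
  linarith

/-- the certificate with the reference point `(x,y)`, at the points of the line to the apex,
with the exact constant -/
theorem cert_of_line' {ρ : ℝ} (hρ0 : 0 < ρ) (hρ1 : ρ < 1) (hS1 : S1 ρ) {x y p : ℝ}
    (hxy : y < x) (hx1 : x < 1) (hs : 0 ≤ x + y)
    (hR : 0 ≤ R1 ρ x y p * (log (2 / (1 + (x + y) / 2)) + La ((x - y) / 2 / (1 + (x + y) / 2))) +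
      R2 ρ x y p * (La ((x - y) / 2 / (1 + (x + y) / 2)) -
        La (ρ * ((x - y) / 2 / (1 + (x + y) / 2))))) :
    Cert ρ (1 - p * (1 - x)) (1 - p * (1 - y)) := by
  set c := (x + y) / 2 with hc
  set e := (x - y) / 2 with he
  have hc0 : 0 ≤ c := by rw [hc]; linarith
  have hc1 : c < 1 := by rw [hc]; linarith
  have he0 : 0 < e := by rw [he]; linarith
  have hec : e < 1 - c := by rw [he, hc]; linarith
  have hec' : e < 1 + c := by linarith
  have p1 : 0 < 1 + c := by linarith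
  have p2 : 0 < 1 - c := by linarith
  set r0 := (1 - c) / (1 + c) with hr0
  set s0 := e / (1 - c) with hs0
  have hr00 : 0 < r0 := div_pos p2 p1
  have hr01 : r0 ≤ 1 := by rw [hr0, div_le_one p1]; linarith
  have hs00 : 0 < s0 := div_pos he0 p2
  have hs01 : s0 < 1 := by rw [hs0, div_lt_one p2]; exact hec
  have ht0 : 0 < r0 * s0 := by positivity
  have hts : r0 * s0 ≤ s0 := mul_le_of_le_one_left hs00.le hr01
  have ht01 : r0 * s0 < 1 := lt_of_le_of_lt hts hs01
  have hlog : 0 < log (1 + r0) := log_pos (by linarith)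
  have hLt : 0 < La (r0 * s0) := La_pos ht0 ht01
  have hLρ : La (ρ * (r0 * s0)) < La (r0 * s0) := La_rho_lt hρ0 hρ1 ht0 ht01
  have hLρ0 : 0 ≤ La (ρ * (r0 * s0)) := by
    obtain ⟨h3, h4⟩ := rho_mul_lt hρ0 hρ1.le (t := r0 * s0) (by linarith) ht01
    exact La_nonneg h3 h4
  set g := (log (1 + r0) + La (ρ * (r0 * s0))) / (log (1 + r0) + La (r0 * s0)) with hg
  have hg0 : 0 < g := by rw [hg]; apply div_pos <;> linarith
  have hg1 : g < 1 := by rw [hg, div_lt_one (by linarith)]; linarith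
  have hgeq : g * (log (1 + r0) + La (r0 * s0)) = log (1 + r0) + La (ρ * (r0 * s0)) := by
    rw [hg, div_mul_cancel₀]
    linarith
  have h0 : la ρ g (r0 * s0) = (1 - g) * log (1 + r0) := by
    unfold la
    linear_combination hgeq
  have hrr0 : rr ρ g (r0 * s0) = r0 := rr_eq hg1 hr00 h0
  have hss0 : ss ρ g (r0 * s0) = s0 := by
    unfold ss
    rw [hrr0]
    field_simp
  have hK := fun u v (hu : |u| ≤ 1) (hv : |v| ≤ 1) =>
    lemmaK (g := g) hρ0 hρ1.le hg0 hg1 hr00 hr01 hs00 hs01 h0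
      (fun z hz0 hz1 hz => hS1 g z hg0 hg1 hz0 hz1 hz) (u := u) (v := v) hu hv
  -- the plane touches at `(x, y)`
  have htouch : (1 - c) * ((1 - g) * (log (1 + r0) - log r0) - la ρ g s0) +
      e * (ww ρ g (r0 * s0) + ww ρ g s0) = FF ρ g x y := by
    have k1 := FF_eq (ρ := ρ) (g := g) hρ0 hρ1.le (c := c) (e := e) (by linarith) hc1
      (by rw [abs_of_pos he0]; exact hec) (by rw [abs_of_pos he0]; exact hec')
    have k2 := PP_eq_MM (ρ := ρ) (g := g) hρ0 hρ1.le (R := 1 - c) hs00 hs01 hr00 ht01 h0 hrr0 hss0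
    have e1 : c + e = x := by rw [hc, he]; ring
    have e2 : c - e = y := by rw [hc, he]; ring
    rw [e1, e2, ← hr0, ← hs0] at k1
    rw [k1, ← k2]
    unfold PP
    rw [hrr0, hss0, h0]
    have e3 : (1 - c) * s0 = e := by rw [hs0]; field_simp
    rw [e3]
    ring
  set A := (1 - g) * (log (1 + r0) - log r0) - la ρ g s0 with hA
  set B := ww ρ g (r0 * s0) + ww ρ g s0 with hB
  refine ⟨g, A / 2, (B - A) / 4, (-B - A) / 4, hg0.le, ?_, ?_⟩
  · intro u v hu hv
    have := hK u v hu hv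
    unfold FF at this
    linarith
  · have e4 : A / 2 + (B - A) / 4 * (1 - p * (1 - x)) + (-B - A) / 4 * (1 - p * (1 - y)) =
        p * (FF ρ g x y / 2) := by
      rw [← htouch, hc, he]
      ring
    have e5 : (1 - p * (1 - x) + (1 - p * (1 - y))) / 2 = 1 - p * (1 - (x + y) / 2) := by ring
    rw [e5]
    have e6 : g * ((HH ρ (1 - p * (1 - x)) + HH ρ (1 - p * (1 - y))) / 2) + A / 2 +
        (B - A) / 4 * (1 - p * (1 - x)) + (-B - A) / 4 * (1 - p * (1 - y)) =
        g * ((HH ρ (1 - p * (1 - x)) + HH ρ (1 - p * (1 - y))) / 2) + p * (FF ρ g x y / 2) := by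
      rw [← e4]; ring
    rw [e6]
    have h1r : 1 + r0 = 2 / (1 + c) := by
      rw [hr0]
      field_simp
      ring
    have ht0e : r0 * s0 = e / (1 + c) := by
      rw [hr0, hs0]
      field_simp
    have hmain : 0 ≤ R1 ρ x y p + (1 - g) * R2 ρ x y p := by
      rw [← h1r, ← ht0e] at hR
      have hden : 0 < log (1 + r0) + La (r0 * s0) := by linarith
      have h6 : (1 - g) * (log (1 + r0) + La (r0 * s0)) = La (r0 * s0) - La (ρ * (r0 * s0)) := by
        linarith
      have h7 : R1 ρ x y p * (log (1 + r0) + La (r0 * s0)) +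
          R2 ρ x y p * (La (r0 * s0) - La (ρ * (r0 * s0))) =
          (R1 ρ x y p + (1 - g) * R2 ρ x y p) * (log (1 + r0) + La (r0 * s0)) := by
        rw [← h6]; ring
      rw [h7] at hR
      exact nonneg_of_mul_nonneg_left hR hden
    unfold R1 R2 at hmain
    unfold FF
    set X := HH ρ (1 - p * (1 - x))
    set Y := HH ρ (1 - p * (1 - y))
    set Z := HH ρ (1 - p * (1 - (x + y) / 2))
    linarith

/-- the certificate with the reference point `(x,y)`, at the points of the line to the apex -/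
theorem cert_of_line {ρ : ℝ} (hρ0 : 0 < ρ) (hρ1 : ρ < 1) (hS1 : S1 ρ) {x y p : ℝ}
    (hxy : y < x) (hx1 : x < 1) (hs : 0 ≤ x + y) (hR1 : 0 ≤ R1 ρ x y p) (hR2 : 0 ≤ R2 ρ x y p) :
    Cert ρ (1 - p * (1 - x)) (1 - p * (1 - y)) := by
  apply cert_of_line' hρ0 hρ1 hS1 hxy hx1 hs
  have p1 : 0 < 1 + (x + y) / 2 := by linarith
  set t := (x - y) / 2 / (1 + (x + y) / 2) with ht
  have ht0 : 0 < t := div_pos (by linarith) p1
  have ht1 : t < 1 := by rw [ht, div_lt_one p1]; linarith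
  have h1 : 0 ≤ log (2 / (1 + (x + y) / 2)) := by
    apply Real.log_nonneg
    rw [le_div_iff₀ p1]
    linarith
  have h2 := La_pos ht0 ht1
  have h3 := La_rho_lt hρ0 hρ1 ht0 ht1
  have h4 := mul_nonneg hR1 (by linarith : 0 ≤ log (2 / (1 + (x + y) / 2)) + La t)
  have h5 := mul_nonneg hR2 (by linarith : 0 ≤ La t - La (ρ * t))
  linarith

/-- the symmetric certificate -/
theorem cert_of_sym {ρ : ℝ} (hρ0 : 0 < ρ) (hρ1 : ρ < 1) (hS1 : S1 ρ) {z p a b : ℝ}
    (hz0 : 0 < z) (hz1 : z < 1) (hp : (a - b) / 2 = p * z)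
    (hR1 : 0 ≤ p * (hb (ρ * z) - hb z) + (HH ρ a + HH ρ b) / 2 - HH ρ ((a + b) / 2))
    (hR2 : 0 ≤ p * hb z - (HH ρ a + HH ρ b) / 2) : Cert ρ a b := by
  have hlog : 0 < log 2 := log_pos (by norm_num)
  have hLt : 0 < La z := La_pos hz0 hz1
  have hLρ : La (ρ * z) < La z := La_rho_lt hρ0 hρ1 hz0 hz1
  have hLρ0 : 0 ≤ La (ρ * z) := by
    obtain ⟨h3, h4⟩ := rho_mul_lt hρ0 hρ1.le (t := z) (by linarith) hz1
    exact La_nonneg h3 h4
  set g := (log 2 + La (ρ * z)) / (log 2 + La z) with hg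
  have hg0 : 0 < g := by rw [hg]; apply div_pos <;> linarith
  have hg1 : g < 1 := by rw [hg, div_lt_one (by linarith)]; linarith
  have hgeq : g * (log 2 + La z) = log 2 + La (ρ * z) := by
    rw [hg, div_mul_cancel₀]
    linarith
  have h0 : la ρ g z = (1 - g) * log 2 := by
    unfold la
    linear_combination hgeq
  have hK := hS1 g z hg0 hg1 hz0 hz1 h0
  have htouch : ww ρ g z * (2 * z) = FF ρ g z (-z) := by
    have k := mul_ww_sub_om (g := g) hρ0 hρ1.le (t := z) (by linarith) hz1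
    obtain ⟨h3, h4⟩ := rho_mul_lt hρ0 hρ1.le (t := z) (by linarith) hz1
    unfold FF HS
    have e1 : (1 + ρ) / 2 * z + (1 - ρ) / 2 * -z = ρ * z := by ring
    have e2 : (1 - ρ) / 2 * z + (1 + ρ) / 2 * -z = -(ρ * z) := by ring
    rw [e1, e2, hb_neg, hb_neg, hb_eq_log h3 h4, hb_eq_log (by linarith) hz1]
    unfold om at k
    linear_combination 2 * k + 2 * h0
  refine ⟨g, 0, ww ρ g z / 2, -(ww ρ g z / 2), hg0.le, ?_, ?_⟩
  · intro u v hu hv
    have := hK u v hu hv
    unfold FF at this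
    linarith
  · have e4 : 0 + ww ρ g z / 2 * a + -(ww ρ g z / 2) * b = p * (FF ρ g z (-z) / 2) := by
      rw [← htouch]
      have : a - b = 2 * (p * z) := by linarith
      linear_combination (ww ρ g z / 2) * this
    have e6 : g * ((HH ρ a + HH ρ b) / 2) + 0 + ww ρ g z / 2 * a + -(ww ρ g z / 2) * b =
        g * ((HH ρ a + HH ρ b) / 2) + p * (FF ρ g z (-z) / 2) := by
      rw [← e4]; ring
    rw [e6]
    have e7 : FF ρ g z (-z) = 2 * hb (ρ * z) - 2 * g * hb z := by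
      unfold FF HS
      have e1 : (1 + ρ) / 2 * z + (1 - ρ) / 2 * -z = ρ * z := by ring
      have e2 : (1 - ρ) / 2 * z + (1 + ρ) / 2 * -z = -(ρ * z) := by ring
      rw [e1, e2, hb_neg, hb_neg]
      ring
    rw [e7]
    have h5 := mul_nonneg (by linarith : (0:ℝ) ≤ 1 - g) hR2
    set X := HH ρ a
    set Y := HH ρ b
    set Z := HH ρ ((a + b) / 2)
    nlinarith

end

end Vale.Agent.P322
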