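import Vale.Agent.P322.CKDefs

/-!
# P322 (Courtade–Kumar): auxiliary definitions
-/

namespace Vale.Agent.P322

noncomputable section

/-! ### Auxiliary functions (natural logarithms) -/

/-- entropy in nats of a `±1` variable with mean `w` -/
def hb (w : ℝ) : ℝ := Real.binEntropy ((1 + w) / 2)

/-- the averaged entropy of the two mixtures -/
def HS (ρ u v : ℝ) : ℝ :=
  (hb ((1 + ρ) / 2 * u + (1 - ρ) / 2 * v) + hb ((1 - ρ) / 2 * u + (1 + ρ) / 2 * v)) / 2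

/-- the constant `h(ρ) - (1-ρ²) ln 2` -/
def kap (ρ : ℝ) : ℝ := hb ρ - (1 - ρ ^ 2) * Real.log 2

/-- the lower bound for `H(f|Y)` -/
def HH (ρ m : ℝ) : ℝ := (1 - ρ ^ 2) * hb m + kap ρ * (1 - m ^ 2)

/-- The certificate for one induction step at the pair of means `(a,b)`. -/
def Cert (ρ a b : ℝ) : Prop :=
  ∃ g α β₁ β₂ : ℝ, 0 ≤ g ∧
    (∀ u v : ℝ, |u| ≤ 1 → |v| ≤ 1 → g * ((hb u + hb v) / 2) + α + β₁ * u + β₂ * v ≤ HS ρ u v) ∧
    HH ρ ((a + b) / 2) ≤ g * ((HH ρ a + HH ρ b) / 2) + α + β₁ * a + β₂ * b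

end

end Vale.Agent.P322
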