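import Vale.Agent.P322.Main

/-!
# P322: the coordinate functions attain the bound
-/

namespace Vale.Agent.P322

open Real Finset

noncomputable section

theorem post_coord {n : ℕ} (ε : ℝ) (i : Fin n) (y : Cube n) :
    post ε (fun x => x i) y = (1 - 2 * ε) * sgn (y i) := by
  have h1 : post ε (fun x => x i) y =
      ∑ x : Fin n → Bool, ∏ j, ((if x j = y j then 1 - ε else ε) *
        (if j = i then sgn (x j) else 1)) := by
    unfold post chan
    apply Finset.sum_congr rfl
    intro x _
    rw [Finset.prod_mul_distrib, Finset.prod_ite_eq' Finset.univ i (fun j => sgn (x j))]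
    simp
  have h2 := Finset.prod_univ_sum (fun _ : Fin n => (Finset.univ : Finset Bool))
    (fun j (b : Bool) => (if b = y j then 1 - ε else ε) * (if j = i then sgn b else 1))
  rw [Fintype.piFinset_univ] at h2
  rw [h1, ← h2]
  have h3 : ∀ j : Fin n, (∑ b : Bool, (if b = y j then 1 - ε else ε) *
      (if j = i then sgn b else 1)) = if j = i then (1 - 2 * ε) * sgn (y j) else 1 := by
    intro j
    by_cases hj : j = i
    · subst hj
      cases hy : y j <;> simp [sgn] <;> ring
    · cases hy : y j <;> simp [hj]
  rw [Finset.prod_congr rfl (fun j _ => h3 j), Finset.prod_ite_eq' Finset.univ i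
    (fun j => (1 - 2 * ε) * sgn (y j))]
  simp

theorem mean_coord {n : ℕ} (i : Fin n) : mean (fun x : Cube n => x i) = 0 := by
  rw [← mean_post (1 / 2)]
  simp only [post_coord]
  norm_num

theorem mutualInfo_coord {n : ℕ} (i : Fin n) {ε : ℝ} (h0 : 0 ≤ ε) (h1 : ε ≤ 1) :
    mutualInfo (jointLaw ε (fun x : Cube n => x i)) = 1 - h2 ε := by
  have hlog2 : log 2 ≠ 0 := (log_pos (by norm_num)).ne'
  have h := mutualInfo_eq h0 h1 (fun x : Cube n => x i)
  rw [mean_coord, hb_zero] at h
  have hE : Ent ε (fun x : Cube n => x i) = h2 ε * log 2 := by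
    rw [h2_eq]
    unfold Ent
    have e : ∀ y : Cube n, hb (post ε (fun x : Cube n => x i) y) = Real.binEntropy ε := by
      intro y
      rw [post_coord]
      have hpos : hb (1 - 2 * ε) = Real.binEntropy ε := by
        unfold hb
        have : (1 + (1 - 2 * ε)) / 2 = 1 - ε := by ring
        rw [this, Real.binEntropy_one_sub]
      cases hy : y i
      · have : (1 - 2 * ε) * sgn false = -(1 - 2 * ε) := by simp [sgn]
        rw [this, hb_neg, hpos]
      · have : (1 - 2 * ε) * sgn true = (1 - 2 * ε) := by simp [sgn]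
        rw [this, hpos]
    rw [Finset.sum_congr rfl (fun y _ => e y), Finset.sum_const, nsmul_eq_mul, Finset.card_univ,
      ← mul_assoc, card_cube, one_mul]
  rw [hE] at h
  have : mutualInfo (jointLaw ε (fun x : Cube n => x i)) * log 2 = (1 - h2 ε) * log 2 := by
    rw [h]; ring
  exact mul_right_cancel₀ hlog2 this

end

end Vale.Agent.P322
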