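import Vale.Agent.P322.StarAsm

/-!
# P322: the low noise range `ρ ≥ 39/50` from (STAR)
-/

namespace Vale.Agent.P322

open Real Finset

noncomputable section

theorem certK_diag {ρ : ℝ} (hρ0 : 0 < ρ) (hρ1 : ρ < 1) (K : ℝ → ℝ) (a : ℝ) : CertK ρ K a a := by
  refine ⟨1, 0, 0, 0, zero_le_one, ?_, ?_⟩
  · intro u v hu hv
    rw [abs_le] at hu hv
    have hc : ConcaveOn ℝ (Set.Icc (-1:ℝ) 1) hb := by
      have h2 := Real.strictConcave_binEntropy.concaveOn
      refine ⟨convex_Icc _ _, ?_⟩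
      intro x hx y hy s t hs ht hst
      have h3 := h2.2 (x := (1 + x) / 2) ⟨by linarith [hx.1], by linarith [hx.2]⟩
        (y := (1 + y) / 2) ⟨by linarith [hy.1], by linarith [hy.2]⟩ hs ht hst
      unfold hb
      simp only [smul_eq_mul] at h3 ⊢
      have e : (1 + (s * x + t * y)) / 2 = s * ((1 + x) / 2) + t * ((1 + y) / 2) := by
        have : s * ((1 + x) / 2) + t * ((1 + y) / 2) = ((s + t) + (s * x + t * y)) / 2 := by ring
        rw [this, hst]
      rw [e]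
      exact h3
    have hmu : u ∈ Set.Icc (-1:ℝ) 1 := ⟨hu.1, hu.2⟩
    have hmv : v ∈ Set.Icc (-1:ℝ) 1 := ⟨hv.1, hv.2⟩
    have k1 := hc.2 hmu hmv (show 0 ≤ (1 + ρ) / 2 by linarith)
      (show 0 ≤ (1 - ρ) / 2 by linarith) (by ring)
    have k2 := hc.2 hmu hmv (show 0 ≤ (1 - ρ) / 2 by linarith)
      (show 0 ≤ (1 + ρ) / 2 by linarith) (by ring)
    simp only [smul_eq_mul] at k1 k2
    unfold HS
    linarith
  · have : (a + a) / 2 = a := by ring
    rw [this]
    linarith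

/-- the entropy form of the inequality for one `ρ`, from certificates for that `ρ` -/
theorem ent_of_certK {ρ : ℝ} (hρ0 : 0 < ρ) (hρ1 : ρ < 1) {K : ℝ → ℝ} (hK : Pot ρ K)
    (hc : ∀ a b : ℝ, b < a → a < 1 → 0 ≤ a + b → a - b ≤ 1 → CertK ρ K a b)
    {n : ℕ} (f : Cube n → Bool) : hb (mean f) - (log 2 - hb ρ) ≤ Ent ((1 - ρ) / 2) f := by
  have hcert : ∀ a b : ℝ, |a| < 1 → |b| < 1 → |a - b| ≤ 1 → CertK ρ K a b := by
    intro a b ha hb' hab1
    rw [abs_lt] at ha hb'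
    rw [abs_le] at hab1
    rcases lt_trichotomy a b with hab | hab | hab
    · rcases le_total 0 (a + b) with hs | hs
      · exact (hc b a hab hb'.2 (by linarith) (by linarith)).swap
      · have := (hc (-a) (-b) (by linarith) (by linarith) (by linarith) (by linarith)).neg hK.even
        simpa using this
    · rw [hab]; exact certK_diag hρ0 hρ1 K b
    · rcases le_total 0 (a + b) with hs | hs
      · exact hc a b hab ha.2 hs (by linarith)
      · have := ((hc (-b) (-a) (by linarith) (by linarith) (by linarith)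
          (by linarith)).neg hK.even).swap
        simpa using this
  exact le_trans (hK.ge _ (abs_mean_le f)) (ent_geK hρ0.le hρ1.le hK hcert n f)

/-- Courtade–Kumar for `39/50 ≤ ρ ≤ 1` -/
theorem ck_low
    (hB : ∀ ρ : ℝ, 0 < ρ → 39 / 50 ≤ ρ → ρ < 1 → ∀ t : ℝ, 0 < t → t < 1 →
      3 / 2 * hb ρ * t ≤ hb t → (hb ρ) ^ 2 * t ^ 2 ≤ hb (ρ * t) * (hb (ρ * t) - hb t))
    {ρ : ℝ} (h0 : 39 / 50 ≤ ρ) (h1 : ρ ≤ 1) {n : ℕ} (f : Cube n → Bool) :
    mutualInfo (jointLaw ((1 - ρ) / 2) f) ≤ 1 - h2 ((1 - ρ) / 2) := by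
  apply mi_le_iff (by linarith) h1
  have hint : ∀ ρ : ℝ, 39 / 50 ≤ ρ → ρ < 1 →
      hb (mean f) - (log 2 - hb ρ) ≤ Ent ((1 - ρ) / 2) f := by
    intro ρ hρ0 hρ1
    apply ent_of_certK (by linarith) hρ1 (pot_KQ (hb_le_half hρ0 hρ1))
    intro a b hab ha1 hs hd
    exact certK_star (by linarith) hρ1 (hB ρ (by linarith) hρ0 hρ1) hab hd
  have hclosed : IsClosed {ρ : ℝ | hb (mean f) - (log 2 - hb ρ) ≤ Ent ((1 - ρ) / 2) f} := by
    apply isClosed_le
    · have := continuous_hb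
      fun_prop
    · exact (continuous_Ent f).comp (by fun_prop)
  rcases lt_or_eq_of_le h1 with h | h
  · exact hint ρ h0 h
  · have hsub : Set.Ioo (39 / 50 : ℝ) 1 ⊆
        {ρ : ℝ | hb (mean f) - (log 2 - hb ρ) ≤ Ent ((1 - ρ) / 2) f} :=
      fun ρ hρ => hint ρ hρ.1.le hρ.2
    have hmem : ρ ∈ closure (Set.Ioo (39 / 50 : ℝ) 1) := by
      rw [closure_Ioo (by norm_num)]
      exact ⟨h0, h1⟩
    exact hclosed.closure_subset_iff.mpr hsub hmem

end

end Vale.Agent.P322
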