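import Vale.Agent.P322.S3Vals

/-!
# P322 (S2): the inequality (STAR) on the line `ρ = 39/50`
-/

namespace Vale.Agent.P322

namespace S2ns

open Real Finset

theorem hasSum_Phi' {t : ℝ} (ht : |t| < 1) :
    HasSum (fun n : ℕ => (t ^ 2) ^ (n + 1) / ((2 * (n : ℝ) + 1) * (2 * (n : ℝ) + 2))) (Phi t) := by
  have h1 := (Real.hasSum_log_sub_log_of_abs_lt_one ht).mul_left (t / 2)
  have hq : |t ^ 2| < 1 := by
    rw [abs_pow]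
    exact pow_lt_one₀ (abs_nonneg t) ht two_ne_zero
  have h2 := (Real.hasSum_pow_div_log_of_abs_lt_one hq).div_const 2
  have ht' := abs_lt.mp ht
  have h3 := h1.sub h2
  have e0 : t / 2 * (log (1 + t) - log (1 - t)) - -log (1 - t ^ 2) / 2 = Phi t := by
    rw [Phi_eq ht'.1 ht'.2]
    unfold ath La
    ring
  rw [e0] at h3
  have e : (fun n : ℕ => (t ^ 2) ^ (n + 1) / ((2 * (n : ℝ) + 1) * (2 * (n : ℝ) + 2))) =
      fun k : ℕ => t / 2 * ((2 : ℝ) * (1 / (2 * k + 1)) * t ^ (2 * k + 1)) -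
        (t ^ 2) ^ (k + 1) / ((k : ℝ) + 1) / 2 := by
    funext n
    have e1 : (t ^ 2) ^ (n + 1) = t * t ^ (2 * n + 1) := by
      rw [← pow_mul, ← pow_succ']
      rfl
    rw [e1]
    field_simp
    ring
  rw [e]
  exact h3

/-- upper bound of `Phi` by three terms and a geometric tail -/
theorem Phi_le_tail {t : ℝ} (ht : |t| < 1) (hz : t ^ 2 ≤ 3 / 8) :
    Phi t ≤ t ^ 2 / 2 + (t ^ 2) ^ 2 / 12 + (t ^ 2) ^ 3 / 30 + (t ^ 2) ^ 4 / 35 := by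
  obtain ⟨z, hzd⟩ : ∃ z, z = t ^ 2 := ⟨_, rfl⟩
  have hz0 : 0 ≤ z := by rw [hzd]; positivity
  have hz1 : z < 1 := by rw [hzd]; linarith
  have h1 := hasSum_Phi' ht
  have h2 := ((hasSum_geometric_of_lt_one hz0 hz1).mul_left z).mul_left (1 / 56)
  have h3 := h2.sub h1
  rw [← hzd] at h3 hz ⊢
  have h4 := sum_le_hasSum (range 3) (fun i hi => by
    rw [Finset.mem_range, not_lt] at hi
    have hi' : (3 : ℝ) ≤ i := by exact_mod_cast hi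
    have e : (1 : ℝ) / 56 * (z * z ^ i) - z ^ (i + 1) / ((2 * (i : ℝ) + 1) * (2 * (i : ℝ) + 2)) =
        z ^ (i + 1) * (1 / 56 - 1 / ((2 * (i : ℝ) + 1) * (2 * (i : ℝ) + 2))) := by
      rw [pow_succ]; ring
    rw [e]
    apply mul_nonneg (by positivity)
    rw [sub_nonneg]
    apply one_div_le_one_div_of_le (by norm_num)
    nlinarith) h3
  simp only [Finset.sum_range_succ, Finset.sum_range_zero] at h4
  norm_num at h4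
  have h5 : 1 / 56 * (z * (1 - z)⁻¹) = 1 / 56 * (z + z ^ 2 + z ^ 3) + 1 / 56 * (z ^ 4 * (1 - z)⁻¹) := by
    have : 1 - z ≠ 0 := by linarith
    field_simp
    ring
  have h6 : (1 - z)⁻¹ ≤ 8 / 5 := by
    rw [inv_le_comm₀ (by linarith) (by norm_num)]
    norm_num
    linarith
  have h7 : z ^ 4 * (1 - z)⁻¹ ≤ z ^ 4 * (8 / 5) := mul_le_mul_of_nonneg_left h6 (by positivity)
  have h5' : (1 : ℝ) / 56 * (z * (1 - z)⁻¹) ≤ 1 / 56 * (z + z ^ 2 + z ^ 3) + z ^ 4 / 35 := by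
    rw [h5]; linarith
  linarith

/-- lower bound of `Phi t - Phi (ρ t)` by four terms -/
theorem Phi_sub_ge {ρ t : ℝ} (hρ0 : 0 ≤ ρ) (hρ1 : ρ ≤ 1) (ht : |t| < 1) :
    (1 - ρ ^ 2) * t ^ 2 / 2 + (1 - (ρ ^ 2) ^ 2) * (t ^ 2) ^ 2 / 12 +
      (1 - (ρ ^ 2) ^ 3) * (t ^ 2) ^ 3 / 30 + (1 - (ρ ^ 2) ^ 4) * (t ^ 2) ^ 4 / 56 ≤
      Phi t - Phi (ρ * t) := by
  have hρt : |ρ * t| < 1 := by
    rw [abs_mul, abs_of_nonneg hρ0]
    exact lt_of_le_of_lt (mul_le_of_le_one_left (abs_nonneg t) hρ1) ht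
  have hq0 : 0 ≤ ρ ^ 2 := sq_nonneg ρ
  have hq1 : ρ ^ 2 ≤ 1 := by nlinarith
  have h3 := (hasSum_Phi' ht).sub (hasSum_Phi' hρt)
  have h4 := sum_le_hasSum (range 4) (fun i hi => by
    have e : (t ^ 2) ^ (i + 1) / ((2 * (i : ℝ) + 1) * (2 * (i : ℝ) + 2)) -
        ((ρ * t) ^ 2) ^ (i + 1) / ((2 * (i : ℝ) + 1) * (2 * (i : ℝ) + 2)) =
        (1 - (ρ ^ 2) ^ (i + 1)) * (t ^ 2) ^ (i + 1) / ((2 * (i : ℝ) + 1) * (2 * (i : ℝ) + 2)) := by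
      rw [mul_pow ρ t, mul_pow]; ring
    rw [e]
    have : 0 ≤ 1 - (ρ ^ 2) ^ (i + 1) := by
      rw [sub_nonneg]
      exact pow_le_one₀ hq0 hq1
    positivity) h3
  simp only [Finset.sum_range_succ, Finset.sum_range_zero] at h4
  norm_num at h4
  rw [mul_pow ρ t] at h4
  linarith

theorem hb_lt' {x y : ℝ} (h0 : 0 ≤ x) (hxy : x < y) (h1 : y ≤ 1) : hb y < hb x := by
  unfold hb
  apply Real.binEntropy_strictAntiOn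
  · constructor <;> norm_num <;> linarith
  · constructor <;> norm_num <;> linarith
  · linarith

theorem t_le {t : ℝ} (ht1 : t < 1) (h : 3 / 2 * hb (39 / 50) * t ≤ hb t) :
    t ≤ 7423 / 10000 := by
  by_contra hc
  push Not at hc
  have h1 := hb_lt' (by norm_num) hc ht1.le
  have h2 := S3ns.hv_0.2
  have h3 := S3ns.hv_2.1
  have h4 : (3465133 / 10000000 : ℝ) * (7423 / 10000) ≤ hb (39 / 50) * t := by
    apply mul_le_mul h3 hc.le (by norm_num) (by linarith)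
  linarith

theorem final_poly {y p L : ℝ} (hy0 : 0 ≤ y) (hy1 : y ≤ (7423 / 10000) ^ 2)
    (hp0 : 0 ≤ p) (hp : p ≤ 1732587 / 5000000) (hL : 6931471803 / 10000000000 ≤ L) :
    p ^ 2 ≤ (L - ((39 / 50) ^ 2 * y / 2 + ((39 / 50) ^ 2 * y) ^ 2 / 12 +
        ((39 / 50) ^ 2 * y) ^ 3 / 30 + ((39 / 50) ^ 2 * y) ^ 4 / 35)) *
      ((1 - (39 / 50) ^ 2) / 2 + (1 - ((39 / 50) ^ 2) ^ 2) * y / 12 +
      (1 - ((39 / 50) ^ 2) ^ 3) * y ^ 2 / 30 + (1 - ((39 / 50) ^ 2) ^ 4) * y ^ 3 / 56) := by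
  have hp2 : p ^ 2 ≤ (1732587 / 5000000) ^ 2 := pow_le_pow_left₀ hp0 hp 2
  have y2 : y ^ 2 ≤ ((7423 / 10000) ^ 2) ^ 2 := pow_le_pow_left₀ hy0 hy1 2
  have y3 : y ^ 3 ≤ ((7423 / 10000) ^ 2) ^ 3 := pow_le_pow_left₀ hy0 hy1 3
  have y4 : y ^ 4 ≤ ((7423 / 10000) ^ 2) ^ 4 := pow_le_pow_left₀ hy0 hy1 4
  have y5 : y ^ 5 ≤ ((7423 / 10000) ^ 2) ^ 5 := pow_le_pow_left₀ hy0 hy1 5
  have y6 : y ^ 6 ≤ ((7423 / 10000) ^ 2) ^ 6 := pow_le_pow_left₀ hy0 hy1 6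
  have y7 : y ^ 7 ≤ ((7423 / 10000) ^ 2) ^ 7 := pow_le_pow_left₀ hy0 hy1 7
  have hB : 0 ≤ ((1 - (39 / 50) ^ 2) / 2 + (1 - ((39 / 50) ^ 2) ^ 2) * y / 12 +
      (1 - ((39 / 50) ^ 2) ^ 3) * y ^ 2 / 30 + (1 - ((39 / 50) ^ 2) ^ 4) * y ^ 3 / 56) := by
    norm_num
    positivity
  have hLB := mul_le_mul_of_nonneg_right hL hB
  norm_num at hy1 y2 y3 y4 y5 y6 y7 hp2 hLB ⊢
  linarith

/-- (S2) -/
theorem _root_.Vale.Agent.P322.S2 {t : ℝ} (ht0 : 0 < t) (ht1 : t < 1)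
    (h : 3 / 2 * hb (39 / 50) * t ≤ hb t) :
    (hb (39 / 50)) ^ 2 * t ^ 2 ≤ hb (39 / 50 * t) * (hb (39 / 50 * t) - hb t) := by
  have htle := t_le ht1 h
  have habs : |t| < 1 := by rw [abs_of_pos ht0]; exact ht1
  have hy1 : t ^ 2 ≤ (7423 / 10000) ^ 2 := pow_le_pow_left₀ ht0.le htle 2
  have hz : (39 / 50 * t) ^ 2 ≤ 3 / 8 := by
    rw [mul_pow]; norm_num at hy1 ⊢; linarith
  have habs' : |39 / 50 * t| < 1 := by
    rw [abs_of_pos (by positivity)]; linarith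
  have hA := Phi_le_tail habs' hz
  have hB := Phi_sub_ge (ρ := 39 / 50) (by norm_num) (by norm_num) habs
  have e1 : hb (39 / 50 * t) = log 2 - Phi (39 / 50 * t) := hb_eq_log (by linarith) (by linarith)
  have e2 : hb t = log 2 - Phi t := hb_eq_log (by linarith) ht1
  rw [mul_pow] at hA
  have hp0 : 0 ≤ hb (39 / 50) := by
    have := S3ns.hv_2.1
    linarith
  have hL : (6931471803 / 10000000000 : ℝ) ≤ log 2 := by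
    have := Real.log_two_gt_d9
    norm_num at this ⊢
    linarith
  have key := final_poly (y := t ^ 2) (by positivity) hy1 hp0 S3ns.hv_2.2 hL
  have hB' : t ^ 2 * ((1 - (39 / 50) ^ 2) / 2 + (1 - ((39 / 50) ^ 2) ^ 2) * t ^ 2 / 12 +
      (1 - ((39 / 50) ^ 2) ^ 3) * (t ^ 2) ^ 2 / 30 + (1 - ((39 / 50) ^ 2) ^ 4) * (t ^ 2) ^ 3 / 56) ≤
      hb (39 / 50 * t) - hb t := by
    rw [e1, e2]
    refine le_trans (le_of_eq ?_) (le_trans hB (le_of_eq (by ring)))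
    ring
  have hA' : log 2 - ((39 / 50) ^ 2 * t ^ 2 / 2 + ((39 / 50) ^ 2 * t ^ 2) ^ 2 / 12 +
        ((39 / 50) ^ 2 * t ^ 2) ^ 3 / 30 + ((39 / 50) ^ 2 * t ^ 2) ^ 4 / 35) ≤
      hb (39 / 50 * t) := by
    rw [e1]; linarith
  have hBnn : 0 ≤ t ^ 2 * ((1 - (39 / 50 : ℝ) ^ 2) / 2 + (1 - ((39 / 50) ^ 2) ^ 2) * t ^ 2 / 12 +
      (1 - ((39 / 50) ^ 2) ^ 3) * (t ^ 2) ^ 2 / 30 + (1 - ((39 / 50) ^ 2) ^ 4) * (t ^ 2) ^ 3 / 56) := by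
    norm_num
    positivity
  have hHnn : 0 ≤ hb (39 / 50 * t) := by
    unfold hb
    apply Real.binEntropy_nonneg <;> linarith
  calc (hb (39 / 50)) ^ 2 * t ^ 2 ≤ ((log 2 - ((39 / 50) ^ 2 * t ^ 2 / 2 + ((39 / 50) ^ 2 * t ^ 2) ^ 2 / 12 +
        ((39 / 50) ^ 2 * t ^ 2) ^ 3 / 30 + ((39 / 50) ^ 2 * t ^ 2) ^ 4 / 35)) *
      ((1 - (39 / 50) ^ 2) / 2 + (1 - ((39 / 50) ^ 2) ^ 2) * t ^ 2 / 12 +
      (1 - ((39 / 50) ^ 2) ^ 3) * (t ^ 2) ^ 2 / 30 + (1 - ((39 / 50) ^ 2) ^ 4) * (t ^ 2) ^ 3 / 56)) * t ^ 2 :=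
        mul_le_mul_of_nonneg_right key (by positivity)
    _ = (log 2 - ((39 / 50) ^ 2 * t ^ 2 / 2 + ((39 / 50) ^ 2 * t ^ 2) ^ 2 / 12 +
        ((39 / 50) ^ 2 * t ^ 2) ^ 3 / 30 + ((39 / 50) ^ 2 * t ^ 2) ^ 4 / 35)) * (t ^ 2 * ((1 - (39 / 50) ^ 2) / 2 + (1 - ((39 / 50) ^ 2) ^ 2) * t ^ 2 / 12 +
      (1 - ((39 / 50) ^ 2) ^ 3) * (t ^ 2) ^ 2 / 30 + (1 - ((39 / 50) ^ 2) ^ 4) * (t ^ 2) ^ 3 / 56)) := by ring
    _ ≤ hb (39 / 50 * t) * (t ^ 2 * ((1 - (39 / 50) ^ 2) / 2 + (1 - ((39 / 50) ^ 2) ^ 2) * t ^ 2 / 12 +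
      (1 - ((39 / 50) ^ 2) ^ 3) * (t ^ 2) ^ 2 / 30 + (1 - ((39 / 50) ^ 2) ^ 4) * (t ^ 2) ^ 3 / 56)) :=
        mul_le_mul_of_nonneg_right hA' hBnn
    _ ≤ hb (39 / 50 * t) * (hb (39 / 50 * t) - hb t) := mul_le_mul_of_nonneg_left hB' hHnn

end S2ns

end Vale.Agent.P322
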