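import Vale.Agent.P322.CertLine

/-!
# P322: the symmetric certificate `S1`
-/

namespace Vale.Agent.P322

open Real Finset

noncomputable section

/-! ### hyperbolic coordinates -/

theorem ath_eq_artanh {w : ℝ} (h1 : -1 < w) (h2 : w < 1) : ath w = artanh w := by
  rw [artanh_eq_half_log ⟨h1.le, h2.le⟩, Real.log_div (by linarith) (by linarith)]
  unfold ath
  ring

theorem tanh_ath {w : ℝ} (h1 : -1 < w) (h2 : w < 1) : tanh (ath w) = w := by
  rw [ath_eq_artanh h1 h2, tanh_artanh ⟨h1, h2⟩]

theorem tanh_bounds (x : ℝ) : -1 < tanh x ∧ tanh x < 1 := by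
  have hc := cosh_pos x
  rw [tanh_eq_sinh_div_cosh]
  constructor
  · rw [lt_div_iff₀ hc]
    have := exp_pos x
    have h := cosh_add_sinh x
    linarith
  · rw [div_lt_iff₀ hc]
    have := exp_pos (-x)
    have h := cosh_sub_sinh x
    linarith

theorem ath_tanh (x : ℝ) : ath (tanh x) = x := by
  rw [ath_eq_artanh (tanh_bounds x).1 (tanh_bounds x).2, artanh_tanh]

theorem La_tanh (x : ℝ) : La (tanh x) = log (cosh x) := by
  unfold La
  have hc := cosh_pos x
  have e : 1 - tanh x ^ 2 = (cosh x ^ 2)⁻¹ := by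
    rw [tanh_eq_sinh_div_cosh, div_pow]
    have := cosh_sq x
    field_simp
    linarith
  rw [e, Real.log_inv, Real.log_pow]
  push_cast
  ring

theorem hb_tanh (x : ℝ) : hb (tanh x) = log 2 + log (cosh x) - x * tanh x := by
  rw [hb_eq_log (tanh_bounds x).1 (tanh_bounds x).2,
    Phi_eq (tanh_bounds x).1 (tanh_bounds x).2, ath_tanh, La_tanh]
  ring

/-! ### the inequality (P) -/

/-- `x cosh x ≤ sinh x · log(2 + 2 cosh x)` for `x ≥ 0` -/
theorem x_cosh_le {x : ℝ} (hx : 0 ≤ x) : x * cosh x ≤ sinh x * log (2 + 2 * cosh x) := by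
  set w := exp (-x) with hw
  have hw0 : 0 < w := exp_pos _
  have hw1 : w ≤ 1 := by rw [hw]; exact exp_le_one_iff.mpr (by linarith)
  have he : exp x * w = 1 := by rw [hw, ← exp_add]; simp
  have e1 : 2 + 2 * cosh x = exp x * (1 + w) ^ 2 := by
    rw [cosh_eq, ← hw]
    have : exp x * (1 + w) ^ 2 = exp x + 2 * (exp x * w) + (exp x * w) * w := by ring
    rw [this, he]
    ring
  have e2 : log (2 + 2 * cosh x) = x + 2 * log (1 + w) := by
    rw [e1, Real.log_mul (exp_pos x).ne' (by positivity), Real.log_exp, Real.log_pow]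
    push_cast
    ring
  have h3 : w / (1 + w) ≤ log (1 + w) := by
    have := Real.one_sub_inv_le_log_of_pos (x := 1 + w) (by linarith)
    have e : 1 - (1 + w)⁻¹ = w / (1 + w) := by
      field_simp
      ring
    linarith
  have h4 : w / 2 ≤ log (1 + w) := by
    refine le_trans ?_ h3
    rw [div_le_div_iff₀ (by norm_num) (by linarith)]
    nlinarith
  have hs : x ≤ sinh x := self_le_sinh_iff.mpr hx
  have hs0 : 0 ≤ sinh x := le_trans hx hs
  have h5 : cosh x - sinh x = w := cosh_sub_sinh x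
  rw [e2]
  have h6 : x * w ≤ sinh x * w := mul_le_mul_of_nonneg_right hs hw0.le
  have h7 : sinh x * (2 * (w / 2)) ≤ sinh x * (2 * log (1 + w)) :=
    mul_le_mul_of_nonneg_left (by linarith) hs0
  have h8 : cosh x = sinh x + w := by linarith
  rw [h8]
  nlinarith

/-- the function whose minimum is at `ζ = 0` -/
theorem P_aux (B : ℝ) (hB : 1 ≤ B) {z : ℝ} (hz : 0 ≤ z) :
    (1 + B) / 2 * log (2 * (1 + B)) ≤
      (cosh z + B) / 2 * log (2 * (cosh z + B)) - z / 2 * sinh z := by
  set F : ℝ → ℝ := fun z => (cosh z + B) / 2 * log (2 * (cosh z + B)) - z / 2 * sinh z with hF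
  have hder : ∀ x : ℝ, HasDerivAt F ((sinh x * log (2 * (cosh x + B)) - x * cosh x) / 2) x := by
    intro x
    have hc := cosh_pos x
    have hpos : 0 < cosh x + B := by linarith
    have a1 : HasDerivAt (fun z : ℝ => cosh z + B) (sinh x) x := (hasDerivAt_cosh x).add_const B
    have a2 : HasDerivAt (fun z : ℝ => (cosh z + B) / 2) (sinh x / 2) x := a1.div_const 2
    have a3 : HasDerivAt (fun z : ℝ => 2 * (cosh z + B)) (2 * sinh x) x := a1.const_mul 2
    have a4 := a3.log (by positivity)
    have a5 : HasDerivAt (fun z : ℝ => z / 2) (1 / 2) x := (hasDerivAt_id x).div_const 2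
    have a6 := (a2.mul a4).sub (a5.mul (hasDerivAt_sinh x))
    refine a6.congr_deriv ?_
    field_simp
    ring
  have hmono : MonotoneOn F (Set.Ici 0) := by
    apply monotoneOn_of_deriv_nonneg (convex_Ici 0)
    · intro x _
      exact (hder x).continuousAt.continuousWithinAt
    · intro x _
      exact (hder x).differentiableAt.differentiableWithinAt
    · intro x hx
      rw [interior_Ici] at hx
      rw [(hder x).deriv]
      have hx0 : 0 ≤ x := le_of_lt hx
      have h1 := x_cosh_le hx0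
      have hs0 : 0 ≤ sinh x := sinh_nonneg_iff.mpr hx0
      have hc := cosh_pos x
      have h2 : log (2 + 2 * cosh x) ≤ log (2 * (cosh x + B)) :=
        Real.log_le_log (by positivity) (by linarith)
      have h3 := mul_le_mul_of_nonneg_left h2 hs0
      linarith
  have := hmono (Set.mem_Ici.mpr (le_refl 0)) (Set.mem_Ici.mpr hz) hz
  simp only [hF, cosh_zero, sinh_zero] at this
  linarith

theorem P_aux' (B : ℝ) (hB : 1 ≤ B) (z : ℝ) :
    (1 + B) / 2 * log (2 * (1 + B)) ≤
      (cosh z + B) / 2 * log (2 * (cosh z + B)) - z / 2 * sinh z := by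
  rcases le_total 0 z with h | h
  · exact P_aux B hB h
  · have := P_aux B hB (z := -z) (by linarith)
    rw [cosh_neg, sinh_neg] at this
    linarith

/-- (P) in hyperbolic coordinates -/
theorem P_hyp (ζ y : ℝ) (hy : 0 < y) :
    (tanh (ζ + y) - tanh (ζ - y)) / 2 * (hb (tanh y) / tanh y) ≤
      (hb (tanh (ζ + y)) + hb (tanh (ζ - y))) / 2 := by
  have c1 := cosh_pos (ζ + y)
  have c2 := cosh_pos (ζ - y)
  have cy := cosh_pos y
  have sy : 0 < sinh y := sinh_pos_iff.mpr hy
  set s := cosh (2 * ζ) + cosh (2 * y) with hs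
  have hs2 : s = 2 * (cosh (ζ + y) * cosh (ζ - y)) := by
    rw [hs, cosh_two_mul, cosh_two_mul, cosh_add, cosh_sub]
    have e1 := cosh_sq ζ
    have e2 := cosh_sq y
    nlinarith
  have hs0 : 0 < s := by rw [hs2]; positivity
  have hd : (tanh (ζ + y) - tanh (ζ - y)) / 2 = sinh (2 * y) / s := by
    have e : sinh (2 * y) = sinh (ζ + y) * cosh (ζ - y) - cosh (ζ + y) * sinh (ζ - y) := by
      rw [← sinh_sub]; congr 1; ring
    rw [hs2, tanh_eq_sinh_div_cosh, tanh_eq_sinh_div_cosh, e]
    field_simp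
  have hc : (tanh (ζ + y) + tanh (ζ - y)) / 2 = sinh (2 * ζ) / s := by
    have e : sinh (2 * ζ) = sinh (ζ + y) * cosh (ζ - y) + cosh (ζ + y) * sinh (ζ - y) := by
      rw [← sinh_add]; congr 1; ring
    rw [hs2, tanh_eq_sinh_div_cosh, tanh_eq_sinh_div_cosh, e]
    field_simp
  have hK : (hb (tanh (ζ + y)) + hb (tanh (ζ - y))) / 2 =
      log (2 * s) / 2 - ζ * (sinh (2 * ζ) / s) - y * (sinh (2 * y) / s) := by
    rw [hb_tanh, hb_tanh, ← hc, ← hd]
    have : log (2 * s) = log 2 + log 2 + log (cosh (ζ + y)) + log (cosh (ζ - y)) := by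
      rw [hs2, Real.log_mul (by norm_num) (by positivity), Real.log_mul (by norm_num) (by positivity),
        Real.log_mul c1.ne' c2.ne']
      ring
    rw [this]
    ring
  have ty : tanh y = sinh y / cosh y := tanh_eq_sinh_div_cosh y
  have ty0 : 0 < tanh y := by rw [ty]; positivity
  have hB : 1 + cosh (2 * y) = 2 * cosh y ^ 2 := by
    rw [cosh_two_mul]
    have := cosh_sq y
    linarith
  have hP := P_aux' (cosh (2 * y)) (one_le_cosh _) (2 * ζ)
  have hlog : log (2 * (1 + cosh (2 * y))) = 2 * (log 2 + log (cosh y)) := by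
    rw [hB]
    have : 2 * (2 * cosh y ^ 2) = (2 * cosh y) ^ 2 := by ring
    rw [this, Real.log_pow, Real.log_mul (by norm_num) cy.ne']
    push_cast
    ring
  rw [hlog, ← hs] at hP
  rw [hd, hK, hb_tanh]
  have e1 : sinh (2 * y) / s * ((log 2 + log (cosh y) - y * tanh y) / tanh y) =
      ((1 + cosh (2 * y)) * (log 2 + log (cosh y))) / s - y * (sinh (2 * y) / s) := by
    rw [ty, hB, sinh_two_mul]
    field_simp
  rw [e1]
  have e2 : log (2 * s) / 2 - ζ * (sinh (2 * ζ) / s) - y * (sinh (2 * y) / s) =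
      (s / 2 * log (2 * s) - 2 * ζ / 2 * sinh (2 * ζ)) / s - y * (sinh (2 * y) / s) := by
    field_simp
  rw [e2]
  have e3 : (1 + cosh (2 * y)) * (log 2 + log (cosh y)) =
      (1 + cosh (2 * y)) / 2 * (2 * (log 2 + log (cosh y))) := by ring
  rw [e3]
  have := div_le_div_of_nonneg_right hP hs0.le
  linarith

/-! ### convexity of `y ↦ hb (tanh y)/tanh y` -/

theorem log2_gt_half : 1 / 2 < log 2 := by
  have := Real.log_two_gt_d9
  linarith

/-- `L(t) = ln 2 + La t` -/
def LL (t : ℝ) : ℝ := log 2 + La t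

theorem La_nn_S1 {t : ℝ} (h : t ^ 2 < 1) : 0 ≤ La t := by
  unfold La
  have : log (1 - t ^ 2) ≤ 0 := Real.log_nonpos (by linarith) (by nlinarith [sq_nonneg t])
  linarith

theorem LL_pos {t : ℝ} (h : t ^ 2 < 1) : 1 / 2 < LL t := by
  unfold LL
  have := La_nn_S1 h
  have := log2_gt_half
  linarith

/-- `β(t) = (1-t²) L(t)/t²` -/
def bet (t : ℝ) : ℝ := (1 - t ^ 2) * LL t / t ^ 2

theorem hasDerivAt_LL {t : ℝ} (h1 : -1 < t) (h2 : t < 1) : HasDerivAt LL (t / (1 - t ^ 2)) t :=
  (hasDerivAt_La h1 h2).const_add (log 2)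

theorem bet_anti {t t' : ℝ} (h0 : 0 < t) (htt : t ≤ t') (h1 : t' < 1) : bet t' ≤ bet t := by
  have hder : ∀ x ∈ Set.Icc t t', HasDerivAt bet ((x ^ 2 - 2 * LL x) / x ^ 3) x := by
    intro x hx
    have hx0 : 0 < x := by linarith [hx.1]
    have hx1 : x < 1 := by linarith [hx.2]
    have hp := one_sub_sq_pos (t := x) (by linarith) hx1
    have a1 : HasDerivAt (fun t : ℝ => 1 - t ^ 2) (-(2 * x)) x := by
      have := ((hasDerivAt_id x).pow 2).const_sub 1
      simpa using this
    have a2 := hasDerivAt_LL (t := x) (by linarith) hx1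
    have a3 : HasDerivAt (fun t : ℝ => t ^ 2) (2 * x) x := by
      have := hasDerivAt_pow 2 x
      simpa using this
    have a12 : HasDerivAt (fun t : ℝ => (1 - t ^ 2) * LL t)
        (-(2 * x) * LL x + (1 - x ^ 2) * (x / (1 - x ^ 2))) x := a1.mul a2
    have a4 : HasDerivAt (fun t : ℝ => (1 - t ^ 2) * LL t / t ^ 2)
        (((-(2 * x) * LL x + (1 - x ^ 2) * (x / (1 - x ^ 2))) * x ^ 2 -
          ((1 - x ^ 2) * LL x) * (2 * x)) / (x ^ 2) ^ 2) x := a12.div a3 (by positivity)
    refine a4.congr_deriv ?_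
    field_simp
    ring
  have hanti : AntitoneOn bet (Set.Icc t t') := by
    apply antitoneOn_of_deriv_nonpos (convex_Icc t t')
    · intro x hx
      exact (hder x hx).continuousAt.continuousWithinAt
    · intro x hx
      rw [interior_Icc] at hx
      exact (hder x ⟨hx.1.le, hx.2.le⟩).differentiableAt.differentiableWithinAt
    · intro x hx
      rw [interior_Icc] at hx
      rw [(hder x ⟨hx.1.le, hx.2.le⟩).deriv]
      have hx0 : 0 < x := by linarith [hx.1]
      have hx1 : x < 1 := by linarith [hx.2]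
      have hx2 : x ^ 2 < 1 := by nlinarith
      apply div_nonpos_of_nonpos_of_nonneg
      · have := LL_pos hx2
        linarith
      · positivity
  exact hanti ⟨le_refl _, htt⟩ ⟨htt, le_refl _⟩ htt

theorem hb_eq_LL {t : ℝ} (h1 : -1 < t) (h2 : t < 1) : hb t = LL t - t * ath t := by
  rw [hb_eq_log h1 h2, Phi_eq h1 h2]
  unfold LL
  ring

/-- tangent line inequality for the convex function `y ↦ hb (tanh y)/tanh y` -/
theorem cvx {t r : ℝ} (ht0 : 0 < t) (ht1 : t < 1) (hr0 : 0 < r) (hr1 : r < 1) :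
    hb r / r - bet r * (ath t - ath r) ≤ hb t / t := by
  set F : ℝ → ℝ := fun x => (LL x - x * ath x) / x + bet r * ath x with hF
  have hder : ∀ x : ℝ, 0 < x → x < 1 → HasDerivAt F ((bet r - bet x) / (1 - x ^ 2)) x := by
    intro x hx0 hx1
    have hp := one_sub_sq_pos (t := x) (by linarith) hx1
    have a2 := hasDerivAt_LL (t := x) (by linarith) hx1
    have a3 := hasDerivAt_ath (t := x) (by linarith) hx1
    have a4 : HasDerivAt (fun x : ℝ => x) 1 x := hasDerivAt_id x
    have a43 : HasDerivAt (fun x : ℝ => x * ath x) (1 * ath x + x * (1 / (1 - x ^ 2))) x := a4.mul a3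
    have a24 : HasDerivAt (fun x : ℝ => LL x - x * ath x)
        (x / (1 - x ^ 2) - (1 * ath x + x * (1 / (1 - x ^ 2)))) x := a2.sub a43
    have a5 : HasDerivAt F (((x / (1 - x ^ 2) - (1 * ath x + x * (1 / (1 - x ^ 2)))) * x -
        (LL x - x * ath x) * 1) / x ^ 2 + bet r * (1 / (1 - x ^ 2))) x :=
      (a24.div a4 hx0.ne').add (a3.const_mul (bet r))
    refine a5.congr_deriv ?_
    have hb' : bet x = (1 - x ^ 2) * LL x / x ^ 2 := rfl
    rw [hb']
    field_simp
    ring
  have key : F r ≤ F t := by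
    rcases le_total r t with h | h
    · have hmono : MonotoneOn F (Set.Icc r t) := by
        apply monotoneOn_of_deriv_nonneg (convex_Icc r t)
        · intro x hx
          exact (hder x (by linarith [hx.1]) (by linarith [hx.2])).continuousAt.continuousWithinAt
        · intro x hx
          rw [interior_Icc] at hx
          exact (hder x (by linarith [hx.1]) (by linarith [hx.2])).differentiableAt.differentiableWithinAt
        · intro x hx
          rw [interior_Icc] at hx
          have hx0 : 0 < x := by linarith [hx.1]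
          have hx1 : x < 1 := by linarith [hx.2]
          rw [(hder x hx0 hx1).deriv]
          apply div_nonneg
          · have := bet_anti hr0 hx.1.le hx1
            linarith
          · exact (one_sub_sq_pos (by linarith) hx1).le
      exact hmono ⟨le_refl _, h⟩ ⟨h, le_refl _⟩ h
    · have hanti : AntitoneOn F (Set.Icc t r) := by
        apply antitoneOn_of_deriv_nonpos (convex_Icc t r)
        · intro x hx
          exact (hder x (by linarith [hx.1]) (by linarith [hx.2])).continuousAt.continuousWithinAt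
        · intro x hx
          rw [interior_Icc] at hx
          exact (hder x (by linarith [hx.1]) (by linarith [hx.2])).differentiableAt.differentiableWithinAt
        · intro x hx
          rw [interior_Icc] at hx
          have hx0 : 0 < x := by linarith [hx.1]
          have hx1 : x < 1 := by linarith [hx.2]
          rw [(hder x hx0 hx1).deriv]
          apply div_nonpos_of_nonpos_of_nonneg
          · have := bet_anti hx0 hx.2.le hr1
            linarith
          · exact (one_sub_sq_pos (by linarith) hx1).le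
      exact hanti ⟨le_refl _, h⟩ ⟨h, le_refl _⟩ h
  simp only [hF] at key
  rw [hb_eq_LL (by linarith) hr1, hb_eq_LL (by linarith) ht1]
  linarith

/-- the key inequality -/
theorem KI {u v r : ℝ} (hv : -1 < v) (huv : v < u) (hu : u < 1) (hr0 : 0 < r) (hr1 : r < 1) :
    (u - v) / 2 * (hb r / r - bet r * ((ath u - ath v) / 2 - ath r)) ≤ (hb u + hb v) / 2 := by
  set ζ := (ath u + ath v) / 2 with hζ
  set y := (ath u - ath v) / 2 with hy
  have hu' : tanh (ζ + y) = u := by
    have : ζ + y = ath u := by rw [hζ, hy]; ring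
    rw [this, tanh_ath (by linarith) hu]
  have hv' : tanh (ζ - y) = v := by
    have : ζ - y = ath v := by rw [hζ, hy]; ring
    rw [this, tanh_ath hv (by linarith)]
  have hath : ath v < ath u := by
    rw [ath_eq_artanh hv (by linarith), ath_eq_artanh (by linarith) hu]
    exact strictMonoOn_artanh ⟨hv, by linarith⟩ ⟨by linarith, hu⟩ huv
  have hy0 : 0 < y := by rw [hy]; linarith
  have hP := P_hyp ζ y hy0
  rw [hu', hv'] at hP
  have ht0 : 0 < tanh y := by
    rw [tanh_eq_sinh_div_cosh]
    have := sinh_pos_iff.mpr hy0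
    have := cosh_pos y
    positivity
  have hc := cvx ht0 (tanh_bounds y).2 hr0 hr1
  rw [ath_tanh] at hc
  have := mul_le_mul_of_nonneg_left hc (by linarith : 0 ≤ (u - v) / 2)
  linarith

/-! ### monotonicity in the slope -/

theorem hasDerivAt_hb_ath {w : ℝ} (h1 : -1 < w) (h2 : w < 1) : HasDerivAt hb (-ath w) w := by
  refine (hasDerivAt_hb h1 h2).congr_deriv ?_
  unfold ath
  ring

/-- the interior case, `v < u` -/
theorem S1_int {ρ : ℝ} (hρ0 : 0 < ρ) (hρ1 : ρ < 1) {g z : ℝ} (hg0 : 0 < g)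
    (hz0 : 0 < z) (hz1 : z < 1) (hla : la ρ g z = (1 - g) * log 2) {u v : ℝ}
    (hv : -1 < v) (huv : v < u) (hu : u < 1) : ww ρ g z * (u - v) ≤ FF ρ g u v := by
  set c := (u + v) / 2 with hc
  set d := (u - v) / 2 with hd
  have hd0 : 0 < d := by rw [hd]; linarith
  have hcd1 : c + d < 1 := by rw [hc, hd]; linarith
  have hcd2 : -1 < c - d := by rw [hc, hd]; linarith
  set N : ℝ → ℝ := fun s => (hb (c + s * d) + hb (c - s * d)) / 2 + s * d * ath (s * z) with hN
  set G : ℝ → ℝ := fun s => N s / LL (s * z) with hG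
  have hfacts : ∀ s : ℝ, ρ ≤ s → s ≤ 1 → 0 < s ∧ 0 < s * d ∧ s * d ≤ d ∧ 0 < s * z ∧ s * z < 1 := by
    intro s h1 h2
    have hs : 0 < s := by linarith
    refine ⟨hs, by positivity, by nlinarith, by positivity, by nlinarith⟩
  have hder : ∀ s : ℝ, ρ ≤ s → s ≤ 1 → HasDerivAt G
      ((((-d * ath (c + s * d) + d * ath (c - s * d)) / 2 + (d * ath (s * z) +
        s * d * (1 / (1 - (s * z) ^ 2) * z))) * LL (s * z) -
        N s * ((s * z) / (1 - (s * z) ^ 2) * z)) / (LL (s * z)) ^ 2) s := by
    intro s h1 h2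
    obtain ⟨hs, hsd, hsd', hsz, hsz'⟩ := hfacts s h1 h2
    have i1 : HasDerivAt (fun s : ℝ => s * d) d s := by
      simpa using (hasDerivAt_id s).mul_const d
    have i2 : HasDerivAt (fun s : ℝ => s * z) z s := by
      simpa using (hasDerivAt_id s).mul_const z
    have i3 : HasDerivAt (fun s : ℝ => c + s * d) d s := i1.const_add c
    have i4 : HasDerivAt (fun s : ℝ => c - s * d) (-d) s := i1.const_sub c
    have j1 : HasDerivAt (fun s : ℝ => hb (c + s * d)) (-ath (c + s * d) * d) s :=
      (hasDerivAt_hb_ath (by linarith) (by linarith)).comp s i3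
    have j2 : HasDerivAt (fun s : ℝ => hb (c - s * d)) (-ath (c - s * d) * -d) s :=
      (hasDerivAt_hb_ath (by linarith) (by linarith)).comp s i4
    have j3 : HasDerivAt (fun s : ℝ => ath (s * z)) (1 / (1 - (s * z) ^ 2) * z) s :=
      HasDerivAt.comp (h₂ := ath) (h := fun s : ℝ => s * z) s (hasDerivAt_ath (by linarith) hsz') i2
    have j4 : HasDerivAt (fun s : ℝ => LL (s * z)) ((s * z) / (1 - (s * z) ^ 2) * z) s :=
      HasDerivAt.comp (h₂ := LL) (h := fun s : ℝ => s * z) s (hasDerivAt_LL (by linarith) hsz') i2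
    have j5 : HasDerivAt (fun s : ℝ => s * d * ath (s * z))
        (d * ath (s * z) + s * d * (1 / (1 - (s * z) ^ 2) * z)) s := i1.mul j3
    have j6 : HasDerivAt (fun s : ℝ => (hb (c + s * d) + hb (c - s * d)) / 2)
        ((-ath (c + s * d) * d + -ath (c - s * d) * -d) / 2) s := (j1.add j2).div_const 2
    have j7 : HasDerivAt N ((-ath (c + s * d) * d + -ath (c - s * d) * -d) / 2 +
        (d * ath (s * z) + s * d * (1 / (1 - (s * z) ^ 2) * z))) s := j6.add j5
    have hLL : LL (s * z) ≠ 0 := by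
      have := LL_pos (t := s * z) (by nlinarith)
      linarith
    refine (j7.div j4 hLL).congr_deriv ?_
    congr 3
    ring
  have hnonpos : ∀ s : ℝ, ρ ≤ s → s ≤ 1 →
      (((-d * ath (c + s * d) + d * ath (c - s * d)) / 2 + (d * ath (s * z) +
        s * d * (1 / (1 - (s * z) ^ 2) * z))) * LL (s * z) -
        N s * ((s * z) / (1 - (s * z) ^ 2) * z)) / (LL (s * z)) ^ 2 ≤ 0 := by
    intro s h1 h2
    obtain ⟨hs, hsd, hsd', hsz, hsz'⟩ := hfacts s h1 h2
    apply div_nonpos_of_nonpos_of_nonneg _ (sq_nonneg _)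
    have hK := KI (u := c + s * d) (v := c - s * d) (r := s * z) (by linarith) (by linarith)
      (by linarith) hsz hsz'
    have e0 : (c + s * d - (c - s * d)) / 2 = s * d := by ring
    rw [e0, hb_eq_LL (by linarith : -1 < s * z) hsz'] at hK
    set r := s * z with hr
    set y := (ath (c + s * d) - ath (c - s * d)) / 2 with hy
    set K := (hb (c + s * d) + hb (c - s * d)) / 2 with hKdef
    have hW : 0 < 1 - r ^ 2 := one_sub_sq_pos (by linarith) hsz'
    have hNs : N s = K + s * d * ath r := rfl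
    rw [hNs]
    have hmul := mul_le_mul_of_nonneg_right hK (by positivity : 0 ≤ z * r / (1 - r ^ 2))
    have hz' : z = r / s := by rw [hr]; field_simp
    have e1 : s * d * ((LL r - r * ath r) / r - bet r * (y - ath r)) * (z * r / (1 - r ^ 2)) =
        ((-d * ath (c + s * d) + d * ath (c - s * d)) / 2 + (d * ath r +
        s * d * (1 / (1 - r ^ 2) * z))) * LL r - s * d * ath r * (r / (1 - r ^ 2) * z) := by
      have e2 : (-d * ath (c + s * d) + d * ath (c - s * d)) / 2 = -(d * y) := by rw [hy]; ring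
      rw [e2, hz']
      unfold bet
      field_simp
      ring
    rw [e1] at hmul
    have e3 : K * (z * r / (1 - r ^ 2)) = K * (r / (1 - r ^ 2) * z) := by ring
    rw [e3] at hmul
    linarith
  have hanti : AntitoneOn G (Set.Icc ρ 1) := by
    apply antitoneOn_of_deriv_nonpos (convex_Icc ρ 1)
    · intro x hx
      exact (hder x hx.1 hx.2).continuousAt.continuousWithinAt
    · intro x hx
      rw [interior_Icc] at hx
      exact (hder x hx.1.le hx.2.le).differentiableAt.differentiableWithinAt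
    · intro x hx
      rw [interior_Icc] at hx
      rw [(hder x hx.1.le hx.2.le).deriv]
      exact hnonpos x hx.1.le hx.2.le
  have hfin := hanti ⟨le_refl _, hρ1.le⟩ ⟨hρ1.le, le_refl _⟩ hρ1.le
  have hLz : 0 < LL z := by
    have := LL_pos (t := z) (by nlinarith)
    linarith
  have hgL : LL (ρ * z) = g * LL z := by
    unfold la at hla
    unfold LL
    linarith
  have hLr : 0 < LL (ρ * z) := by rw [hgL]; positivity
  simp only [hG, hN, one_mul] at hfin
  rw [div_le_div_iff₀ hLz hLr, hgL] at hfin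
  have h4 : g * ((hb (c + d) + hb (c - d)) / 2 + d * ath z) ≤
      (hb (c + ρ * d) + hb (c - ρ * d)) / 2 + ρ * d * ath (ρ * z) := by
    have : g * ((hb (c + d) + hb (c - d)) / 2 + d * ath z) * LL z ≤
      ((hb (c + ρ * d) + hb (c - ρ * d)) / 2 + ρ * d * ath (ρ * z)) * LL z := by linarith
    exact le_of_mul_le_mul_right this hLz
  have k1 : c + d = u := by rw [hc, hd]; ring
  have k2 : c - d = v := by rw [hc, hd]; ring
  have k3 : HS ρ u v = (hb (c + ρ * d) + hb (c - ρ * d)) / 2 := by
    unfold HS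
    have m1 : (1 + ρ) / 2 * u + (1 - ρ) / 2 * v = c + ρ * d := by rw [hc, hd]; ring
    have m2 : (1 - ρ) / 2 * u + (1 + ρ) / 2 * v = c - ρ * d := by rw [hc, hd]; ring
    rw [m1, m2]
  rw [k1, k2] at h4
  unfold FF ww
  rw [k3]
  have k4 : u - v = 2 * d := by rw [hd]; ring
  rw [k4]
  linarith

theorem hb_anti {x y : ℝ} (h0 : 0 ≤ x) (hxy : x ≤ y) (h1 : y ≤ 1) : hb y ≤ hb x := by
  unfold hb
  have := Real.binEntropy_strictAntiOn.antitoneOn
  exact this ⟨by norm_num; linarith, by linarith⟩ ⟨by norm_num; linarith, by linarith⟩ (by linarith)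

theorem ww_nonneg' {ρ : ℝ} (hρ0 : 0 < ρ) (hρ1 : ρ < 1) {g z : ℝ} (hg1 : g < 1)
    (hz0 : 0 < z) (hz1 : z < 1) (hla : la ρ g z = (1 - g) * log 2) : 0 ≤ ww ρ g z := by
  have hρz : ρ * z < 1 := by nlinarith
  have hρz0 : 0 < ρ * z := by positivity
  have h1 := hb_eq_LL (t := z) (by linarith) hz1
  have h2 := hb_eq_LL (t := ρ * z) (by linarith) hρz
  have hgL : LL (ρ * z) = g * LL z := by
    unfold la at hla
    unfold LL
    linarith
  have h3 : z * ww ρ g z = hb (ρ * z) - g * hb z := by
    unfold ww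
    rw [h1, h2, hgL]
    ring
  have h4 : hb z ≤ hb (ρ * z) := hb_anti hρz0.le (by nlinarith) hz1.le
  have h5 : 0 ≤ hb z := hb_nonneg (by rw [abs_of_pos hz0]; exact hz1.le)
  have h6 : 0 ≤ z * ww ρ g z := by
    rw [h3]
    nlinarith
  exact nonneg_of_mul_nonneg_right h6 hz0

theorem FF_swap (ρ g u v : ℝ) : FF ρ g v u = FF ρ g u v := by
  unfold FF
  rw [HS_swap]
  ring

/-- **S1** -/
theorem S1_holds {ρ : ℝ} (hρ0 : 0 < ρ) (hρ1 : ρ < 1) : S1 ρ := by
  intro g z hg0 hg1 hz0 hz1 hla u v hu hv
  have hww := ww_nonneg' hρ0 hρ1 hg1 hz0 hz1 hla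
  -- interior points, ordered
  have hint : ∀ x y : ℝ, -1 < y → y < x → x < 1 → ww ρ g z * (x - y) ≤ FF ρ g x y :=
    fun x y h1 h2 h3 => S1_int hρ0 hρ1 hg0 hz0 hz1 hla h1 h2 h3
  -- all points of the closed square with `y ≤ x`
  have hcl : ∀ x y : ℝ, |x| ≤ 1 → |y| ≤ 1 → y ≤ x → ww ρ g z * (x - y) ≤ FF ρ g x y := by
    intro x y hx hy hyx
    rw [abs_le] at hx hy
    have hcont : Continuous (fun l : ℝ => FF ρ g (l * x + (1 - l) * (1 / 2)) (l * y) -
        ww ρ g z * (l * x + (1 - l) * (1 / 2) - l * y)) := by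
      have h := (continuous_FF ρ g).comp
        (by fun_prop : Continuous (fun l : ℝ => (l * x + (1 - l) * (1 / 2), l * y)))
      have h' : Continuous (fun l : ℝ => FF ρ g (l * x + (1 - l) * (1 / 2)) (l * y)) := h
      fun_prop
    have hmem : (1:ℝ) ∈ closure (Set.Ioo (0:ℝ) 1) := by
      rw [closure_Ioo zero_ne_one]
      exact ⟨zero_le_one, le_refl _⟩
    have hsub : Set.Ioo (0:ℝ) 1 ⊆ {l : ℝ | 0 ≤ FF ρ g (l * x + (1 - l) * (1 / 2)) (l * y) -
        ww ρ g z * (l * x + (1 - l) * (1 / 2) - l * y)} := by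
      intro l hl
      have hl0 := hl.1
      have hl1 := hl.2
      have h1 : -1 < l * y := by nlinarith [hy.1, hy.2]
      have h2 : l * y < l * x + (1 - l) * (1 / 2) := by nlinarith
      have h3 : l * x + (1 - l) * (1 / 2) < 1 := by nlinarith [hx.1, hx.2]
      have := hint _ _ h1 h2 h3
      simp only [Set.mem_ofPred_eq]
      linarith
    have hclosed : IsClosed {l : ℝ | 0 ≤ FF ρ g (l * x + (1 - l) * (1 / 2)) (l * y) -
        ww ρ g z * (l * x + (1 - l) * (1 / 2) - l * y)} :=
      isClosed_le continuous_const hcont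
    have := hclosed.closure_subset_iff.mpr hsub hmem
    simp only [Set.mem_ofPred_eq, one_mul, sub_self, zero_mul, add_zero] at this
    linarith
  rcases le_total v u with h | h
  · exact hcl u v hu hv h
  · have h1 := hcl v u hv hu h
    rw [FF_swap] at h1
    have h2 : ww ρ g z * (u - v) ≤ ww ρ g z * (v - u) :=
      mul_le_mul_of_nonneg_left (by linarith) hww
    linarith

end

end Vale.Agent.P322
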