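import Vale.Agent.P322.S3Vals
import Vale.Agent.P322.S1

/-! (S3): on the curve `hb t = 3/2 hb ρ t` one has `2 hb ρ t ≤ hb (ρ t)` for `ρ ≥ 39/50`. -/

namespace Vale.Agent.P322

namespace S3ns

open Real Finset

theorem hb_lt {x y : ℝ} (h0 : 0 ≤ x) (hxy : x < y) (h1 : y ≤ 1) : hb y < hb x := by
  unfold hb
  apply Real.binEntropy_strictAntiOn
  · constructor <;> norm_num <;> linarith
  · constructor <;> norm_num <;> linarith
  · linarith

theorem hb_pos' {x : ℝ} (h0 : -1 < x) (h1 : x < 1) : 0 < hb x := by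
  unfold hb
  exact Real.binEntropy_pos (by linarith) (by linarith)

theorem S3_core {ρ t τ : ℝ} (hρ0 : 0 < ρ) (hρ1 : ρ < 1) (hτ0 : 0 < τ) (hτ1 : τ < 1)
    (ht0 : 0 < t) (ht1 : t < 1) (h : hb t = 3 / 2 * hb ρ * t)
    (hα : hb τ ≤ 3 / 2 * hb ρ * τ) (hβ : 2 * hb ρ * τ ≤ hb (ρ * τ)) :
    2 * hb ρ * t ≤ hb (ρ * t) := by
  have hp : 0 < hb ρ := hb_pos' (by linarith) hρ1
  have htτ : t ≤ τ := by
    by_contra hc
    push Not at hc
    have h1 := hb_lt hτ0.le hc ht1.le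
    have h2 : 3 / 2 * hb ρ * τ < 3 / 2 * hb ρ * t :=
      mul_lt_mul_of_pos_left hc (by positivity)
    linarith
  have h3 : ρ * t ≤ ρ * τ := mul_le_mul_of_nonneg_left htτ hρ0.le
  have h4 := hb_anti (x := ρ * t) (y := ρ * τ) (by positivity) h3 (by nlinarith)
  have h5 : 2 * hb ρ * t ≤ 2 * hb ρ * τ := mul_le_mul_of_nonneg_left htτ (by positivity)
  linarith

theorem ath_mono' {x y : ℝ} (h0 : 0 ≤ x) (hxy : x ≤ y) (h1 : y < 1) : ath x ≤ ath y := by
  unfold ath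
  have e1 : log (1 + x) ≤ log (1 + y) := Real.log_le_log (by linarith) (by linarith)
  have e2 : log (1 - y) ≤ log (1 - x) := Real.log_le_log (by linarith) (by linarith)
  linarith

theorem ath_nn {x : ℝ} (h0 : 0 ≤ x) (h1 : x < 1) : 0 ≤ ath x := by
  have := ath_mono' (le_refl 0) h0 h1
  rwa [ath_zero] at this

theorem phi_mono {ρ0 ρ τ : ℝ} (h0 : 0 ≤ ρ0) (h1 : ρ0 ≤ ρ) (h2 : ρ < 1) (hτ0 : 0 < τ) (hτ1 : τ < 1)
    (hβ : 2 * hb ρ0 * τ ≤ hb (ρ0 * τ)) : 2 * hb ρ * τ ≤ hb (ρ * τ) := by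
  have hder : ∀ x ∈ Set.Icc ρ0 ρ, HasDerivAt (fun x : ℝ => hb (x * τ) - 2 * hb x * τ)
      (-ath (x * τ) * τ - 2 * (-ath x) * τ) x := by
    intro x hx
    have hx0 : 0 ≤ x := h0.trans hx.1
    have hx1 : x < 1 := lt_of_le_of_lt hx.2 h2
    have hxt0 : 0 ≤ x * τ := by positivity
    have hxt1 : x * τ < 1 := by nlinarith
    have d1 : HasDerivAt (fun x : ℝ => x * τ) τ x := by
      simpa using (hasDerivAt_id x).mul_const τ
    have d2 := (hasDerivAt_hb_ath (w := x * τ) (by linarith) hxt1)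
    have d3 : HasDerivAt (fun x : ℝ => hb (x * τ)) (-ath (x * τ) * τ) x :=
      HasDerivAt.comp (h₂ := hb) (h := fun x : ℝ => x * τ) x d2 d1
    have d4 := ((hasDerivAt_hb_ath (w := x) (by linarith) hx1).const_mul 2).mul_const τ
    exact d3.sub d4
  have hmono : MonotoneOn (fun x : ℝ => hb (x * τ) - 2 * hb x * τ) (Set.Icc ρ0 ρ) := by
    apply monotoneOn_of_deriv_nonneg (convex_Icc _ _)
    · intro x hx
      exact (hder x hx).continuousAt.continuousWithinAt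
    · intro x hx
      rw [interior_Icc] at hx
      exact (hder x ⟨hx.1.le, hx.2.le⟩).differentiableAt.differentiableWithinAt
    · intro x hx
      rw [interior_Icc] at hx
      rw [(hder x ⟨hx.1.le, hx.2.le⟩).deriv]
      have hx0 : 0 ≤ x := h0.trans hx.1.le
      have hx1 : x < 1 := lt_of_le_of_lt hx.2.le h2
      have a1 := ath_mono' (x := x * τ) (y := x) (by positivity) (by nlinarith) hx1
      have a2 := ath_nn hx0 hx1
      have a3 : 0 ≤ 2 * ath x - ath (x * τ) := by linarith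
      have := mul_nonneg a3 hτ0.le
      linarith
  have := hmono ⟨le_refl _, h1⟩ ⟨h1, le_refl _⟩ h1
  simp only at this
  linarith

theorem S3_piece {ρ0 ρ1 ρ t τ : ℝ} (h0 : 0 < ρ0) (h1 : ρ0 ≤ ρ) (h2 : ρ ≤ ρ1) (h3 : ρ1 < 1)
    (hτ0 : 0 < τ) (hτ1 : τ < 1) (ht0 : 0 < t) (ht1 : t < 1) (h : hb t = 3 / 2 * hb ρ * t)
    (hα : hb τ ≤ 3 / 2 * hb ρ1 * τ) (hβ : 2 * hb ρ0 * τ ≤ hb (ρ0 * τ)) :
    2 * hb ρ * t ≤ hb (ρ * t) := by
  have hρ0 : 0 < ρ := lt_of_lt_of_le h0 h1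
  have hρ1 : ρ < 1 := lt_of_le_of_lt h2 h3
  refine S3_core hρ0 hρ1 hτ0 hτ1 ht0 ht1 h ?_ (phi_mono h0.le h1 hρ1 hτ0 hτ1 hβ)
  have h4 := hb_anti hρ0.le h2 h3.le
  have h5 := mul_le_mul_of_nonneg_right h4 hτ0.le
  linarith

/-! ### the tail `ρ → 1` -/

theorem hb_one_sub {z : ℝ} : hb (1 - 2 * z) = -(z * log z) - (1 - z) * log (1 - z) := by
  unfold hb
  have e : (1 + (1 - 2 * z)) / 2 = 1 - z := by ring
  rw [e, Real.binEntropy_one_sub, Real.binEntropy_eq_negMulLog_add_negMulLog_one_sub]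
  unfold Real.negMulLog
  ring

theorem ent_up {z : ℝ} (h0 : 0 ≤ z) (h1 : z < 1) : -((1 - z) * log (1 - z)) ≤ z - z ^ 2 / 2 := by
  have hder : ∀ x ∈ Set.Icc 0 z, HasDerivAt (fun x : ℝ => x - x ^ 2 / 2 + (1 - x) * log (1 - x))
      (-x - log (1 - x)) x := by
    intro x hx
    have hx1 : 1 - x ≠ 0 := by linarith [hx.2]
    have a1 : HasDerivAt (fun x : ℝ => 1 - x) (-1) x := by
      simpa using (hasDerivAt_id x).const_sub 1
    have a2 := a1.mul (a1.log hx1)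
    have a3 : HasDerivAt (fun x : ℝ => x - x ^ 2 / 2) (1 - x) x := by
      have := (hasDerivAt_id x).sub (((hasDerivAt_id x).pow 2).div_const 2)
      refine this.congr_deriv ?_
      simp
    refine (a3.add a2).congr_deriv ?_
    field_simp
    ring
  have hmono : MonotoneOn (fun x : ℝ => x - x ^ 2 / 2 + (1 - x) * log (1 - x)) (Set.Icc 0 z) := by
    apply monotoneOn_of_deriv_nonneg (convex_Icc _ _)
    · intro x hx
      exact (hder x hx).continuousAt.continuousWithinAt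
    · intro x hx
      rw [interior_Icc] at hx
      exact (hder x ⟨hx.1.le, hx.2.le⟩).differentiableAt.differentiableWithinAt
    · intro x hx
      rw [interior_Icc] at hx
      rw [(hder x ⟨hx.1.le, hx.2.le⟩).deriv]
      have := psi_ge (z := x) (by linarith [hx.2])
      linarith
  have := hmono ⟨le_refl _, h0⟩ ⟨h0, le_refl _⟩ h0
  simp at this
  linarith

theorem ent_lo {z : ℝ} (h0 : 0 ≤ z) (h1 : z ≤ 1 / 3) :
    z - z ^ 2 / 2 - z ^ 3 / 2 ≤ -((1 - z) * log (1 - z)) := by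
  have hder : ∀ x ∈ Set.Icc 0 z, HasDerivAt
      (fun x : ℝ => -(x - x ^ 2 / 2 - x ^ 3 / 2) - (1 - x) * log (1 - x))
      (x + 3 / 2 * x ^ 2 + log (1 - x)) x := by
    intro x hx
    have hx1 : 1 - x ≠ 0 := by linarith [hx.2]
    have a1 : HasDerivAt (fun x : ℝ => 1 - x) (-1) x := by
      simpa using (hasDerivAt_id x).const_sub 1
    have a2 := a1.mul (a1.log hx1)
    have a3 : HasDerivAt (fun x : ℝ => x - x ^ 2 / 2 - x ^ 3 / 2) (1 - x - 3 / 2 * x ^ 2) x := by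
      have := ((hasDerivAt_id x).sub (((hasDerivAt_id x).pow 2).div_const 2)).sub
        (((hasDerivAt_id x).pow 3).div_const 2)
      refine this.congr_deriv ?_
      simp
      ring
    refine (a3.neg.sub a2).congr_deriv ?_
    field_simp
    ring
  have hmono : MonotoneOn (fun x : ℝ => -(x - x ^ 2 / 2 - x ^ 3 / 2) - (1 - x) * log (1 - x))
      (Set.Icc 0 z) := by
    apply monotoneOn_of_deriv_nonneg (convex_Icc _ _)
    · intro x hx
      exact (hder x hx).continuousAt.continuousWithinAt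
    · intro x hx
      rw [interior_Icc] at hx
      exact (hder x ⟨hx.1.le, hx.2.le⟩).differentiableAt.differentiableWithinAt
    · intro x hx
      rw [interior_Icc] at hx
      rw [(hder x ⟨hx.1.le, hx.2.le⟩).deriv]
      have hx1 : 0 < 1 - x := by linarith [hx.2]
      have g := Real.one_sub_inv_le_log_of_pos hx1
      have g2 : -x - 3 / 2 * x ^ 2 ≤ 1 - (1 - x)⁻¹ := by
        have : (1 - x)⁻¹ ≤ 1 + x + 3 / 2 * x ^ 2 := by
          rw [inv_le_iff_one_le_mul₀ hx1]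
          have hx3 : x ≤ 1 / 3 := by linarith [hx.2]
          nlinarith [mul_nonneg (sq_nonneg x) (by linarith : 0 ≤ 1 / 3 - x)]
        linarith
      linarith
  have := hmono ⟨le_refl _, h0⟩ ⟨h0, le_refl _⟩ h0
  simp at this
  linarith

theorem tail_arith_a {a l : ℝ} (ha0 : 0 < a) (key : 0 ≤ 405 / 1000 - 3 * (a * l) - 11 / 4 * a) :
    3 / 2 * a * (l - 405 / 1000) + (3 / 2 * a - (3 / 2 * a) ^ 2 / 2) ≤
      3 / 2 * (a * l + (a - a ^ 2 / 2 - a ^ 3 / 2)) * (1 - 3 * a) := by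
  have e2 := mul_nonneg ha0.le key
  have e3 : 0 ≤ a ^ 3 * (1 + 3 / 2 * a) := by positivity
  linarith

theorem tail_arith_b {a l c : ℝ} (ha0 : 0 < a) (ha1 : a ≤ 11 / 400)
    (hc0 : 0 < c) (hc1 : c ≤ 5 / 2 * a) (r1 : 1 - a / (11 / 400) + 3593 / 1000 ≤ l) :
    0 ≤ (5 / 2 - 3 * a) * (l + 83 / 1000 - c / 2 - c ^ 2 / 2)
        - 2 * (1 - 3 * a) * (l + 1 - a / 2) := by
  have k1 : c ^ 2 ≤ (5 / 2 * a) ^ 2 := pow_le_pow_left₀ hc0.le hc1 2
  have k2 : (5 / 2 - 3 * a) * (c / 2 + c ^ 2 / 2) ≤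
      5 / 2 * (5 / 2 * a / 2 + (5 / 2 * a) ^ 2 / 2) := by
    apply mul_le_mul (by linarith) (by linarith) (by positivity) (by norm_num)
  have k3 := mul_le_mul_of_nonneg_left r1 (by linarith : 0 ≤ 1 / 2 + 3 * a)
  have k4 : 0 ≤ (11 / 400 - a) * a := mul_nonneg (by linarith) ha0.le
  have k5 : (5 / 2 - 3 * a) * (l + 83 / 1000 - c / 2 - c ^ 2 / 2)
        - 2 * (1 - 3 * a) * (l + 1 - a / 2) = (1 / 2 + 3 * a) * l + (5 / 2 - 3 * a) * (83 / 1000)
        - (5 / 2 - 3 * a) * (c / 2 + c ^ 2 / 2) - 2 + 7 * a - 3 * a ^ 2 := by ring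
  rw [k5]
  linarith

/-- logarithm bounds for the tail -/
theorem tail_logs {a : ℝ} (ha0 : 0 < a) :
    1 - a / (11 / 400) + 3593 / 1000 ≤ -log a ∧
    a * (-log a) ≤ 11 / 400 - a + 3594 / 1000 * a := by
  obtain ⟨l1, l2⟩ := log_num (q := 11 / 400) (c := 352 / 200) (-6) (by norm_num) (by norm_num)
    (by norm_num)
  have g1 : (6931471803 / 10000000000 : ℝ) ≤ log 2 := by
    have := Real.log_two_gt_d9
    norm_num at this ⊢
    linarith
  have g2 : log 2 ≤ (6931471808 / 10000000000 : ℝ) := by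
    have := Real.log_two_lt_d9
    norm_num at this ⊢
    linarith
  have l3 : -(3594 / 1000 : ℝ) ≤ log (11 / 400) := by
    refine le_trans ?_ l1
    norm_num [S7]
    linarith
  have l4 : log (11 / 400) ≤ -(3593 / 1000 : ℝ) := by
    refine le_trans l2 ?_
    norm_num [S7]
    linarith
  have q1 : log (a / (11 / 400)) ≤ a / (11 / 400) - 1 :=
    Real.log_le_sub_one_of_pos (by positivity)
  have q2 : 1 - (a / (11 / 400))⁻¹ ≤ log (a / (11 / 400)) :=
    Real.one_sub_inv_le_log_of_pos (by positivity)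
  rw [Real.log_div ha0.ne' (by norm_num)] at q1 q2
  constructor
  · linarith
  · have := mul_le_mul_of_nonneg_left q2 ha0.le
    have e : a * (1 - (a / (11 / 400))⁻¹) = a - 11 / 400 := by
      field_simp
    rw [e] at this
    have l3' := mul_le_mul_of_nonneg_left l3 ha0.le
    linarith

theorem log_three_halves : (405 / 1000 : ℝ) ≤ log (3 / 2) := by
  obtain ⟨m1, m2⟩ := log_num (q := 3 / 2) (c := 3 / 2) 0 (by norm_num) (by norm_num)
    (by norm_num)
  refine le_trans ?_ m1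
  norm_num [S7]

theorem log_five_halves : log (5 / 2) ≤ (917 / 1000 : ℝ) := by
  obtain ⟨n1, n2⟩ := log_num (q := 5 / 2) (c := 5 / 4) 1 (by norm_num) (by norm_num)
    (by norm_num)
  have g2 : log 2 ≤ (6931471808 / 10000000000 : ℝ) := by
    have := Real.log_two_lt_d9
    norm_num at this ⊢
    linarith
  refine le_trans n2 ?_
  norm_num [S7]
  linarith

/-- the tail -/
theorem S3_tail {ρ t : ℝ} (h1 : (945 / 1000 : ℝ) ≤ ρ) (h2 : ρ < 1) (ht0 : 0 < t)
    (ht1 : t < 1) (h : hb t = 3 / 2 * hb ρ * t) : 2 * hb ρ * t ≤ hb (ρ * t) := by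
  obtain ⟨a, ha⟩ : ∃ a, a = (1 - ρ) / 2 := ⟨_, rfl⟩
  have ha0 : 0 < a := by rw [ha]; linarith
  have ha1 : a ≤ 11 / 400 := by rw [ha]; linarith
  have hρ : ρ = 1 - 2 * a := by rw [ha]; ring
  -- log bounds
  have m3 := log_three_halves
  have n3 := log_five_halves
  obtain ⟨l, hl⟩ : ∃ l, l = -log a := ⟨_, rfl⟩
  obtain ⟨r1, r2⟩ := tail_logs ha0
  rw [← hl] at r1 r2
  -- the entropies
  have hbρ : hb ρ = a * l + -((1 - a) * log (1 - a)) := by
    rw [hρ, hb_one_sub, hl]; ring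
  have hbρ_lo : a * l + (a - a ^ 2 / 2 - a ^ 3 / 2) ≤ hb ρ := by
    rw [hbρ]; linarith [ent_lo ha0.le (by linarith : a ≤ 1 / 3)]
  have hbρ_up : hb ρ ≤ a * l + (a - a ^ 2 / 2) := by
    rw [hbρ]; linarith [ent_up ha0.le (by linarith : a < 1)]
  have hz0 : 0 < 3 / 2 * a := by positivity
  have hz1 : 3 / 2 * a ≤ 1 / 3 := by linarith
  have hbτ : hb (1 - 3 * a) ≤ 3 / 2 * a * (l - 405 / 1000) + (3 / 2 * a - (3 / 2 * a) ^ 2 / 2) := by
    have e : (1 - 3 * a) = 1 - 2 * (3 / 2 * a) := by ring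
    rw [e, hb_one_sub, Real.log_mul (by norm_num) ha0.ne']
    have e2 := ent_up hz0.le (by linarith : 3 / 2 * a < 1)
    have e3 := mul_le_mul_of_nonneg_left m3 hz0.le
    have e4 : 3 / 2 * a * (log (3 / 2) + log a) = 3 / 2 * a * log (3 / 2) - 3 / 2 * a * l := by
      rw [hl]; ring
    rw [e4]
    linarith
  obtain ⟨c, hc⟩ : ∃ c, c = a * (5 / 2 - 3 * a) := ⟨_, rfl⟩
  have hc0 : 0 < c := by rw [hc]; exact mul_pos ha0 (by linarith)
  have hc1 : c ≤ 5 / 2 * a := by rw [hc]; nlinarith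
  have hbρτ : c * (l - 917 / 1000) + (c - c ^ 2 / 2 - c ^ 3 / 2) ≤ hb (ρ * (1 - 3 * a)) := by
    have e : ρ * (1 - 3 * a) = 1 - 2 * c := by rw [hρ, hc]; ring
    rw [e, hb_one_sub]
    have e2 := ent_lo hc0.le (by linarith : c ≤ 1 / 3)
    have e3 : log c ≤ log (5 / 2) + log a := by
      rw [← Real.log_mul (by norm_num) ha0.ne']
      exact Real.log_le_log hc0 hc1
    have e4 : log c ≤ 917 / 1000 - l := by rw [hl]; linarith
    have e5 := mul_le_mul_of_nonneg_left e4 hc0.le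
    linarith
  have hτ0 : 0 < 1 - 3 * a := by linarith
  refine S3_core (τ := 1 - 3 * a) (by linarith) h2 hτ0 (by linarith) ht0 ht1 h ?_ ?_
  · -- (α)
    have e1 : 3 / 2 * (a * l + (a - a ^ 2 / 2 - a ^ 3 / 2)) * (1 - 3 * a) ≤
        3 / 2 * hb ρ * (1 - 3 * a) := by
      apply mul_le_mul_of_nonneg_right _ hτ0.le
      linarith
    refine le_trans hbτ (le_trans ?_ e1)
    have key : 0 ≤ 405 / 1000 - 3 * (a * l) - 11 / 4 * a := by linarith
    exact tail_arith_a ha0 key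
  · -- (β)
    have e1 : 2 * hb ρ * (1 - 3 * a) ≤ 2 * (a * l + (a - a ^ 2 / 2)) * (1 - 3 * a) := by
      apply mul_le_mul_of_nonneg_right _ hτ0.le
      linarith
    refine le_trans e1 (le_trans ?_ hbρτ)
    have key := tail_arith_b ha0 ha1 hc0 hc1 r1
    have e2 := mul_nonneg ha0.le key
    have e3 : a * ((5 / 2 - 3 * a) * (l + 83 / 1000 - c / 2 - c ^ 2 / 2)
        - 2 * (1 - 3 * a) * (l + 1 - a / 2)) =
        a * (5 / 2 - 3 * a) * (l + 83 / 1000 - c / 2 - c ^ 2 / 2)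
        - 2 * (a * l + (a - a ^ 2 / 2)) * (1 - 3 * a) := by ring
    rw [e3, ← hc] at e2
    linarith

/-! ### the pieces `39/50 ≤ ρ ≤ 945/1000` -/

theorem S3_0 {ρ t : ℝ} (h1 : (39 / 50 : ℝ) ≤ ρ) (h2 : ρ ≤ (7813 / 10000 : ℝ)) (ht0 : 0 < t)
    (ht1 : t < 1) (h : hb t = 3 / 2 * hb ρ * t) : 2 * hb ρ * t ≤ hb (ρ * t) :=
  S3_piece (ρ0 := 39 / 50) (ρ1 := 7813 / 10000) (τ := 7423 / 10000) (by norm_num) h1 h2 (by norm_num)
    (by norm_num) (by norm_num) ht0 ht1 h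
    (by
      have a := hv_0.2
      have b := hv_1.1
      norm_num at a b ⊢
      linarith)
    (by
      have c := hv_2.2
      have d := hv_3.1
      norm_num at c d ⊢
      linarith)

theorem S3_1 {ρ t : ℝ} (h1 : (7813 / 10000 : ℝ) ≤ ρ) (h2 : ρ ≤ (7827 / 10000 : ℝ)) (ht0 : 0 < t)
    (ht1 : t < 1) (h : hb t = 3 / 2 * hb ρ * t) : 2 * hb ρ * t ≤ hb (ρ * t) :=
  S3_piece (ρ0 := 7813 / 10000) (ρ1 := 7827 / 10000) (τ := 1487 / 2000) (by norm_num) h1 h2 (by norm_num)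
    (by norm_num) (by norm_num) ht0 ht1 h
    (by
      have a := hv_4.2
      have b := hv_5.1
      norm_num at a b ⊢
      linarith)
    (by
      have c := hv_1.2
      have d := hv_6.1
      norm_num at c d ⊢
      linarith)

theorem S3_2 {ρ t : ℝ} (h1 : (7827 / 10000 : ℝ) ≤ ρ) (h2 : ρ ≤ (3921 / 5000 : ℝ)) (ht0 : 0 < t)
    (ht1 : t < 1) (h : hb t = 3 / 2 * hb ρ * t) : 2 * hb ρ * t ≤ hb (ρ * t) :=
  S3_piece (ρ0 := 7827 / 10000) (ρ1 := 3921 / 5000) (τ := 7447 / 10000) (by norm_num) h1 h2 (by norm_num)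
    (by norm_num) (by norm_num) ht0 ht1 h
    (by
      have a := hv_7.2
      have b := hv_8.1
      norm_num at a b ⊢
      linarith)
    (by
      have c := hv_5.2
      have d := hv_9.1
      norm_num at c d ⊢
      linarith)

theorem S3_3 {ρ t : ℝ} (h1 : (3921 / 5000 : ℝ) ≤ ρ) (h2 : ρ ≤ (7859 / 10000 : ℝ)) (ht0 : 0 < t)
    (ht1 : t < 1) (h : hb t = 3 / 2 * hb ρ * t) : 2 * hb ρ * t ≤ hb (ρ * t) :=
  S3_piece (ρ0 := 3921 / 5000) (ρ1 := 7859 / 10000) (τ := 373 / 500) (by norm_num) h1 h2 (by norm_num)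
    (by norm_num) (by norm_num) ht0 ht1 h
    (by
      have a := hv_10.2
      have b := hv_11.1
      norm_num at a b ⊢
      linarith)
    (by
      have c := hv_8.2
      have d := hv_12.1
      norm_num at c d ⊢
      linarith)

theorem S3_4 {ρ t : ℝ} (h1 : (7859 / 10000 : ℝ) ≤ ρ) (h2 : ρ ≤ (7877 / 10000 : ℝ)) (ht0 : 0 < t)
    (ht1 : t < 1) (h : hb t = 3 / 2 * hb ρ * t) : 2 * hb ρ * t ≤ hb (ρ * t) :=
  S3_piece (ρ0 := 7859 / 10000) (ρ1 := 7877 / 10000) (τ := 299 / 400) (by norm_num) h1 h2 (by norm_num)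
    (by norm_num) (by norm_num) ht0 ht1 h
    (by
      have a := hv_13.2
      have b := hv_14.1
      norm_num at a b ⊢
      linarith)
    (by
      have c := hv_11.2
      have d := hv_15.1
      norm_num at c d ⊢
      linarith)

theorem S3_5 {ρ t : ℝ} (h1 : (7877 / 10000 : ℝ) ≤ ρ) (h2 : ρ ≤ (7897 / 10000 : ℝ)) (ht0 : 0 < t)
    (ht1 : t < 1) (h : hb t = 3 / 2 * hb ρ * t) : 2 * hb ρ * t ≤ hb (ρ * t) :=
  S3_piece (ρ0 := 7877 / 10000) (ρ1 := 7897 / 10000) (τ := 7491 / 10000) (by norm_num) h1 h2 (by norm_num)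
    (by norm_num) (by norm_num) ht0 ht1 h
    (by
      have a := hv_16.2
      have b := hv_17.1
      norm_num at a b ⊢
      linarith)
    (by
      have c := hv_14.2
      have d := hv_18.1
      norm_num at c d ⊢
      linarith)

theorem S3_6 {ρ t : ℝ} (h1 : (7897 / 10000 : ℝ) ≤ ρ) (h2 : ρ ≤ (7919 / 10000 : ℝ)) (ht0 : 0 < t)
    (ht1 : t < 1) (h : hb t = 3 / 2 * hb ρ * t) : 2 * hb ρ * t ≤ hb (ρ * t) :=
  S3_piece (ρ0 := 7897 / 10000) (ρ1 := 7919 / 10000) (τ := 7509 / 10000) (by norm_num) h1 h2 (by norm_num)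
    (by norm_num) (by norm_num) ht0 ht1 h
    (by
      have a := hv_19.2
      have b := hv_20.1
      norm_num at a b ⊢
      linarith)
    (by
      have c := hv_17.2
      have d := hv_21.1
      norm_num at c d ⊢
      linarith)

theorem S3_7 {ρ t : ℝ} (h1 : (7919 / 10000 : ℝ) ≤ ρ) (h2 : ρ ≤ (3971 / 5000 : ℝ)) (ht0 : 0 < t)
    (ht1 : t < 1) (h : hb t = 3 / 2 * hb ρ * t) : 2 * hb ρ * t ≤ hb (ρ * t) :=
  S3_piece (ρ0 := 7919 / 10000) (ρ1 := 3971 / 5000) (τ := 7529 / 10000) (by norm_num) h1 h2 (by norm_num)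
    (by norm_num) (by norm_num) ht0 ht1 h
    (by
      have a := hv_22.2
      have b := hv_23.1
      norm_num at a b ⊢
      linarith)
    (by
      have c := hv_20.2
      have d := hv_24.1
      norm_num at c d ⊢
      linarith)

theorem S3_8 {ρ t : ℝ} (h1 : (3971 / 5000 : ℝ) ≤ ρ) (h2 : ρ ≤ (7967 / 10000 : ℝ)) (ht0 : 0 < t)
    (ht1 : t < 1) (h : hb t = 3 / 2 * hb ρ * t) : 2 * hb ρ * t ≤ hb (ρ * t) :=
  S3_piece (ρ0 := 3971 / 5000) (ρ1 := 7967 / 10000) (τ := 151 / 200) (by norm_num) h1 h2 (by norm_num)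
    (by norm_num) (by norm_num) ht0 ht1 h
    (by
      have a := hv_25.2
      have b := hv_26.1
      norm_num at a b ⊢
      linarith)
    (by
      have c := hv_23.2
      have d := hv_27.1
      norm_num at c d ⊢
      linarith)

theorem S3_9 {ρ t : ℝ} (h1 : (7967 / 10000 : ℝ) ≤ ρ) (h2 : ρ ≤ (3997 / 5000 : ℝ)) (ht0 : 0 < t)
    (ht1 : t < 1) (h : hb t = 3 / 2 * hb ρ * t) : 2 * hb ρ * t ≤ hb (ρ * t) :=
  S3_piece (ρ0 := 7967 / 10000) (ρ1 := 3997 / 5000) (τ := 7573 / 10000) (by norm_num) h1 h2 (by norm_num)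
    (by norm_num) (by norm_num) ht0 ht1 h
    (by
      have a := hv_28.2
      have b := hv_29.1
      norm_num at a b ⊢
      linarith)
    (by
      have c := hv_26.2
      have d := hv_30.1
      norm_num at c d ⊢
      linarith)

theorem S3_10 {ρ t : ℝ} (h1 : (3997 / 5000 : ℝ) ≤ ρ) (h2 : ρ ≤ (8023 / 10000 : ℝ)) (ht0 : 0 < t)
    (ht1 : t < 1) (h : hb t = 3 / 2 * hb ρ * t) : 2 * hb ρ * t ≤ hb (ρ * t) :=
  S3_piece (ρ0 := 3997 / 5000) (ρ1 := 8023 / 10000) (τ := 7597 / 10000) (by norm_num) h1 h2 (by norm_num)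
    (by norm_num) (by norm_num) ht0 ht1 h
    (by
      have a := hv_31.2
      have b := hv_32.1
      norm_num at a b ⊢
      linarith)
    (by
      have c := hv_29.2
      have d := hv_33.1
      norm_num at c d ⊢
      linarith)

theorem S3_11 {ρ t : ℝ} (h1 : (8023 / 10000 : ℝ) ≤ ρ) (h2 : ρ ≤ (1611 / 2000 : ℝ)) (ht0 : 0 < t)
    (ht1 : t < 1) (h : hb t = 3 / 2 * hb ρ * t) : 2 * hb ρ * t ≤ hb (ρ * t) :=
  S3_piece (ρ0 := 8023 / 10000) (ρ1 := 1611 / 2000) (τ := 61 / 80) (by norm_num) h1 h2 (by norm_num)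
    (by norm_num) (by norm_num) ht0 ht1 h
    (by
      have a := hv_34.2
      have b := hv_35.1
      norm_num at a b ⊢
      linarith)
    (by
      have c := hv_32.2
      have d := hv_36.1
      norm_num at c d ⊢
      linarith)

theorem S3_12 {ρ t : ℝ} (h1 : (1611 / 2000 : ℝ) ≤ ρ) (h2 : ρ ≤ (8089 / 10000 : ℝ)) (ht0 : 0 < t)
    (ht1 : t < 1) (h : hb t = 3 / 2 * hb ρ * t) : 2 * hb ρ * t ≤ hb (ρ * t) :=
  S3_piece (ρ0 := 1611 / 2000) (ρ1 := 8089 / 10000) (τ := 3827 / 5000) (by norm_num) h1 h2 (by norm_num)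
    (by norm_num) (by norm_num) ht0 ht1 h
    (by
      have a := hv_37.2
      have b := hv_38.1
      norm_num at a b ⊢
      linarith)
    (by
      have c := hv_35.2
      have d := hv_39.1
      norm_num at c d ⊢
      linarith)

theorem S3_13 {ρ t : ℝ} (h1 : (8089 / 10000 : ℝ) ≤ ρ) (h2 : ρ ≤ (4063 / 5000 : ℝ)) (ht0 : 0 < t)
    (ht1 : t < 1) (h : hb t = 3 / 2 * hb ρ * t) : 2 * hb ρ * t ≤ hb (ρ * t) :=
  S3_piece (ρ0 := 8089 / 10000) (ρ1 := 4063 / 5000) (τ := 7687 / 10000) (by norm_num) h1 h2 (by norm_num)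
    (by norm_num) (by norm_num) ht0 ht1 h
    (by
      have a := hv_40.2
      have b := hv_41.1
      norm_num at a b ⊢
      linarith)
    (by
      have c := hv_38.2
      have d := hv_42.1
      norm_num at c d ⊢
      linarith)

theorem S3_14 {ρ t : ℝ} (h1 : (4063 / 5000 : ℝ) ≤ ρ) (h2 : ρ ≤ (1633 / 2000 : ℝ)) (ht0 : 0 < t)
    (ht1 : t < 1) (h : hb t = 3 / 2 * hb ρ * t) : 2 * hb ρ * t ≤ hb (ρ * t) :=
  S3_piece (ρ0 := 4063 / 5000) (ρ1 := 1633 / 2000) (τ := 3861 / 5000) (by norm_num) h1 h2 (by norm_num)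
    (by norm_num) (by norm_num) ht0 ht1 h
    (by
      have a := hv_43.2
      have b := hv_44.1
      norm_num at a b ⊢
      linarith)
    (by
      have c := hv_41.2
      have d := hv_45.1
      norm_num at c d ⊢
      linarith)

theorem S3_15 {ρ t : ℝ} (h1 : (1633 / 2000 : ℝ) ≤ ρ) (h2 : ρ ≤ (8207 / 10000 : ℝ)) (ht0 : 0 < t)
    (ht1 : t < 1) (h : hb t = 3 / 2 * hb ρ * t) : 2 * hb ρ * t ≤ hb (ρ * t) :=
  S3_piece (ρ0 := 1633 / 2000) (ρ1 := 8207 / 10000) (τ := 97 / 125) (by norm_num) h1 h2 (by norm_num)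
    (by norm_num) (by norm_num) ht0 ht1 h
    (by
      have a := hv_46.2
      have b := hv_47.1
      norm_num at a b ⊢
      linarith)
    (by
      have c := hv_44.2
      have d := hv_48.1
      norm_num at c d ⊢
      linarith)

theorem S3_16 {ρ t : ℝ} (h1 : (8207 / 10000 : ℝ) ≤ ρ) (h2 : ρ ≤ (8251 / 10000 : ℝ)) (ht0 : 0 < t)
    (ht1 : t < 1) (h : hb t = 3 / 2 * hb ρ * t) : 2 * hb ρ * t ≤ hb (ρ * t) :=
  S3_piece (ρ0 := 8207 / 10000) (ρ1 := 8251 / 10000) (τ := 7801 / 10000) (by norm_num) h1 h2 (by norm_num)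
    (by norm_num) (by norm_num) ht0 ht1 h
    (by
      have a := hv_49.2
      have b := hv_50.1
      norm_num at a b ⊢
      linarith)
    (by
      have c := hv_47.2
      have d := hv_51.1
      norm_num at c d ⊢
      linarith)

theorem S3_17 {ρ t : ℝ} (h1 : (8251 / 10000 : ℝ) ≤ ρ) (h2 : ρ ≤ (4149 / 5000 : ℝ)) (ht0 : 0 < t)
    (ht1 : t < 1) (h : hb t = 3 / 2 * hb ρ * t) : 2 * hb ρ * t ≤ hb (ρ * t) :=
  S3_piece (ρ0 := 8251 / 10000) (ρ1 := 4149 / 5000) (τ := 1961 / 2500) (by norm_num) h1 h2 (by norm_num)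
    (by norm_num) (by norm_num) ht0 ht1 h
    (by
      have a := hv_52.2
      have b := hv_53.1
      norm_num at a b ⊢
      linarith)
    (by
      have c := hv_50.2
      have d := hv_54.1
      norm_num at c d ⊢
      linarith)

theorem S3_18 {ρ t : ℝ} (h1 : (4149 / 5000 : ℝ) ≤ ρ) (h2 : ρ ≤ (2087 / 2500 : ℝ)) (ht0 : 0 < t)
    (ht1 : t < 1) (h : hb t = 3 / 2 * hb ρ * t) : 2 * hb ρ * t ≤ hb (ρ * t) :=
  S3_piece (ρ0 := 4149 / 5000) (ρ1 := 2087 / 2500) (τ := 1973 / 2500) (by norm_num) h1 h2 (by norm_num)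
    (by norm_num) (by norm_num) ht0 ht1 h
    (by
      have a := hv_55.2
      have b := hv_56.1
      norm_num at a b ⊢
      linarith)
    (by
      have c := hv_53.2
      have d := hv_57.1
      norm_num at c d ⊢
      linarith)

theorem S3_19 {ρ t : ℝ} (h1 : (2087 / 2500 : ℝ) ≤ ρ) (h2 : ρ ≤ (8401 / 10000 : ℝ)) (ht0 : 0 < t)
    (ht1 : t < 1) (h : hb t = 3 / 2 * hb ρ * t) : 2 * hb ρ * t ≤ hb (ρ * t) :=
  S3_piece (ρ0 := 2087 / 2500) (ρ1 := 8401 / 10000) (τ := 7943 / 10000) (by norm_num) h1 h2 (by norm_num)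
    (by norm_num) (by norm_num) ht0 ht1 h
    (by
      have a := hv_58.2
      have b := hv_59.1
      norm_num at a b ⊢
      linarith)
    (by
      have c := hv_56.2
      have d := hv_60.1
      norm_num at c d ⊢
      linarith)

theorem S3_20 {ρ t : ℝ} (h1 : (8401 / 10000 : ℝ) ≤ ρ) (h2 : ρ ≤ (1057 / 1250 : ℝ)) (ht0 : 0 < t)
    (ht1 : t < 1) (h : hb t = 3 / 2 * hb ρ * t) : 2 * hb ρ * t ≤ hb (ρ * t) :=
  S3_piece (ρ0 := 8401 / 10000) (ρ1 := 1057 / 1250) (τ := 7997 / 10000) (by norm_num) h1 h2 (by norm_num)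
    (by norm_num) (by norm_num) ht0 ht1 h
    (by
      have a := hv_61.2
      have b := hv_62.1
      norm_num at a b ⊢
      linarith)
    (by
      have c := hv_59.2
      have d := hv_63.1
      norm_num at c d ⊢
      linarith)

theorem S3_21 {ρ t : ℝ} (h1 : (1057 / 1250 : ℝ) ≤ ρ) (h2 : ρ ≤ (4257 / 5000 : ℝ)) (ht0 : 0 < t)
    (ht1 : t < 1) (h : hb t = 3 / 2 * hb ρ * t) : 2 * hb ρ * t ≤ hb (ρ * t) :=
  S3_piece (ρ0 := 1057 / 1250) (ρ1 := 4257 / 5000) (τ := 1007 / 1250) (by norm_num) h1 h2 (by norm_num)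
    (by norm_num) (by norm_num) ht0 ht1 h
    (by
      have a := hv_64.2
      have b := hv_65.1
      norm_num at a b ⊢
      linarith)
    (by
      have c := hv_62.2
      have d := hv_66.1
      norm_num at c d ⊢
      linarith)

theorem S3_22 {ρ t : ℝ} (h1 : (4257 / 5000 : ℝ) ≤ ρ) (h2 : ρ ≤ (4287 / 5000 : ℝ)) (ht0 : 0 < t)
    (ht1 : t < 1) (h : hb t = 3 / 2 * hb ρ * t) : 2 * hb ρ * t ≤ hb (ρ * t) :=
  S3_piece (ρ0 := 4257 / 5000) (ρ1 := 4287 / 5000) (τ := 8117 / 10000) (by norm_num) h1 h2 (by norm_num)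
    (by norm_num) (by norm_num) ht0 ht1 h
    (by
      have a := hv_67.2
      have b := hv_68.1
      norm_num at a b ⊢
      linarith)
    (by
      have c := hv_65.2
      have d := hv_69.1
      norm_num at c d ⊢
      linarith)

theorem S3_23 {ρ t : ℝ} (h1 : (4287 / 5000 : ℝ) ≤ ρ) (h2 : ρ ≤ (8637 / 10000 : ℝ)) (ht0 : 0 < t)
    (ht1 : t < 1) (h : hb t = 3 / 2 * hb ρ * t) : 2 * hb ρ * t ≤ hb (ρ * t) :=
  S3_piece (ρ0 := 4287 / 5000) (ρ1 := 8637 / 10000) (τ := 8183 / 10000) (by norm_num) h1 h2 (by norm_num)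
    (by norm_num) (by norm_num) ht0 ht1 h
    (by
      have a := hv_70.2
      have b := hv_71.1
      norm_num at a b ⊢
      linarith)
    (by
      have c := hv_68.2
      have d := hv_72.1
      norm_num at c d ⊢
      linarith)

theorem S3_24 {ρ t : ℝ} (h1 : (8637 / 10000 : ℝ) ≤ ρ) (h2 : ρ ≤ (4351 / 5000 : ℝ)) (ht0 : 0 < t)
    (ht1 : t < 1) (h : hb t = 3 / 2 * hb ρ * t) : 2 * hb ρ * t ≤ hb (ρ * t) :=
  S3_piece (ρ0 := 8637 / 10000) (ρ1 := 4351 / 5000) (τ := 2063 / 2500) (by norm_num) h1 h2 (by norm_num)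
    (by norm_num) (by norm_num) ht0 ht1 h
    (by
      have a := hv_73.2
      have b := hv_74.1
      norm_num at a b ⊢
      linarith)
    (by
      have c := hv_71.2
      have d := hv_75.1
      norm_num at c d ⊢
      linarith)

theorem S3_25 {ρ t : ℝ} (h1 : (4351 / 5000 : ℝ) ≤ ρ) (h2 : ρ ≤ (548 / 625 : ℝ)) (ht0 : 0 < t)
    (ht1 : t < 1) (h : hb t = 3 / 2 * hb ρ * t) : 2 * hb ρ * t ≤ hb (ρ * t) :=
  S3_piece (ρ0 := 4351 / 5000) (ρ1 := 548 / 625) (τ := 333 / 400) (by norm_num) h1 h2 (by norm_num)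
    (by norm_num) (by norm_num) ht0 ht1 h
    (by
      have a := hv_76.2
      have b := hv_77.1
      norm_num at a b ⊢
      linarith)
    (by
      have c := hv_74.2
      have d := hv_78.1
      norm_num at c d ⊢
      linarith)

theorem S3_26 {ρ t : ℝ} (h1 : (548 / 625 : ℝ) ≤ ρ) (h2 : ρ ≤ (2209 / 2500 : ℝ)) (ht0 : 0 < t)
    (ht1 : t < 1) (h : hb t = 3 / 2 * hb ρ * t) : 2 * hb ρ * t ≤ hb (ρ * t) :=
  S3_piece (ρ0 := 548 / 625) (ρ1 := 2209 / 2500) (τ := 8401 / 10000) (by norm_num) h1 h2 (by norm_num)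
    (by norm_num) (by norm_num) ht0 ht1 h
    (by
      have a := hv_59.2
      have b := hv_79.1
      norm_num at a b ⊢
      linarith)
    (by
      have c := hv_77.2
      have d := hv_80.1
      norm_num at c d ⊢
      linarith)

theorem S3_27 {ρ t : ℝ} (h1 : (2209 / 2500 : ℝ) ≤ ρ) (h2 : ρ ≤ (1781 / 2000 : ℝ)) (ht0 : 0 < t)
    (ht1 : t < 1) (h : hb t = 3 / 2 * hb ρ * t) : 2 * hb ρ * t ≤ hb (ρ * t) :=
  S3_piece (ρ0 := 2209 / 2500) (ρ1 := 1781 / 2000) (τ := 106 / 125) (by norm_num) h1 h2 (by norm_num)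
    (by norm_num) (by norm_num) ht0 ht1 h
    (by
      have a := hv_81.2
      have b := hv_82.1
      norm_num at a b ⊢
      linarith)
    (by
      have c := hv_79.2
      have d := hv_83.1
      norm_num at c d ⊢
      linarith)

theorem S3_28 {ρ t : ℝ} (h1 : (1781 / 2000 : ℝ) ≤ ρ) (h2 : ρ ≤ (4487 / 5000 : ℝ)) (ht0 : 0 < t)
    (ht1 : t < 1) (h : hb t = 3 / 2 * hb ρ * t) : 2 * hb ρ * t ≤ hb (ρ * t) :=
  S3_piece (ρ0 := 1781 / 2000) (ρ1 := 4487 / 5000) (τ := 4281 / 5000) (by norm_num) h1 h2 (by norm_num)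
    (by norm_num) (by norm_num) ht0 ht1 h
    (by
      have a := hv_84.2
      have b := hv_85.1
      norm_num at a b ⊢
      linarith)
    (by
      have c := hv_82.2
      have d := hv_86.1
      norm_num at c d ⊢
      linarith)

theorem S3_29 {ρ t : ℝ} (h1 : (4487 / 5000 : ℝ) ≤ ρ) (h2 : ρ ≤ (2261 / 2500 : ℝ)) (ht0 : 0 < t)
    (ht1 : t < 1) (h : hb t = 3 / 2 * hb ρ * t) : 2 * hb ρ * t ≤ hb (ρ * t) :=
  S3_piece (ρ0 := 4487 / 5000) (ρ1 := 2261 / 2500) (τ := 1729 / 2000) (by norm_num) h1 h2 (by norm_num)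
    (by norm_num) (by norm_num) ht0 ht1 h
    (by
      have a := hv_87.2
      have b := hv_88.1
      norm_num at a b ⊢
      linarith)
    (by
      have c := hv_85.2
      have d := hv_89.1
      norm_num at c d ⊢
      linarith)

theorem S3_30 {ρ t : ℝ} (h1 : (2261 / 2500 : ℝ) ≤ ρ) (h2 : ρ ≤ (9113 / 10000 : ℝ)) (ht0 : 0 < t)
    (ht1 : t < 1) (h : hb t = 3 / 2 * hb ρ * t) : 2 * hb ρ * t ≤ hb (ρ * t) :=
  S3_piece (ρ0 := 2261 / 2500) (ρ1 := 9113 / 10000) (τ := 8731 / 10000) (by norm_num) h1 h2 (by norm_num)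
    (by norm_num) (by norm_num) ht0 ht1 h
    (by
      have a := hv_90.2
      have b := hv_91.1
      norm_num at a b ⊢
      linarith)
    (by
      have c := hv_88.2
      have d := hv_92.1
      norm_num at c d ⊢
      linarith)

theorem S3_31 {ρ t : ℝ} (h1 : (9113 / 10000 : ℝ) ≤ ρ) (h2 : ρ ≤ (4591 / 5000 : ℝ)) (ht0 : 0 < t)
    (ht1 : t < 1) (h : hb t = 3 / 2 * hb ρ * t) : 2 * hb ρ * t ≤ hb (ρ * t) :=
  S3_piece (ρ0 := 9113 / 10000) (ρ1 := 4591 / 5000) (τ := 8817 / 10000) (by norm_num) h1 h2 (by norm_num)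
    (by norm_num) (by norm_num) ht0 ht1 h
    (by
      have a := hv_93.2
      have b := hv_94.1
      norm_num at a b ⊢
      linarith)
    (by
      have c := hv_91.2
      have d := hv_95.1
      norm_num at c d ⊢
      linarith)

theorem S3_32 {ρ t : ℝ} (h1 : (4591 / 5000 : ℝ) ≤ ρ) (h2 : ρ ≤ (9249 / 10000 : ℝ)) (ht0 : 0 < t)
    (ht1 : t < 1) (h : hb t = 3 / 2 * hb ρ * t) : 2 * hb ρ * t ≤ hb (ρ * t) :=
  S3_piece (ρ0 := 4591 / 5000) (ρ1 := 9249 / 10000) (τ := 1113 / 1250) (by norm_num) h1 h2 (by norm_num)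
    (by norm_num) (by norm_num) ht0 ht1 h
    (by
      have a := hv_96.2
      have b := hv_97.1
      norm_num at a b ⊢
      linarith)
    (by
      have c := hv_94.2
      have d := hv_98.1
      norm_num at c d ⊢
      linarith)

theorem S3_33 {ρ t : ℝ} (h1 : (9249 / 10000 : ℝ) ≤ ρ) (h2 : ρ ≤ (1863 / 2000 : ℝ)) (ht0 : 0 < t)
    (ht1 : t < 1) (h : hb t = 3 / 2 * hb ρ * t) : 2 * hb ρ * t ≤ hb (ρ * t) :=
  S3_piece (ρ0 := 9249 / 10000) (ρ1 := 1863 / 2000) (τ := 8991 / 10000) (by norm_num) h1 h2 (by norm_num)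
    (by norm_num) (by norm_num) ht0 ht1 h
    (by
      have a := hv_99.2
      have b := hv_100.1
      norm_num at a b ⊢
      linarith)
    (by
      have c := hv_97.2
      have d := hv_101.1
      norm_num at c d ⊢
      linarith)

theorem S3_34 {ρ t : ℝ} (h1 : (1863 / 2000 : ℝ) ≤ ρ) (h2 : ρ ≤ (9379 / 10000 : ℝ)) (ht0 : 0 < t)
    (ht1 : t < 1) (h : hb t = 3 / 2 * hb ρ * t) : 2 * hb ρ * t ≤ hb (ρ * t) :=
  S3_piece (ρ0 := 1863 / 2000) (ρ1 := 9379 / 10000) (τ := 9077 / 10000) (by norm_num) h1 h2 (by norm_num)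
    (by norm_num) (by norm_num) ht0 ht1 h
    (by
      have a := hv_102.2
      have b := hv_103.1
      norm_num at a b ⊢
      linarith)
    (by
      have c := hv_100.2
      have d := hv_104.1
      norm_num at c d ⊢
      linarith)

theorem S3_35 {ρ t : ℝ} (h1 : (9379 / 10000 : ℝ) ≤ ρ) (h2 : ρ ≤ (118 / 125 : ℝ)) (ht0 : 0 < t)
    (ht1 : t < 1) (h : hb t = 3 / 2 * hb ρ * t) : 2 * hb ρ * t ≤ hb (ρ * t) :=
  S3_piece (ρ0 := 9379 / 10000) (ρ1 := 118 / 125) (τ := 9161 / 10000) (by norm_num) h1 h2 (by norm_num)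
    (by norm_num) (by norm_num) ht0 ht1 h
    (by
      have a := hv_105.2
      have b := hv_106.1
      norm_num at a b ⊢
      linarith)
    (by
      have c := hv_103.2
      have d := hv_107.1
      norm_num at c d ⊢
      linarith)

theorem S3_36 {ρ t : ℝ} (h1 : (118 / 125 : ℝ) ≤ ρ) (h2 : ρ ≤ (189 / 200 : ℝ)) (ht0 : 0 < t)
    (ht1 : t < 1) (h : hb t = 3 / 2 * hb ρ * t) : 2 * hb ρ * t ≤ hb (ρ * t) :=
  S3_piece (ρ0 := 118 / 125) (ρ1 := 189 / 200) (τ := 1151 / 1250) (by norm_num) h1 h2 (by norm_num)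
    (by norm_num) (by norm_num) ht0 ht1 h
    (by
      have a := hv_108.2
      have b := hv_109.1
      norm_num at a b ⊢
      linarith)
    (by
      have c := hv_106.2
      have d := hv_110.1
      norm_num at c d ⊢
      linarith)

theorem S3_mid {ρ t : ℝ} (h1 : (39 / 50 : ℝ) ≤ ρ) (h2 : ρ ≤ (189 / 200 : ℝ)) (ht0 : 0 < t)
    (ht1 : t < 1) (h : hb t = 3 / 2 * hb ρ * t) : 2 * hb ρ * t ≤ hb (ρ * t) := by
  rcases le_total ρ (7813 / 10000) with k0 | k0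
  · exact S3_0 h1 k0 ht0 ht1 h
  rcases le_total ρ (7827 / 10000) with k1 | k1
  · exact S3_1 k0 k1 ht0 ht1 h
  rcases le_total ρ (3921 / 5000) with k2 | k2
  · exact S3_2 k1 k2 ht0 ht1 h
  rcases le_total ρ (7859 / 10000) with k3 | k3
  · exact S3_3 k2 k3 ht0 ht1 h
  rcases le_total ρ (7877 / 10000) with k4 | k4
  · exact S3_4 k3 k4 ht0 ht1 h
  rcases le_total ρ (7897 / 10000) with k5 | k5
  · exact S3_5 k4 k5 ht0 ht1 h
  rcases le_total ρ (7919 / 10000) with k6 | k6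
  · exact S3_6 k5 k6 ht0 ht1 h
  rcases le_total ρ (3971 / 5000) with k7 | k7
  · exact S3_7 k6 k7 ht0 ht1 h
  rcases le_total ρ (7967 / 10000) with k8 | k8
  · exact S3_8 k7 k8 ht0 ht1 h
  rcases le_total ρ (3997 / 5000) with k9 | k9
  · exact S3_9 k8 k9 ht0 ht1 h
  rcases le_total ρ (8023 / 10000) with k10 | k10
  · exact S3_10 k9 k10 ht0 ht1 h
  rcases le_total ρ (1611 / 2000) with k11 | k11
  · exact S3_11 k10 k11 ht0 ht1 h
  rcases le_total ρ (8089 / 10000) with k12 | k12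
  · exact S3_12 k11 k12 ht0 ht1 h
  rcases le_total ρ (4063 / 5000) with k13 | k13
  · exact S3_13 k12 k13 ht0 ht1 h
  rcases le_total ρ (1633 / 2000) with k14 | k14
  · exact S3_14 k13 k14 ht0 ht1 h
  rcases le_total ρ (8207 / 10000) with k15 | k15
  · exact S3_15 k14 k15 ht0 ht1 h
  rcases le_total ρ (8251 / 10000) with k16 | k16
  · exact S3_16 k15 k16 ht0 ht1 h
  rcases le_total ρ (4149 / 5000) with k17 | k17
  · exact S3_17 k16 k17 ht0 ht1 h
  rcases le_total ρ (2087 / 2500) with k18 | k18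
  · exact S3_18 k17 k18 ht0 ht1 h
  rcases le_total ρ (8401 / 10000) with k19 | k19
  · exact S3_19 k18 k19 ht0 ht1 h
  rcases le_total ρ (1057 / 1250) with k20 | k20
  · exact S3_20 k19 k20 ht0 ht1 h
  rcases le_total ρ (4257 / 5000) with k21 | k21
  · exact S3_21 k20 k21 ht0 ht1 h
  rcases le_total ρ (4287 / 5000) with k22 | k22
  · exact S3_22 k21 k22 ht0 ht1 h
  rcases le_total ρ (8637 / 10000) with k23 | k23
  · exact S3_23 k22 k23 ht0 ht1 h
  rcases le_total ρ (4351 / 5000) with k24 | k24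
  · exact S3_24 k23 k24 ht0 ht1 h
  rcases le_total ρ (548 / 625) with k25 | k25
  · exact S3_25 k24 k25 ht0 ht1 h
  rcases le_total ρ (2209 / 2500) with k26 | k26
  · exact S3_26 k25 k26 ht0 ht1 h
  rcases le_total ρ (1781 / 2000) with k27 | k27
  · exact S3_27 k26 k27 ht0 ht1 h
  rcases le_total ρ (4487 / 5000) with k28 | k28
  · exact S3_28 k27 k28 ht0 ht1 h
  rcases le_total ρ (2261 / 2500) with k29 | k29
  · exact S3_29 k28 k29 ht0 ht1 h
  rcases le_total ρ (9113 / 10000) with k30 | k30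
  · exact S3_30 k29 k30 ht0 ht1 h
  rcases le_total ρ (4591 / 5000) with k31 | k31
  · exact S3_31 k30 k31 ht0 ht1 h
  rcases le_total ρ (9249 / 10000) with k32 | k32
  · exact S3_32 k31 k32 ht0 ht1 h
  rcases le_total ρ (1863 / 2000) with k33 | k33
  · exact S3_33 k32 k33 ht0 ht1 h
  rcases le_total ρ (9379 / 10000) with k34 | k34
  · exact S3_34 k33 k34 ht0 ht1 h
  rcases le_total ρ (118 / 125) with k35 | k35
  · exact S3_35 k34 k35 ht0 ht1 h
  exact S3_36 k35 h2 ht0 ht1 h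

end S3ns

open S3ns in
/-- (S3) -/
theorem S3 {ρ t : ℝ} (h1 : (39 / 50 : ℝ) ≤ ρ) (h2 : ρ < 1) (ht0 : 0 < t)
    (ht1 : t < 1) (h : hb t = 3 / 2 * hb ρ * t) : 2 * hb ρ * t ≤ hb (ρ * t) := by
  rcases le_total ρ (945 / 1000) with k | k
  · exact S3_mid h1 (by linarith) ht0 ht1 h
  · exact S3_tail k h2 ht0 ht1 h

end Vale.Agent.P322
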