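import Vale.Agent.P322.Star1
import Vale.Agent.P322.S2
import Vale.Agent.P322.S3
import Vale.Agent.P322.Low
import Vale.Agent.P322.DictEq

/-!
# P322: (STAR) holds; the low noise range
-/

namespace Vale.Agent.P322

open Real Finset

noncomputable section

/-- (STAR) -/
theorem star_holds : ∀ ρ : ℝ, 0 < ρ → 39 / 50 ≤ ρ → ρ < 1 → ∀ t : ℝ, 0 < t → t < 1 →
    3 / 2 * hb ρ * t ≤ hb t → (hb ρ) ^ 2 * t ^ 2 ≤ hb (ρ * t) * (hb (ρ * t) - hb t) :=
  star_of SS_concave (fun _ h0 h1 h => S2 h0 h1 h) (fun _ _ h1 h2 h3 h4 h5 => S3 h1 h2 h3 h4 h5)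

end

end Vale.Agent.P322
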