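import Vale.Agent.P322.A1
import Vale.Agent.P322.A2
import Vale.Agent.P322.StarFin

/-!
# P322: the Courtade–Kumar inequality
-/

namespace Vale.Agent.P322

open Real Finset

noncomputable section

/-- The Courtade–Kumar inequality for all `0 ≤ ρ ≤ 1`. -/
theorem ck_final {ρ : ℝ} (h0 : 0 ≤ ρ) (h1 : ρ ≤ 1) {n : ℕ} (f : Cube n → Bool) :
    mutualInfo (jointLaw ((1 - ρ) / 2) f) ≤ 1 - h2 ((1 - ρ) / 2) :=
  ck_of_A_star (39 / 50)
    (fun _ hρ0 hρr _ _ _ hm hT0 hT hmT =>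
      A1_mono hρ0 hρr.le hm hT0 hT hmT (A2_holds hm hT0 hT hmT))
    (fun _ hr hρ1 => hb_le_half hr hρ1)
    star_holds h0 h1 f

end

end Vale.Agent.P322
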