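import Vale.Agent.P322.Basic

/-!
# P322: the functions `at`, `La`, `Phi` and their monotonicity properties
-/

namespace Vale.Agent.P322

open Real Finset

noncomputable section

/-- inverse hyperbolic tangent -/
def ath (t : ℝ) : ℝ := (log (1 + t) - log (1 - t)) / 2

/-- `-1/2 ln(1-t²)` -/
def La (t : ℝ) : ℝ := -log (1 - t ^ 2) / 2

/-- `ln 2 - hb s` for `|s|<1` -/
def Phi (s : ℝ) : ℝ := ((1 + s) * log (1 + s) + (1 - s) * log (1 - s)) / 2

theorem hasDerivAt_ath {t : ℝ} (h1 : -1 < t) (h2 : t < 1) : HasDerivAt ath (1 / (1 - t ^ 2)) t := by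
  have e1 : HasDerivAt (fun t : ℝ => log (1 + t)) (1 / (1 + t)) t := by
    have := ((hasDerivAt_id t).const_add 1).log (by simp; linarith)
    simpa using this
  have e2 : HasDerivAt (fun t : ℝ => log (1 - t)) (-1 / (1 - t)) t := by
    have := ((hasDerivAt_id t).const_sub 1).log (by simp; linarith)
    simpa using this
  have := (e1.sub e2).div_const 2
  have e : (1 / (1 + t) - -1 / (1 - t)) / 2 = 1 / (1 - t ^ 2) := by
    have : 1 + t ≠ 0 := by linarith
    have : 1 - t ≠ 0 := by linarith
    have : 1 - t ^ 2 ≠ 0 := by nlinarith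
    field_simp
    ring
  rw [e] at this
  exact this

theorem one_sub_sq_pos {t : ℝ} (h1 : -1 < t) (h2 : t < 1) : 0 < 1 - t ^ 2 := by nlinarith

theorem hasDerivAt_La {t : ℝ} (h1 : -1 < t) (h2 : t < 1) : HasDerivAt La (t / (1 - t ^ 2)) t := by
  have hp := one_sub_sq_pos h1 h2
  have e1 : HasDerivAt (fun t : ℝ => 1 - t ^ 2) (-(2 * t)) t := by
    have := ((hasDerivAt_id t).pow 2).const_sub 1
    simpa using this
  have := ((e1.log hp.ne').neg).div_const 2
  have e : -(-(2 * t) / (1 - t ^ 2)) / 2 = t / (1 - t ^ 2) := by ring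
  rw [e] at this
  exact this

theorem hasDerivAt_Phi {t : ℝ} (h1 : -1 < t) (h2 : t < 1) : HasDerivAt Phi (ath t) t := by
  have p1 : (1 : ℝ) + t ≠ 0 := by linarith
  have p2 : (1 : ℝ) - t ≠ 0 := by linarith
  have a1 : HasDerivAt (fun t : ℝ => 1 + t) 1 t := by
    simpa using (hasDerivAt_id t).const_add 1
  have a2 : HasDerivAt (fun t : ℝ => 1 - t) (-1) t := by
    simpa using (hasDerivAt_id t).const_sub 1
  have := ((a1.mul (a1.log p1)).add (a2.mul (a2.log p2))).div_const 2
  have e : (1 * log (1 + t) + (1 + t) * (1 / (1 + t)) + (-1 * log (1 - t) + (1 - t) * (-1 / (1 - t)))) / 2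
      = ath t := by
    unfold ath
    field_simp
    ring
  rw [e] at this
  exact this

theorem hb_eq_log {w : ℝ} (h1 : -1 < w) (h2 : w < 1) : hb w = log 2 - Phi w := by
  unfold hb Phi
  rw [Real.binEntropy_eq_negMulLog_add_negMulLog_one_sub]
  unfold Real.negMulLog
  have e1 : 1 - (1 + w) / 2 = (1 - w) / 2 := by ring
  rw [e1, Real.log_div (by linarith) (by norm_num), Real.log_div (by linarith) (by norm_num)]
  ring

theorem Phi_eq {t : ℝ} (h1 : -1 < t) (h2 : t < 1) : Phi t = t * ath t - La t := by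
  unfold Phi ath La
  have e : (1 : ℝ) - t ^ 2 = (1 + t) * (1 - t) := by ring
  rw [e, Real.log_mul (by linarith) (by linarith)]
  ring

theorem ath_neg (t : ℝ) : ath (-t) = -ath t := by
  unfold ath
  rw [sub_neg_eq_add, ← sub_eq_add_neg]
  ring

theorem La_neg (t : ℝ) : La (-t) = La t := by
  unfold La; rw [neg_sq]

@[simp] theorem La_zero : La 0 = 0 := by simp [La]

@[simp] theorem ath_zero : ath 0 = 0 := by simp [ath]

@[simp] theorem Phi_zero : Phi 0 = 0 := by simp [Phi]

/-! ### the function `ψ(z) = -ln(1-z)` -/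

theorem psi_ge {z : ℝ} (h1 : z < 1) : z ≤ -log (1 - z) := by
  have := Real.log_le_sub_one_of_pos (x := 1 - z) (by linarith)
  linarith

theorem psi_pos {z : ℝ} (h0 : 0 < z) (h1 : z < 1) : 0 < -log (1 - z) :=
  lt_of_lt_of_le h0 (psi_ge h1)

/-- `k(y) = (1-y)ψ(y)/y` is nonincreasing -/
theorem k_anti {y y' : ℝ} (h0 : 0 < y) (hyy : y ≤ y') (h1 : y' < 1) :
    (1 - y') * (-log (1 - y')) / y' ≤ (1 - y) * (-log (1 - y)) / y := by
  have hanti : AntitoneOn (fun y : ℝ => (1 - y) * (-log (1 - y)) / y) (Set.Icc y y') := by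
    have hder : ∀ x ∈ Set.Icc y y', HasDerivAt (fun y : ℝ => (1 - y) * (-log (1 - y)) / y)
        ((x - (-log (1 - x))) / x ^ 2) x := by
      intro x hx
      have hx0 : x ≠ 0 := by linarith [hx.1]
      have hx1 : 1 - x ≠ 0 := by linarith [hx.2]
      have a2 : HasDerivAt (fun t : ℝ => 1 - t) (-1) x := by
        simpa using (hasDerivAt_id x).const_sub 1
      have a4 : HasDerivAt (fun t : ℝ => -log (1 - t)) (1 / (1 - x)) x := by
        refine ((a2.log hx1).neg).congr_deriv ?_
        rw [neg_div, neg_neg]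
      have a5 : HasDerivAt (fun t : ℝ => (1 - t) * (-log (1 - t)))
          (-1 * (-log (1 - x)) + (1 - x) * (1 / (1 - x))) x := a2.mul a4
      have a6 : HasDerivAt (fun t : ℝ => t) 1 x := hasDerivAt_id x
      refine (a5.div a6 hx0).congr_deriv ?_
      field_simp
      ring
    apply antitoneOn_of_deriv_nonpos (convex_Icc y y')
    · intro x hx
      exact (hder x hx).continuousAt.continuousWithinAt
    · intro x hx
      rw [interior_Icc] at hx
      exact (hder x ⟨hx.1.le, hx.2.le⟩).differentiableAt.differentiableWithinAt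
    · intro x hx
      rw [interior_Icc] at hx
      rw [(hder x ⟨hx.1.le, hx.2.le⟩).deriv]
      apply div_nonpos_of_nonpos_of_nonneg
      · have := psi_ge (z := x) (by linarith [hx.2])
        linarith
      · positivity
  exact hanti ⟨le_refl _, hyy⟩ ⟨hyy, le_refl _⟩ hyy

theorem k_le_one {y : ℝ} (h0 : 0 < y) (h1 : y < 1) : (1 - y) * (-log (1 - y)) / y ≤ 1 := by
  rw [div_le_one h0]
  -- log(1-y) ≥ 1 - 1/(1-y)
  have := Real.one_sub_inv_le_log_of_pos (x := 1 - y) (by linarith)
  have h2 : (1 - y) * (1 - (1 - y)⁻¹) ≤ (1 - y) * log (1 - y) :=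
    mul_le_mul_of_nonneg_left this (by linarith)
  have h3 : (1 - y) * (1 - (1 - y)⁻¹) = -y := by
    have : 1 - y ≠ 0 := by linarith
    field_simp
    ring
  linarith

/-- `ψ(qz)/ψ(z)` is nonincreasing in `z` -/
theorem psi_ratio {q z z' : ℝ} (hq0 : 0 < q) (hq1 : q ≤ 1) (h0 : 0 < z) (hzz : z ≤ z')
    (h1 : z' < 1) :
    log (1 - q * z') * log (1 - z) ≤ log (1 - q * z) * log (1 - z') := by
  have hanti : AntitoneOn (fun z : ℝ => log (1 - q * z) / log (1 - z)) (Set.Icc z z') := by
    have hder : ∀ x ∈ Set.Icc z z', HasDerivAt (fun z : ℝ => log (1 - q * z) / log (1 - z))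
        (((-q / (1 - q * x)) * log (1 - x) - log (1 - q * x) * (-1 / (1 - x))) /
          (log (1 - x)) ^ 2) x := by
      intro x hx
      have hx0 : 0 < x := by linarith [hx.1]
      have hx1 : 1 - x ≠ 0 := by linarith [hx.2]
      have hqx : 1 - q * x ≠ 0 := by nlinarith [hx.2]
      have a2 : HasDerivAt (fun t : ℝ => 1 - t) (-1) x := by
        simpa using (hasDerivAt_id x).const_sub 1
      have a3 : HasDerivAt (fun t : ℝ => 1 - q * t) (-q) x := by
        have := ((hasDerivAt_id x).const_mul q).const_sub 1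
        simpa using this
      have hl : log (1 - x) ≠ 0 := by
        have := psi_pos hx0 (by linarith [hx.2] : x < 1)
        linarith
      exact (a3.log hqx).div (a2.log hx1) hl
    apply antitoneOn_of_deriv_nonpos (convex_Icc z z')
    · intro x hx
      exact (hder x hx).continuousAt.continuousWithinAt
    · intro x hx
      rw [interior_Icc] at hx
      exact (hder x ⟨hx.1.le, hx.2.le⟩).differentiableAt.differentiableWithinAt
    · intro x hx
      rw [interior_Icc] at hx
      rw [(hder x ⟨hx.1.le, hx.2.le⟩).deriv]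
      apply div_nonpos_of_nonpos_of_nonneg _ (sq_nonneg _)
      have hx0 : 0 < x := by linarith [hx.1]
      have hx1 : 0 < 1 - x := by linarith [hx.2]
      have hqx : 0 < 1 - q * x := by nlinarith [hx.2]
      have hqx0 : 0 < q * x := by positivity
      have hk := k_anti (y := q * x) (y' := x) hqx0 (by nlinarith) (by linarith)
      rw [div_le_div_iff₀ hx0 hqx0] at hk
      have hk' : (1 - x) * (-log (1 - x)) * q ≤ (1 - q * x) * (-log (1 - q * x)) := by
        have : (1 - x) * (-log (1 - x)) * (q * x) = ((1 - x) * (-log (1 - x)) * q) * x := by ring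
        rw [this] at hk
        exact le_of_mul_le_mul_right hk hx0
      have e : (-q / (1 - q * x)) * log (1 - x) - log (1 - q * x) * (-1 / (1 - x)) =
          ((1 - x) * (-log (1 - x)) * q - (1 - q * x) * (-log (1 - q * x))) /
            ((1 - q * x) * (1 - x)) := by
        field_simp
      rw [e]
      apply div_nonpos_of_nonpos_of_nonneg
      · linarith
      · positivity
  have := hanti ⟨le_refl _, hzz⟩ ⟨hzz, le_refl _⟩ hzz
  simp only at this
  have n1 : log (1 - z) < 0 := by
    have := psi_pos h0 (by linarith : z < 1); linarith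
  have n2 : log (1 - z') < 0 := by
    have := psi_pos (by linarith : 0 < z') h1; linarith
  rw [div_le_iff_of_neg n2] at this
  have h3 := mul_le_mul_of_nonpos_right this n1.le
  have e : log (1 - q * z) / log (1 - z) * log (1 - z') * log (1 - z) =
      log (1 - q * z) * log (1 - z') := by
    have n1' : log (1 - z) ≠ 0 := n1.ne
    field_simp
  rw [e] at h3
  exact h3

end

end Vale.Agent.P322
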