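import Vale.Agent.P322.Fun

/-!
# P322: Lemma K
-/

namespace Vale.Agent.P322

open Real Finset

noncomputable section

/-- `λ(t) = g Λ(t) - Λ(ρt)` -/
def la (ρ g t : ℝ) : ℝ := g * La t - La (ρ * t)

/-- `ω(s) = g Φ(s) - Φ(ρs)` -/
def om (ρ g s : ℝ) : ℝ := g * Phi s - Phi (ρ * s)

/-- `w = ω'` -/
def ww (ρ g t : ℝ) : ℝ := g * ath t - ρ * ath (ρ * t)

/-- `G = ω''` -/
def GG (ρ g t : ℝ) : ℝ := g / (1 - t ^ 2) - ρ ^ 2 / (1 - ρ ^ 2 * t ^ 2)

variable {ρ g : ℝ}

theorem rho_mul_lt {t : ℝ} (hρ0 : 0 < ρ) (hρ1 : ρ ≤ 1) (h1 : -1 < t) (h2 : t < 1) :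
    -1 < ρ * t ∧ ρ * t < 1 := by
  constructor
  · nlinarith
  · nlinarith

theorem hasDerivAt_la (hρ0 : 0 < ρ) (hρ1 : ρ ≤ 1) {t : ℝ} (h1 : -1 < t) (h2 : t < 1) :
    HasDerivAt (la ρ g) (t * GG ρ g t) t := by
  obtain ⟨h3, h4⟩ := rho_mul_lt hρ0 hρ1 h1 h2
  have e1 := (hasDerivAt_La h1 h2).const_mul g
  have e2 : HasDerivAt (fun t => La (ρ * t)) ((ρ * t / (1 - (ρ * t) ^ 2)) * ρ) t := by
    have hin : HasDerivAt (fun t : ℝ => ρ * t) ρ t := by
      simpa using (hasDerivAt_id t).const_mul ρ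
    exact (hasDerivAt_La h3 h4).comp t hin
  refine (e1.sub e2).congr_deriv ?_
  unfold GG
  rw [mul_pow]
  ring

theorem hasDerivAt_om (hρ0 : 0 < ρ) (hρ1 : ρ ≤ 1) {t : ℝ} (h1 : -1 < t) (h2 : t < 1) :
    HasDerivAt (om ρ g) (ww ρ g t) t := by
  obtain ⟨h3, h4⟩ := rho_mul_lt hρ0 hρ1 h1 h2
  have e1 := (hasDerivAt_Phi h1 h2).const_mul g
  have e2 : HasDerivAt (fun t => Phi (ρ * t)) (ath (ρ * t) * ρ) t := by
    have hin : HasDerivAt (fun t : ℝ => ρ * t) ρ t := by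
      simpa using (hasDerivAt_id t).const_mul ρ
    exact (hasDerivAt_Phi h3 h4).comp t hin
  refine (e1.sub e2).congr_deriv ?_
  unfold ww
  ring

theorem hasDerivAt_ww (hρ0 : 0 < ρ) (hρ1 : ρ ≤ 1) {t : ℝ} (h1 : -1 < t) (h2 : t < 1) :
    HasDerivAt (ww ρ g) (GG ρ g t) t := by
  obtain ⟨h3, h4⟩ := rho_mul_lt hρ0 hρ1 h1 h2
  have e1 := (hasDerivAt_ath h1 h2).const_mul g
  have e2 : HasDerivAt (fun t => ρ * ath (ρ * t)) (ρ * ((1 / (1 - (ρ * t) ^ 2)) * ρ)) t := by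
    have hin : HasDerivAt (fun t : ℝ => ρ * t) ρ t := by
      simpa using (hasDerivAt_id t).const_mul ρ
    exact ((hasDerivAt_ath h3 h4).comp t hin).const_mul ρ
  refine (e1.sub e2).congr_deriv ?_
  unfold GG
  rw [mul_pow]
  ring

theorem mul_ww_sub_om (hρ0 : 0 < ρ) (hρ1 : ρ ≤ 1) {t : ℝ} (h1 : -1 < t) (h2 : t < 1) :
    t * ww ρ g t - om ρ g t = la ρ g t := by
  obtain ⟨h3, h4⟩ := rho_mul_lt hρ0 hρ1 h1 h2
  unfold ww om la
  rw [Phi_eq h1 h2, Phi_eq h3 h4]
  ring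

theorem La_pos {t : ℝ} (h0 : 0 < t) (h1 : t < 1) : 0 < La t := by
  unfold La
  have := psi_pos (z := t ^ 2) (by positivity) (by nlinarith)
  linarith

theorem La_nonneg {t : ℝ} (h0 : -1 < t) (h1 : t < 1) : 0 ≤ La t := by
  unfold La
  have := psi_ge (z := t ^ 2) (by nlinarith)
  nlinarith [sq_nonneg t]

/-- `2λ(t) ≤ t² ω''(t)` when `λ(t) ≥ 0` -/
theorem two_la_le (hρ0 : 0 < ρ) (hρ1 : ρ ≤ 1) {t : ℝ} (h0 : 0 < t) (h1 : t < 1)
    (hla : 0 ≤ la ρ g t) : 2 * la ρ g t ≤ t ^ 2 * GG ρ g t := by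
  set z := t ^ 2 with hz
  set z' := ρ ^ 2 * t ^ 2 with hz'
  have hz0 : 0 < z := by positivity
  have hz1 : z < 1 := by rw [hz]; nlinarith
  have hz'0 : 0 < z' := by positivity
  have hq : ρ ^ 2 ≤ 1 := by nlinarith
  have hzz : z' ≤ z := by rw [hz', hz]; exact mul_le_of_le_one_left (sq_nonneg t) hq
  have hz'1 : z' < 1 := lt_of_le_of_lt hzz hz1
  set P := -log (1 - z) with hP
  set P' := -log (1 - z') with hP'
  have hPpos : 0 < P := psi_pos hz0 hz1
  have hP'pos : 0 < P' := psi_pos hz'0 hz'1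
  have hk := k_anti hz'0 hzz hz1
  have hk1 := k_le_one hz'0 hz'1
  rw [← hP, ← hP'] at hk
  rw [← hP'] at hk1
  set K := (1 - z) * P / z with hK
  set K' := (1 - z') * P' / z' with hK'
  have hKpos : 0 < K := by
    rw [hK]; apply div_pos (mul_pos (by linarith) hPpos) hz0
  have hK'pos : 0 < K' := by
    rw [hK']; apply div_pos (mul_pos (by linarith) hP'pos) hz'0
  have e1 : 2 * la ρ g t = g * P - P' := by
    unfold la La
    rw [mul_pow, ← hz, ← hz', hP, hP']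
    ring
  have e2 : t ^ 2 * GG ρ g t = g * P / K - P' / K' := by
    unfold GG
    rw [← hz, ← hz', hK, hK']
    have n1 : (1 : ℝ) - z ≠ 0 := by linarith
    have n2 : (1 : ℝ) - z' ≠ 0 := by linarith
    have n3 : z ≠ 0 := hz0.ne'
    have n4 : z' ≠ 0 := hz'0.ne'
    have n5 : P ≠ 0 := hPpos.ne'
    have n6 : P' ≠ 0 := hP'pos.ne'
    have e3 : z' = ρ ^ 2 * z := by rw [hz', hz]
    field_simp
    rw [e3]
    ring
  rw [e1, e2]
  have hnn : 0 ≤ g * P - P' := by rw [← e1]; linarith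
  have hKK : P' / K' ≤ P' / K := by
    apply div_le_div_of_nonneg_left hP'pos.le hKpos hk
  have hK1 : K ≤ 1 := le_trans hk hk1
  have h3 : g * P - P' ≤ (g * P - P') / K := by
    rw [le_div_iff₀ hKpos]
    nlinarith
  have h4 : (g * P - P') / K = g * P / K - P' / K := by rw [sub_div]
  linarith

theorem psi_convex {z z' : ℝ} (h0 : 0 < z) (hzz : z ≤ z') (h1 : z' < 1) :
    -log (1 - z) * z' ≤ -log (1 - z') * z := by
  have hz' : 0 < z' := by linarith
  have hc := strictConcaveOn_log_Ioi.concaveOn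
  have hx1 : (1 - z') ∈ Set.Ioi (0:ℝ) := by simp only [Set.mem_Ioi]; linarith
  have hy1 : (1:ℝ) ∈ Set.Ioi (0:ℝ) := by simp
  have ha1 : 0 ≤ z / z' := by positivity
  have hb1 : 0 ≤ 1 - z / z' := by rw [sub_nonneg, div_le_one hz']; exact hzz
  have h3 := hc.2 hx1 hy1 ha1 hb1 (by ring)
  simp only [smul_eq_mul, mul_one, Real.log_one, mul_zero, add_zero] at h3
  have e : z / z' * (1 - z') + (1 - z / z') = 1 - z := by
    field_simp
    ring
  rw [e] at h3
  have h4 := mul_le_mul_of_nonneg_right h3 hz'.le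
  have e2 : z / z' * log (1 - z') * z' = z * log (1 - z') := by
    field_simp
  rw [e2] at h4
  linarith

/-- growth of `λ` -/
theorem la_growth (hρ0 : 0 < ρ) (hρ1 : ρ ≤ 1) {t t' : ℝ} (h0 : 0 < t) (htt : t ≤ t')
    (h1 : t' < 1) (hla : 0 ≤ la ρ g t) : t' ^ 2 * la ρ g t ≤ t ^ 2 * la ρ g t' := by
  have ht'0 : 0 < t' := by linarith
  have hzz : t ^ 2 ≤ t' ^ 2 := by nlinarith
  have hz'1 : t' ^ 2 < 1 := by nlinarith
  have h2 := psi_ratio (q := ρ ^ 2) (z := t ^ 2) (z' := t' ^ 2) (by positivity) (by nlinarith)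
    (by positivity) hzz hz'1
  have h3 := psi_convex (z := t ^ 2) (z' := t' ^ 2) (by positivity) hzz hz'1
  have e1 : log (1 - t ^ 2) = -2 * La t := by unfold La; ring
  have e2 : log (1 - t' ^ 2) = -2 * La t' := by unfold La; ring
  have e3 : log (1 - ρ ^ 2 * t ^ 2) = -2 * La (ρ * t) := by unfold La; rw [mul_pow]; ring
  have e4 : log (1 - ρ ^ 2 * t' ^ 2) = -2 * La (ρ * t') := by unfold La; rw [mul_pow]; ring
  rw [e1, e2, e3, e4] at h2
  rw [e1, e2] at h3
  have hLt : 0 < La t := La_pos h0 (by linarith)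
  have h5 : La t' * la ρ g t ≤ La t * la ρ g t' := by
    unfold la
    nlinarith
  have h6 : t' ^ 2 * La t ≤ t ^ 2 * La t' := by linarith
  have h7 : t' ^ 2 * La t * la ρ g t ≤ t ^ 2 * La t' * la ρ g t :=
    mul_le_mul_of_nonneg_right h6 hla
  have h8 : t ^ 2 * (La t' * la ρ g t) ≤ t ^ 2 * (La t * la ρ g t') :=
    mul_le_mul_of_nonneg_left h5 (by positivity)
  have h9 : La t * (t' ^ 2 * la ρ g t) ≤ La t * (t ^ 2 * la ρ g t') := by nlinarith
  exact le_of_mul_le_mul_left h9 hLt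

theorem la_mono (hρ0 : 0 < ρ) (hρ1 : ρ ≤ 1) {t t' : ℝ} (h0 : 0 < t) (htt : t ≤ t')
    (h1 : t' < 1) (hla : 0 ≤ la ρ g t) : la ρ g t ≤ la ρ g t' := by
  have h2 := la_growth hρ0 hρ1 h0 htt h1 hla
  have h3 : t ^ 2 * la ρ g t ≤ t' ^ 2 * la ρ g t :=
    mul_le_mul_of_nonneg_right (by nlinarith) hla
  have h4 : t ^ 2 * la ρ g t ≤ t ^ 2 * la ρ g t' := le_trans h3 h2
  exact le_of_mul_le_mul_left h4 (by positivity)

/-- monotonicity of `G` -/
theorem GG_mono (hρ0 : 0 < ρ) (hρ1 : ρ ≤ 1) (hg : 0 ≤ g) {t s : ℝ} (h0 : 0 ≤ t) (hts : t ≤ s)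
    (h1 : s < 1) (hG : 0 ≤ GG ρ g t) : GG ρ g t ≤ GG ρ g s := by
  unfold GG at *
  have ht : 0 < 1 - t ^ 2 := by nlinarith
  have hs : 0 < 1 - s ^ 2 := by nlinarith
  have hq : ρ ^ 2 ≤ 1 := by nlinarith
  have hρt : 0 < 1 - ρ ^ 2 * t ^ 2 := by
    have := mul_le_of_le_one_left (sq_nonneg t) hq
    linarith
  have hρs : 0 < 1 - ρ ^ 2 * s ^ 2 := by
    have := mul_le_of_le_one_left (sq_nonneg s) hq
    linarith
  -- g/(1-s²) = g/(1-t²) * (1-t²)/(1-s²), and (1-t²)/(1-s²) ≥ (1-ρ²t²)/(1-ρ²s²)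
  have hratio : (1 - ρ ^ 2 * t ^ 2) / (1 - ρ ^ 2 * s ^ 2) ≤ (1 - t ^ 2) / (1 - s ^ 2) := by
    rw [div_le_div_iff₀ hρs hs]
    have : t ^ 2 ≤ s ^ 2 := by nlinarith
    nlinarith
  have hone : 1 ≤ (1 - ρ ^ 2 * t ^ 2) / (1 - ρ ^ 2 * s ^ 2) := by
    rw [le_div_iff₀ hρs]
    have : t ^ 2 ≤ s ^ 2 := by nlinarith
    nlinarith
  set X := g / (1 - t ^ 2) with hX
  set Y := ρ ^ 2 / (1 - ρ ^ 2 * t ^ 2) with hY
  have hXnn : 0 ≤ X := by rw [hX]; positivity
  have hYnn : 0 ≤ Y := by rw [hY]; positivity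
  have e1 : g / (1 - s ^ 2) = X * ((1 - t ^ 2) / (1 - s ^ 2)) := by
    rw [hX]; field_simp
  have e2 : ρ ^ 2 / (1 - ρ ^ 2 * s ^ 2) = Y * ((1 - ρ ^ 2 * t ^ 2) / (1 - ρ ^ 2 * s ^ 2)) := by
    rw [hY]; field_simp
  rw [e1, e2]
  set a := (1 - t ^ 2) / (1 - s ^ 2)
  set b := (1 - ρ ^ 2 * t ^ 2) / (1 - ρ ^ 2 * s ^ 2)
  have h5 : X * b ≤ X * a := mul_le_mul_of_nonneg_left hratio hXnn
  have h6 : (X - Y) * 1 ≤ (X - Y) * b := mul_le_mul_of_nonneg_left hone hG
  nlinarith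

/-! ### the minimum on a ray -/

theorem log_ratio {r r' : ℝ} (h0 : 0 < r) (hrr : r ≤ r') :
    r * log (1 + r') ≤ r' * log (1 + r) := by
  have hr' : 0 < r' := by linarith
  have hc := strictConcaveOn_log_Ioi.concaveOn
  have hx1 : (1 + r') ∈ Set.Ioi (0:ℝ) := by simp only [Set.mem_Ioi]; linarith
  have hy1 : (1:ℝ) ∈ Set.Ioi (0:ℝ) := by simp
  have ha1 : 0 ≤ r / r' := by positivity
  have hb1 : 0 ≤ 1 - r / r' := by rw [sub_nonneg, div_le_one hr']; exact hrr
  have h3 := hc.2 hx1 hy1 ha1 hb1 (by ring)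
  simp only [smul_eq_mul, mul_one, Real.log_one, mul_zero, add_zero] at h3
  have e : r / r' * (1 + r') + (1 - r / r') = 1 + r := by
    field_simp
    ring
  rw [e] at h3
  have h4 := mul_le_mul_of_nonneg_right h3 hr'.le
  have e2 : r / r' * log (1 + r') * r' = r * log (1 + r') := by
    field_simp
  rw [e2] at h4
  linarith

/-- the function on the ray of direction `s` from the apex -/
def MM (ρ g s r : ℝ) : ℝ :=
  (1 - g) * ((1 + r) / r * log (1 + r) - log r) + om ρ g (r * s) / r + om ρ g s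

theorem hasDerivAt_MM (hρ0 : 0 < ρ) (hρ1 : ρ ≤ 1) {s r : ℝ} (hs0 : 0 < s) (hr0 : 0 < r)
    (hrs : r * s < 1) :
    HasDerivAt (MM ρ g s) (-((1 - g) * log (1 + r) - la ρ g (r * s)) / r ^ 2) r := by
  have hrs0 : 0 < r * s := by positivity
  have hr : r ≠ 0 := hr0.ne'
  have hr1 : 1 + r ≠ 0 := by linarith
  have a1 : HasDerivAt (fun r : ℝ => 1 + r) 1 r := by simpa using (hasDerivAt_id r).const_add 1
  have a2 : HasDerivAt (fun r : ℝ => log (1 + r)) (1 / (1 + r)) r := a1.log hr1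
  have a3 : HasDerivAt (fun r : ℝ => (1 + r) / r) ((1 * r - (1 + r) * 1) / r ^ 2) r :=
    a1.div (hasDerivAt_id r) hr
  have a4 : HasDerivAt (fun r : ℝ => log r) (r⁻¹) r := Real.hasDerivAt_log hr
  have a5 : HasDerivAt (fun r : ℝ => r * s) s r := by simpa using (hasDerivAt_id r).mul_const s
  have a6 : HasDerivAt (fun r : ℝ => om ρ g (r * s)) (ww ρ g (r * s) * s) r := by
    have h1 : HasDerivAt (om ρ g) (ww ρ g (r * s)) (r * s) :=
      hasDerivAt_om hρ0 hρ1 (by linarith) hrs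
    exact HasDerivAt.comp (h₂ := om ρ g) (h := fun r : ℝ => r * s) r h1 a5
  have a7 : HasDerivAt (fun r : ℝ => om ρ g (r * s) / r)
      ((ww ρ g (r * s) * s * r - om ρ g (r * s) * 1) / r ^ 2) r := a6.div (hasDerivAt_id r) hr
  have := ((((a3.mul a2).sub a4).const_mul (1 - g)).add a7).add_const (om ρ g s)
  refine this.congr_deriv ?_
  have e := mul_ww_sub_om (g := g) hρ0 hρ1 (t := r * s) (by linarith) hrs
  rw [← e]
  field_simp
  ring

theorem MM_min (hρ0 : 0 < ρ) (hρ1 : ρ ≤ 1) (hg1 : g < 1) {s r r1 : ℝ} (hs0 : 0 < s)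
    (hr0 : 0 < r) (hrs : r * s < 1) (hr10 : 0 < r1) (hr1s : r1 * s < 1)
    (hst : la ρ g (r1 * s) = (1 - g) * log (1 + r1)) : MM ρ g s r1 ≤ MM ρ g s r := by
  have hlog1 : 0 < log (1 + r1) := log_pos (by linarith)
  have hla1 : 0 < la ρ g (r1 * s) := by rw [hst]; exact mul_pos (by linarith) hlog1
  rcases le_total r r1 with h | h
  · have hder : ∀ x ∈ Set.Icc r r1, HasDerivAt (MM ρ g s)
        (-((1 - g) * log (1 + x) - la ρ g (x * s)) / x ^ 2) x := by
      intro x hx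
      have hx0 : 0 < x := lt_of_lt_of_le hr0 hx.1
      exact hasDerivAt_MM hρ0 hρ1 hs0 hx0
        (lt_of_le_of_lt (mul_le_mul_of_nonneg_right hx.2 hs0.le) hr1s)
    have hanti : AntitoneOn (MM ρ g s) (Set.Icc r r1) := by
      apply antitoneOn_of_deriv_nonpos (convex_Icc r r1)
      · intro x hx
        exact (hder x hx).continuousAt.continuousWithinAt
      · intro x hx
        rw [interior_Icc] at hx
        exact (hder x ⟨hx.1.le, hx.2.le⟩).differentiableAt.differentiableWithinAt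
      · intro x hx
        rw [interior_Icc] at hx
        rw [(hder x ⟨hx.1.le, hx.2.le⟩).deriv]
        have hx0 : 0 < x := lt_trans hr0 hx.1
        apply div_nonpos_of_nonpos_of_nonneg _ (sq_nonneg _)
        have hlogx : 0 < log (1 + x) := log_pos (by linarith)
        rcases le_total (la ρ g (x * s)) 0 with hn | hn
        · have : 0 ≤ (1 - g) * log (1 + x) := mul_nonneg (by linarith) hlogx.le
          linarith
        · have h1 := la_growth (g := g) hρ0 hρ1 (t := x * s) (t' := r1 * s) (by positivity)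
            (mul_le_mul_of_nonneg_right hx.2.le hs0.le) hr1s hn
          rw [hst] at h1
          have h2 := log_ratio hx0 hx.2.le
          -- r1² s² la(xs) ≤ x² s² (1-g) log(1+r1) ≤ x s² (1-g) r1 log(1+x)
          have h3 : x ^ 2 * ((1 - g) * log (1 + r1)) ≤ x * r1 * ((1 - g) * log (1 + x)) := by
            have : 0 ≤ x * (1 - g) := mul_nonneg hx0.le (by linarith)
            nlinarith [mul_le_mul_of_nonneg_left h2 this]
          have h4 : x * r1 * ((1 - g) * log (1 + x)) ≤ r1 ^ 2 * ((1 - g) * log (1 + x)) := by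
            apply mul_le_mul_of_nonneg_right _ (mul_nonneg (by linarith) hlogx.le)
            nlinarith [hx.2]
          have h5 : s ^ 2 * (r1 ^ 2 * la ρ g (x * s)) ≤ s ^ 2 * (r1 ^ 2 * ((1 - g) * log (1 + x))) := by
            have e1 : (r1 * s) ^ 2 * la ρ g (x * s) = s ^ 2 * (r1 ^ 2 * la ρ g (x * s)) := by ring
            have e2 : (x * s) ^ 2 * ((1 - g) * log (1 + r1)) =
                s ^ 2 * (x ^ 2 * ((1 - g) * log (1 + r1))) := by ring
            rw [e1, e2] at h1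
            have := mul_le_mul_of_nonneg_left (le_trans h3 h4) (sq_nonneg s)
            linarith
          have h6 : r1 ^ 2 * la ρ g (x * s) ≤ r1 ^ 2 * ((1 - g) * log (1 + x)) :=
            le_of_mul_le_mul_left h5 (by positivity)
          have h7 : la ρ g (x * s) ≤ (1 - g) * log (1 + x) :=
            le_of_mul_le_mul_left h6 (by positivity)
          linarith
    exact hanti ⟨le_refl _, h⟩ ⟨h, le_refl _⟩ h
  · have hder : ∀ x ∈ Set.Icc r1 r, HasDerivAt (MM ρ g s)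
        (-((1 - g) * log (1 + x) - la ρ g (x * s)) / x ^ 2) x := by
      intro x hx
      have hx0 : 0 < x := lt_of_lt_of_le hr10 hx.1
      exact hasDerivAt_MM hρ0 hρ1 hs0 hx0
        (lt_of_le_of_lt (mul_le_mul_of_nonneg_right hx.2 hs0.le) hrs)
    have hmono : MonotoneOn (MM ρ g s) (Set.Icc r1 r) := by
      apply monotoneOn_of_deriv_nonneg (convex_Icc r1 r)
      · intro x hx
        exact (hder x hx).continuousAt.continuousWithinAt
      · intro x hx
        rw [interior_Icc] at hx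
        exact (hder x ⟨hx.1.le, hx.2.le⟩).differentiableAt.differentiableWithinAt
      · intro x hx
        rw [interior_Icc] at hx
        rw [(hder x ⟨hx.1.le, hx.2.le⟩).deriv]
        have hx0 : 0 < x := lt_trans hr10 hx.1
        apply div_nonneg _ (sq_nonneg _)
        have hlogx : 0 < log (1 + x) := log_pos (by linarith)
        have h1 := la_growth (g := g) hρ0 hρ1 (t := r1 * s) (t' := x * s) (by positivity)
            (mul_le_mul_of_nonneg_right hx.1.le hs0.le)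
            (lt_of_le_of_lt (mul_le_mul_of_nonneg_right hx.2.le hs0.le) hrs) hla1.le
        rw [hst] at h1
        have h2 := log_ratio hr10 hx.1.le
        have h3 : r1 * x * ((1 - g) * log (1 + x)) ≤ x ^ 2 * ((1 - g) * log (1 + r1)) := by
          have : 0 ≤ x * (1 - g) := mul_nonneg hx0.le (by linarith)
          nlinarith [mul_le_mul_of_nonneg_left h2 this]
        have h4 : r1 ^ 2 * ((1 - g) * log (1 + x)) ≤ r1 * x * ((1 - g) * log (1 + x)) := by
          apply mul_le_mul_of_nonneg_right _ (mul_nonneg (by linarith) hlogx.le)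
          nlinarith [hx.1]
        have h5 : s ^ 2 * (r1 ^ 2 * ((1 - g) * log (1 + x))) ≤ s ^ 2 * (r1 ^ 2 * la ρ g (x * s)) := by
          have e1 : (r1 * s) ^ 2 * la ρ g (x * s) = s ^ 2 * (r1 ^ 2 * la ρ g (x * s)) := by ring
          have e2 : (x * s) ^ 2 * ((1 - g) * log (1 + r1)) =
              s ^ 2 * (x ^ 2 * ((1 - g) * log (1 + r1))) := by ring
          rw [e1, e2] at h1
          have := mul_le_mul_of_nonneg_left (le_trans h4 h3) (sq_nonneg s)
          linarith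
        have h6 : r1 ^ 2 * ((1 - g) * log (1 + x)) ≤ r1 ^ 2 * la ρ g (x * s) :=
          le_of_mul_le_mul_left h5 (by positivity)
        have h7 : (1 - g) * log (1 + x) ≤ la ρ g (x * s) :=
          le_of_mul_le_mul_left h6 (by positivity)
        linarith
    exact hmono ⟨le_refl _, h⟩ ⟨h, le_refl _⟩ h

end

end Vale.Agent.P322
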