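import Vale.Agent.P322.LemmaK

/-!
# P322: Lemma K, the function `Π`
-/

namespace Vale.Agent.P322

open Real Finset

noncomputable section

variable {ρ g : ℝ}

/-- the ratio `r(t)` on the curve of tangency directions -/
def rr (ρ g t : ℝ) : ℝ := exp (la ρ g t / (1 - g)) - 1

/-- the direction `s(t) = t / r(t)` -/
def ss (ρ g t : ℝ) : ℝ := t / rr ρ g t

/-- the value at the point with parameters `(R, e)` of the tangent plane at parameter `t` -/
def PP (ρ g R e t : ℝ) : ℝ :=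
  R * (la ρ g t - (1 - g) * log (rr ρ g t) - la ρ g (ss ρ g t)) +
    e * (ww ρ g t + ww ρ g (ss ρ g t))

theorem rr_pos (hg1 : g < 1) {t : ℝ} (h : 0 < la ρ g t) : 0 < rr ρ g t := by
  unfold rr
  have : 0 < la ρ g t / (1 - g) := div_pos h (by linarith)
  have := Real.add_one_lt_exp this.ne'
  linarith

theorem log_one_add_rr (hg1 : g < 1) (t : ℝ) : (1 - g) * log (1 + rr ρ g t) = la ρ g t := by
  unfold rr
  have : (1 - g) ≠ 0 := by linarith
  rw [add_sub_cancel, log_exp]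
  field_simp

theorem rr_eq (hg1 : g < 1) {t r : ℝ} (hr : 0 < r) (h : la ρ g t = (1 - g) * log (1 + r)) :
    rr ρ g t = r := by
  unfold rr
  have : (1 - g) ≠ 0 := by linarith
  rw [h, mul_div_cancel_left₀ _ this, exp_log (by linarith)]
  ring

theorem rr_le_one (hg1 : g < 1) {t : ℝ} (h : la ρ g t ≤ (1 - g) * log 2) : rr ρ g t ≤ 1 := by
  unfold rr
  have h1 : la ρ g t / (1 - g) ≤ log 2 := by
    rw [div_le_iff₀ (by linarith)]
    linarith
  have h2 : exp (la ρ g t / (1 - g)) ≤ exp (log 2) := exp_le_exp.mpr h1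
  rw [exp_log (by norm_num)] at h2
  linarith

theorem hasDerivAt_rr (hρ0 : 0 < ρ) (hρ1 : ρ ≤ 1) {t : ℝ} (h1 : -1 < t) (h2 : t < 1) :
    HasDerivAt (rr ρ g) ((1 + rr ρ g t) * (t * GG ρ g t / (1 - g))) t := by
  have h := (((hasDerivAt_la (g := g) hρ0 hρ1 h1 h2).div_const (1 - g)).exp).sub_const 1
  refine h.congr_deriv ?_
  unfold rr
  ring

/-- the derivative of `ss` -/
def dss (ρ g t : ℝ) : ℝ :=
  (1 * rr ρ g t - t * ((1 + rr ρ g t) * (t * GG ρ g t / (1 - g)))) / (rr ρ g t) ^ 2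

theorem hasDerivAt_ss (hρ0 : 0 < ρ) (hρ1 : ρ ≤ 1) (hg1 : g < 1) {t : ℝ} (h1 : -1 < t) (h2 : t < 1)
    (hla : 0 < la ρ g t) : HasDerivAt (ss ρ g) (dss ρ g t) t :=
  (hasDerivAt_id t).div (hasDerivAt_rr hρ0 hρ1 h1 h2) (rr_pos hg1 hla).ne'

theorem dss_le (hρ0 : 0 < ρ) (hρ1 : ρ ≤ 1) (hg1 : g < 1) {t : ℝ} (h1 : 0 < t) (h2 : t < 1)
    (hla : 0 < la ρ g t) (hla2 : la ρ g t ≤ (1 - g) * log 2) : dss ρ g t ≤ -1 := by
  have hr0 := rr_pos hg1 hla
  have hr1 := rr_le_one hg1 hla2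
  unfold dss
  rw [div_le_iff₀ (by positivity)]
  have hlog := log_one_add_rr (ρ := ρ) hg1 t
  have h3 := two_la_le (g := g) hρ0 hρ1 h1 h2 hla.le
  set r := rr ρ g t with hr
  have h4 : r ≤ 2 * log (1 + r) := by
    have := Real.le_log_one_add_of_nonneg hr0.le
    have h5 : r / 2 ≤ 2 * r / (r + 2) := by
      rw [div_le_div_iff₀ (by norm_num) (by linarith)]
      nlinarith
    linarith
  have h6 : (1 - g) * r ≤ t ^ 2 * GG ρ g t := by
    have := mul_le_mul_of_nonneg_left h4 (by linarith : (0:ℝ) ≤ 1 - g)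
    linarith
  have h7 : r ≤ t ^ 2 * GG ρ g t / (1 - g) := by
    rw [le_div_iff₀ (by linarith)]
    linarith
  have h8 : (1 + r) * r ≤ (1 + r) * (t ^ 2 * GG ρ g t / (1 - g)) :=
    mul_le_mul_of_nonneg_left h7 (by linarith)
  have e : t * ((1 + r) * (t * GG ρ g t / (1 - g))) = (1 + r) * (t ^ 2 * GG ρ g t / (1 - g)) := by
    ring
  rw [e]
  nlinarith

theorem ss_anti (hρ0 : 0 < ρ) (hρ1 : ρ ≤ 1) (hg1 : g < 1) {t1 t2 : ℝ} (h1 : 0 < t1)
    (h2 : t2 < 1) (hla : 0 < la ρ g t1) (hla2 : la ρ g t2 ≤ (1 - g) * log 2) :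
    AntitoneOn (ss ρ g) (Set.Icc t1 t2) := by
  have hb : ∀ x ∈ Set.Icc t1 t2, 0 < la ρ g x ∧ la ρ g x ≤ (1 - g) * log 2 := by
    intro x hx
    have m1 := la_mono (g := g) hρ0 hρ1 h1 hx.1 (lt_of_le_of_lt hx.2 h2) hla.le
    have m2 := la_mono (g := g) hρ0 hρ1 (lt_of_lt_of_le h1 hx.1) hx.2 h2 (le_trans hla.le m1)
    exact ⟨lt_of_lt_of_le hla m1, le_trans m2 hla2⟩
  have hder : ∀ x ∈ Set.Icc t1 t2, HasDerivAt (ss ρ g) (dss ρ g x) x := by
    intro x hx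
    exact hasDerivAt_ss hρ0 hρ1 hg1 (by linarith [hx.1]) (lt_of_le_of_lt hx.2 h2) (hb x hx).1
  apply antitoneOn_of_deriv_nonpos (convex_Icc t1 t2)
  · intro x hx
    exact (hder x hx).continuousAt.continuousWithinAt
  · intro x hx
    rw [interior_Icc] at hx
    exact (hder x ⟨hx.1.le, hx.2.le⟩).differentiableAt.differentiableWithinAt
  · intro x hx
    rw [interior_Icc] at hx
    rw [(hder x ⟨hx.1.le, hx.2.le⟩).deriv]
    have := dss_le hρ0 hρ1 hg1 (lt_trans h1 hx.1) (lt_trans hx.2 h2) (hb x ⟨hx.1.le, hx.2.le⟩).1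
      (hb x ⟨hx.1.le, hx.2.le⟩).2
    linarith

theorem hasDerivAt_PP (hρ0 : 0 < ρ) (hρ1 : ρ ≤ 1) (hg1 : g < 1) (R e : ℝ) {t : ℝ} (h1 : 0 < t)
    (h2 : t < 1) (hla : 0 < la ρ g t) (hs : ss ρ g t < 1) :
    HasDerivAt (PP ρ g R e)
      ((e - R * ss ρ g t) * (GG ρ g t + GG ρ g (ss ρ g t) * dss ρ g t)) t := by
  have hr0 := rr_pos hg1 hla
  have hs0 : 0 < ss ρ g t := div_pos h1 hr0
  have d1 := hasDerivAt_la (g := g) hρ0 hρ1 (by linarith : -1 < t) h2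
  have d2 := (hasDerivAt_rr (g := g) hρ0 hρ1 (by linarith : -1 < t) h2).log hr0.ne'
  have d3 := hasDerivAt_ss hρ0 hρ1 hg1 (by linarith : -1 < t) h2 hla
  have d4 : HasDerivAt (fun x => la ρ g (ss ρ g x))
      (ss ρ g t * GG ρ g (ss ρ g t) * dss ρ g t) t :=
    HasDerivAt.comp (h₂ := la ρ g) (h := ss ρ g) t
      (hasDerivAt_la hρ0 hρ1 (by linarith) hs) d3
  have d5 := hasDerivAt_ww (g := g) hρ0 hρ1 (by linarith : -1 < t) h2
  have d6 : HasDerivAt (fun x => ww ρ g (ss ρ g x))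
      (GG ρ g (ss ρ g t) * dss ρ g t) t :=
    HasDerivAt.comp (h₂ := ww ρ g) (h := ss ρ g) t
      (hasDerivAt_ww hρ0 hρ1 (by linarith) hs) d3
  have := (((d1.sub (d2.const_mul (1 - g))).sub d4).const_mul R).add ((d5.add d6).const_mul e)
  refine this.congr_deriv ?_
  have hr : rr ρ g t ≠ 0 := hr0.ne'
  have e1 : (1 - g) * ((1 + rr ρ g t) * (t * GG ρ g t / (1 - g)) / rr ρ g t) =
      t * GG ρ g t + ss ρ g t * GG ρ g t := by
    have : (1 - g) ≠ 0 := by linarith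
    unfold ss
    field_simp
    ring
  rw [e1]
  ring

theorem PP_deriv_factor (hρ0 : 0 < ρ) (hρ1 : ρ ≤ 1) (hg0 : 0 ≤ g) (hg1 : g < 1) {t : ℝ}
    (h1 : 0 < t) (h2 : t < 1) (hla : 0 < la ρ g t) (hla2 : la ρ g t ≤ (1 - g) * log 2)
    (hs : ss ρ g t < 1) : GG ρ g t + GG ρ g (ss ρ g t) * dss ρ g t ≤ 0 := by
  have hr0 := rr_pos hg1 hla
  have hr1 := rr_le_one hg1 hla2
  have hd := dss_le hρ0 hρ1 hg1 h1 h2 hla hla2
  have hG : 0 ≤ GG ρ g t := by
    have := two_la_le (g := g) hρ0 hρ1 h1 h2 hla.le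
    have h3 : 0 ≤ t ^ 2 * GG ρ g t := by linarith
    by_contra hneg
    push Not at hneg
    have : t ^ 2 * GG ρ g t < 0 := mul_neg_of_pos_of_neg (by positivity) hneg
    linarith
  have hts : t ≤ ss ρ g t := by
    unfold ss
    rw [le_div_iff₀ hr0]
    nlinarith
  have hG2 := GG_mono hρ0 hρ1 hg0 h1.le hts hs hG
  nlinarith

theorem PP_mono_le (hρ0 : 0 < ρ) (hρ1 : ρ ≤ 1) (hg0 : 0 ≤ g) (hg1 : g < 1) {R e t1 t2 : ℝ}
    (hR : 0 ≤ R) (h1 : 0 < t1) (h12 : t1 ≤ t2)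
    (h2 : t2 < 1) (hla : 0 < la ρ g t1) (hla2 : la ρ g t2 ≤ (1 - g) * log 2)
    (hs : ss ρ g t1 < 1) :
    (e ≤ R * ss ρ g t2 → PP ρ g R e t1 ≤ PP ρ g R e t2) ∧
    (R * ss ρ g t1 ≤ e → PP ρ g R e t2 ≤ PP ρ g R e t1) := by
  have hb : ∀ x ∈ Set.Icc t1 t2, 0 < la ρ g x ∧ la ρ g x ≤ (1 - g) * log 2 := by
    intro x hx
    have m1 := la_mono (g := g) hρ0 hρ1 h1 hx.1 (lt_of_le_of_lt hx.2 h2) hla.le
    have m2 := la_mono (g := g) hρ0 hρ1 (lt_of_lt_of_le h1 hx.1) hx.2 h2 (le_trans hla.le m1)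
    exact ⟨lt_of_lt_of_le hla m1, le_trans m2 hla2⟩
  have hanti := ss_anti hρ0 hρ1 hg1 h1 h2 hla hla2
  have hs' : ∀ x ∈ Set.Icc t1 t2, ss ρ g x < 1 := fun x hx =>
    lt_of_le_of_lt (hanti ⟨le_refl _, h12⟩ hx hx.1) hs
  have hder : ∀ x ∈ Set.Icc t1 t2, HasDerivAt (PP ρ g R e)
      ((e - R * ss ρ g x) * (GG ρ g x + GG ρ g (ss ρ g x) * dss ρ g x)) x := by
    intro x hx
    exact hasDerivAt_PP hρ0 hρ1 hg1 R e (lt_of_lt_of_le h1 hx.1) (lt_of_le_of_lt hx.2 h2)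
      (hb x hx).1 (hs' x hx)
  have hfac : ∀ x ∈ Set.Icc t1 t2, GG ρ g x + GG ρ g (ss ρ g x) * dss ρ g x ≤ 0 := by
    intro x hx
    exact PP_deriv_factor hρ0 hρ1 hg0 hg1 (lt_of_lt_of_le h1 hx.1) (lt_of_le_of_lt hx.2 h2)
      (hb x hx).1 (hb x hx).2 (hs' x hx)
  constructor
  · intro he
    have hmono : MonotoneOn (PP ρ g R e) (Set.Icc t1 t2) := by
      apply monotoneOn_of_deriv_nonneg (convex_Icc t1 t2)
      · intro x hx
        exact (hder x hx).continuousAt.continuousWithinAt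
      · intro x hx
        rw [interior_Icc] at hx
        exact (hder x ⟨hx.1.le, hx.2.le⟩).differentiableAt.differentiableWithinAt
      · intro x hx
        rw [interior_Icc] at hx
        have hx' : x ∈ Set.Icc t1 t2 := ⟨hx.1.le, hx.2.le⟩
        rw [(hder x hx').deriv]
        have h3 : ss ρ g t2 ≤ ss ρ g x := hanti hx' ⟨h12, le_refl _⟩ hx'.2
        have h4 : R * ss ρ g t2 ≤ R * ss ρ g x := mul_le_mul_of_nonneg_left h3 hR
        exact mul_nonneg_of_nonpos_of_nonpos (by linarith) (hfac x hx')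
    exact hmono ⟨le_refl _, h12⟩ ⟨h12, le_refl _⟩ h12
  · intro he
    have hmono : AntitoneOn (PP ρ g R e) (Set.Icc t1 t2) := by
      apply antitoneOn_of_deriv_nonpos (convex_Icc t1 t2)
      · intro x hx
        exact (hder x hx).continuousAt.continuousWithinAt
      · intro x hx
        rw [interior_Icc] at hx
        exact (hder x ⟨hx.1.le, hx.2.le⟩).differentiableAt.differentiableWithinAt
      · intro x hx
        rw [interior_Icc] at hx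
        have hx' : x ∈ Set.Icc t1 t2 := ⟨hx.1.le, hx.2.le⟩
        rw [(hder x hx').deriv]
        have h3 : ss ρ g x ≤ ss ρ g t1 := hanti ⟨le_refl _, h12⟩ hx' hx'.1
        have h4 : R * ss ρ g x ≤ R * ss ρ g t1 := mul_le_mul_of_nonneg_left h3 hR
        exact mul_nonpos_of_nonneg_of_nonpos (by linarith) (hfac x hx')
    exact hmono ⟨le_refl _, h12⟩ ⟨h12, le_refl _⟩ h12

end

end Vale.Agent.P322
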