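import Vale.Agent.P322.LemmaK2

/-!
# P322: Lemma K, the main inequality
-/

namespace Vale.Agent.P322

open Real Finset

noncomputable section

variable {ρ g : ℝ}

/-- the function to be minorized -/
def FF (ρ g u v : ℝ) : ℝ := 2 * HS ρ u v - g * (hb u + hb v)

theorem continuous_HS (ρ : ℝ) : Continuous (fun p : ℝ × ℝ => HS ρ p.1 p.2) := by
  unfold HS
  have h := continuous_hb
  fun_prop

theorem continuous_FF (ρ g : ℝ) : Continuous (fun p : ℝ × ℝ => FF ρ g p.1 p.2) := by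
  unfold FF
  have h := continuous_hb
  have h2 := continuous_HS ρ
  fun_prop

/-- `Φ(c+e)+Φ(c-e)` in the coordinates adapted to the apex -/
theorem Phi_add_Phi {c e : ℝ} (hc1 : -1 < c) (hc2 : c < 1) (h1 : |e| < 1 - c) (h2 : |e| < 1 + c) :
    Phi (c + e) + Phi (c - e) =
      2 * Phi c + (1 + c) * Phi (e / (1 + c)) + (1 - c) * Phi (e / (1 - c)) := by
  rw [abs_lt] at h1 h2
  have p1 : 0 < 1 + c := by linarith
  have p2 : 0 < 1 - c := by linarith
  have l1 : log (1 + (c + e)) = log (1 + c) + log (1 + e / (1 + c)) := by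
    rw [← Real.log_mul p1.ne' (by
      have : 0 < 1 + e / (1 + c) := by
        have : -1 < e / (1 + c) := by rw [lt_div_iff₀ p1]; linarith
        linarith
      exact this.ne')]
    congr 1
    field_simp
    ring
  have l2 : log (1 + (c - e)) = log (1 + c) + log (1 - e / (1 + c)) := by
    rw [← Real.log_mul p1.ne' (by
      have : 0 < 1 - e / (1 + c) := by
        have : e / (1 + c) < 1 := by rw [div_lt_iff₀ p1]; linarith
        linarith
      exact this.ne')]
    congr 1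
    field_simp
    ring
  have l3 : log (1 - (c + e)) = log (1 - c) + log (1 - e / (1 - c)) := by
    rw [← Real.log_mul p2.ne' (by
      have : 0 < 1 - e / (1 - c) := by
        have : e / (1 - c) < 1 := by rw [div_lt_iff₀ p2]; linarith
        linarith
      exact this.ne')]
    congr 1
    field_simp
    ring
  have l4 : log (1 - (c - e)) = log (1 - c) + log (1 + e / (1 - c)) := by
    rw [← Real.log_mul p2.ne' (by
      have : 0 < 1 + e / (1 - c) := by
        have : -1 < e / (1 - c) := by rw [lt_div_iff₀ p2]; linarith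
        linarith
      exact this.ne')]
    congr 1
    field_simp
    ring
  unfold Phi
  rw [l1, l2, l3, l4]
  field_simp
  ring

/-- the values of `FF` on rays from the apex -/
theorem FF_eq (hρ0 : 0 < ρ) (hρ1 : ρ ≤ 1) {c e : ℝ} (hc1 : -1 < c) (hc2 : c < 1)
    (h1 : |e| < 1 - c) (h2 : |e| < 1 + c) :
    FF ρ g (c + e) (c - e) = (1 - c) * MM ρ g (e / (1 - c)) ((1 - c) / (1 + c)) := by
  have p1 : 0 < 1 + c := by linarith
  have p2 : 0 < 1 - c := by linarith
  have h1' := abs_lt.mp h1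
  have h2' := abs_lt.mp h2
  have hρe : |ρ * e| ≤ |e| := by
    rw [abs_mul, abs_of_pos hρ0]
    exact mul_le_of_le_one_left (abs_nonneg e) hρ1
  have h3 : |ρ * e| < 1 - c := lt_of_le_of_lt hρe h1
  have h4 : |ρ * e| < 1 + c := lt_of_le_of_lt hρe h2
  have h3' := abs_lt.mp h3
  have h4' := abs_lt.mp h4
  have e1 := Phi_add_Phi hc1 hc2 h1 h2
  have e2 := Phi_add_Phi hc1 hc2 h3 h4
  have e3 : FF ρ g (c + e) (c - e) = 2 * (1 - g) * log 2 + g * (Phi (c + e) + Phi (c - e)) -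
      (Phi (c + ρ * e) + Phi (c - ρ * e)) := by
    unfold FF HS
    have k1 : (1 + ρ) / 2 * (c + e) + (1 - ρ) / 2 * (c - e) = c + ρ * e := by ring
    have k2 : (1 - ρ) / 2 * (c + e) + (1 + ρ) / 2 * (c - e) = c - ρ * e := by ring
    rw [k1, k2, hb_eq_log (w := c + e) (by linarith) (by linarith),
      hb_eq_log (w := c - e) (by linarith) (by linarith),
      hb_eq_log (w := c + ρ * e) (by linarith) (by linarith),
      hb_eq_log (w := c - ρ * e) (by linarith) (by linarith)]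
    ring
  rw [e3, e1, e2]
  unfold MM om
  have k3 : (1 - c) / (1 + c) * (e / (1 - c)) = e / (1 + c) := by
    field_simp
  have k4 : ρ * (e / (1 + c)) = ρ * e / (1 + c) := by ring
  have k5 : ρ * (e / (1 - c)) = ρ * e / (1 - c) := by ring
  rw [k3, k4, k5]
  have k6 : 1 + (1 - c) / (1 + c) = 2 / (1 + c) := by
    field_simp
    ring
  have k7 : 2 / (1 + c) / ((1 - c) / (1 + c)) = 2 / (1 - c) := by
    field_simp
  rw [k6, k7, Real.log_div (by norm_num) p1.ne', Real.log_div p2.ne' p1.ne']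
  have k8 : 2 * Phi c = (1 + c) * log (1 + c) + (1 - c) * log (1 - c) := by
    unfold Phi
    ring
  rw [k8]
  field_simp
  ring

theorem La_le {t : ℝ} (h0 : 0 ≤ t) (h1 : t ≤ 1 / 2) : La t ≤ 2 / 3 * t ^ 2 := by
  unfold La
  have h2 : 0 < 1 - t ^ 2 := by nlinarith
  have h3 := Real.one_sub_inv_le_log_of_pos h2
  have h4 : (1 - t ^ 2)⁻¹ ≤ 1 + 4 / 3 * t ^ 2 := by
    rw [inv_le_iff_one_le_mul₀ h2]
    nlinarith [sq_nonneg t, mul_nonneg (sq_nonneg t) (by nlinarith : (0:ℝ) ≤ 1 / 4 - t ^ 2)]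
  linarith

/-- existence of the minimum on a ray -/
theorem exists_ray_min (hρ0 : 0 < ρ) (hρ1 : ρ ≤ 1) (hg0 : 0 < g) (hg1 : g < 1) {s : ℝ}
    (hs0 : 0 < s) (hs1 : s < 1) (hla : (1 - g) * log 2 ≤ la ρ g s) :
    ∃ r1 : ℝ, 0 < r1 ∧ r1 ≤ 1 ∧ la ρ g (r1 * s) = (1 - g) * log (1 + r1) := by
  set f : ℝ → ℝ := fun r => la ρ g (r * s) - (1 - g) * log (1 + r) with hf
  have ha0 : 0 < (1 - g) / 2 := by linarith
  have hab : (1 - g) / 2 ≤ 1 := by linarith
  have hcont : ContinuousOn f (Set.Icc ((1 - g) / 2) 1) := by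
    intro x hx
    have hx0 : 0 < x := lt_of_lt_of_le ha0 hx.1
    have hxs : x * s < 1 := by nlinarith [hx.2]
    have hxs0 : 0 < x * s := by positivity
    apply ContinuousAt.continuousWithinAt
    have c1 : ContinuousAt (fun r : ℝ => la ρ g (r * s)) x := by
      have c2 : ContinuousAt (la ρ g) (x * s) :=
        (hasDerivAt_la hρ0 hρ1 (by linarith) hxs).continuousAt
      exact ContinuousAt.comp (f := fun r : ℝ => r * s) (g := la ρ g) c2 (by fun_prop)
    have c3 : ContinuousAt (fun r : ℝ => log (1 + r)) x := by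
      apply ContinuousAt.log (by fun_prop)
      linarith
    exact c1.sub (c3.const_mul (1 - g))
  have hfa : f ((1 - g) / 2) ≤ 0 := by
    simp only [hf]
    set r := (1 - g) / 2 with hr
    have hrle : r ≤ 1 / 2 := by rw [hr]; linarith
    have hrs0 : 0 ≤ r * s := by positivity
    have hrs : r * s ≤ r := by nlinarith
    have h1 := La_le hrs0 (by linarith)
    have h2 : 0 ≤ La (ρ * (r * s)) := by
      obtain ⟨h3, h4⟩ := rho_mul_lt hρ0 hρ1 (t := r * s) (by linarith) (by linarith)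
      exact La_nonneg h3 h4
    have h5 : la ρ g (r * s) ≤ 2 / 3 * r ^ 2 := by
      unfold la
      have h6 : g * La (r * s) ≤ g * (2 / 3 * (r * s) ^ 2) := mul_le_mul_of_nonneg_left h1 hg0.le
      have h7 : (r * s) ^ 2 ≤ r ^ 2 := by nlinarith
      have h8 : g * (2 / 3 * (r * s) ^ 2) ≤ 1 * (2 / 3 * r ^ 2) :=
        mul_le_mul hg1.le (by linarith) (by positivity) zero_le_one
      linarith
    have h9 := Real.le_log_one_add_of_nonneg ha0.le
    have h10 : 4 / 5 * r ≤ 2 * r / (r + 2) := by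
      rw [le_div_iff₀ (by linarith)]
      nlinarith
    have h11 : (1 - g) * (4 / 5 * r) ≤ (1 - g) * log (1 + r) :=
      mul_le_mul_of_nonneg_left (le_trans h10 h9) (by linarith)
    have h12 : (1 - g) = 2 * r := by rw [hr]; ring
    rw [h12] at h11 ⊢
    nlinarith
  have hfb : 0 ≤ f 1 := by
    simp only [hf, one_mul]
    norm_num
    linarith
  obtain ⟨r1, hr1, hr1'⟩ := intermediate_value_Icc hab hcont ⟨hfa, hfb⟩
  exact ⟨r1, lt_of_lt_of_le ha0 hr1.1, hr1.2, by simp only [hf] at hr1'; linarith⟩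

/-- existence of the symmetric tangency parameter `z` -/
theorem exists_z (hρ0 : 0 < ρ) (hρ1 : ρ ≤ 1) (hg1 : g < 1) {r0 s0 : ℝ} (hr0 : 0 < r0)
    (hr1 : r0 ≤ 1) (hs0 : 0 < s0) (hs1 : s0 < 1)
    (h0 : la ρ g (r0 * s0) = (1 - g) * log (1 + r0)) :
    ∃ z : ℝ, r0 * s0 ≤ z ∧ z ≤ s0 ∧ la ρ g z = (1 - g) * log 2 := by
  have ht0 : 0 < r0 * s0 := by positivity
  have hts : r0 * s0 ≤ s0 := mul_le_of_le_one_left hs0.le hr1
  have hlog : 0 < log (1 + r0) := log_pos (by linarith)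
  have hla0 : 0 < la ρ g (r0 * s0) := by rw [h0]; exact mul_pos (by linarith) hlog
  have hcont : ContinuousOn (la ρ g) (Set.Icc (r0 * s0) s0) := by
    intro x hx
    exact (hasDerivAt_la hρ0 hρ1 (by linarith [hx.1]) (lt_of_le_of_lt hx.2 hs1)).continuousAt.continuousWithinAt
  have ha : la ρ g (r0 * s0) ≤ (1 - g) * log 2 := by
    rw [h0]
    apply mul_le_mul_of_nonneg_left _ (by linarith)
    exact Real.log_le_log (by linarith) (by linarith)
  have hb : (1 - g) * log 2 ≤ la ρ g s0 := by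
    have h1 := la_growth (g := g) hρ0 hρ1 ht0 hts hs1 hla0.le
    have h2 := log_ratio hr0 hr1
    have h3 : log 2 * r0 ^ 2 ≤ log (1 + r0) := by
      have e2 : (1:ℝ) + 1 = 2 := by norm_num
      rw [e2, one_mul] at h2
      have h4 : 0 < log 2 := log_pos (by norm_num)
      have h5 : r0 ^ 2 ≤ r0 := by nlinarith
      nlinarith [mul_le_mul_of_nonneg_left h5 h4.le]
    have h6 : (1 - g) * (log 2 * r0 ^ 2) ≤ (1 - g) * log (1 + r0) :=
      mul_le_mul_of_nonneg_left h3 (by linarith)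
    rw [← h0] at h6
    have h7 : s0 ^ 2 * ((1 - g) * (log 2 * r0 ^ 2)) ≤ s0 ^ 2 * la ρ g (r0 * s0) :=
      mul_le_mul_of_nonneg_left h6 (by positivity)
    have h8 : (r0 * s0) ^ 2 * ((1 - g) * log 2) ≤ (r0 * s0) ^ 2 * la ρ g s0 := by
      have : (r0 * s0) ^ 2 * ((1 - g) * log 2) = s0 ^ 2 * ((1 - g) * (log 2 * r0 ^ 2)) := by ring
      rw [this]
      linarith
    exact le_of_mul_le_mul_left h8 (by positivity)
  obtain ⟨z, hz, hz'⟩ := intermediate_value_Icc hts hcont ⟨ha, hb⟩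
  exact ⟨z, hz.1, hz.2, hz'⟩

theorem PP_eq_MM (hρ0 : 0 < ρ) (hρ1 : ρ ≤ 1) {R s r1 : ℝ} (hs_pos : 0 < s) (hs_lt : s < 1)
    (hr10 : 0 < r1) (ht11 : r1 * s < 1) (hr1 : la ρ g (r1 * s) = (1 - g) * log (1 + r1))
    (hrr1 : rr ρ g (r1 * s) = r1) (hss1 : ss ρ g (r1 * s) = s) :
    PP ρ g R (R * s) (r1 * s) = R * MM ρ g s r1 := by
  have ht1 : 0 < r1 * s := by positivity
  have k1 := mul_ww_sub_om (g := g) hρ0 hρ1 (t := r1 * s) (by linarith) ht11
  have k2 := mul_ww_sub_om (g := g) hρ0 hρ1 (t := s) (by linarith) hs_lt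
  unfold PP MM
  rw [hrr1, hss1]
  have k3 : om ρ g s = s * ww ρ g s - la ρ g s := by linear_combination -k2
  have k4 : om ρ g (r1 * s) = r1 * s * ww ρ g (r1 * s) - (1 - g) * log (1 + r1) := by
    linear_combination -k1 - hr1
  rw [k3, k4, hr1]
  field_simp
  ring

/-- the main inequality (interior points) -/
theorem lemmaK_int (hρ0 : 0 < ρ) (hρ1 : ρ ≤ 1) (hg0 : 0 < g) (hg1 : g < 1) {r0 s0 : ℝ}
    (hr0 : 0 < r0) (hr1 : r0 ≤ 1) (hs0 : 0 < s0) (hs1 : s0 < 1)
    (h0 : la ρ g (r0 * s0) = (1 - g) * log (1 + r0))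
    (hS1 : ∀ z : ℝ, 0 < z → z < 1 → la ρ g z = (1 - g) * log 2 →
      ∀ u v : ℝ, |u| ≤ 1 → |v| ≤ 1 → ww ρ g z * (u - v) ≤ FF ρ g u v)
    {c e : ℝ} (hc1 : -1 < c) (hc2 : c < 1) (h1 : |e| < 1 - c) (h2 : |e| < 1 + c) :
    (1 - c) * ((1 - g) * (log (1 + r0) - log r0) - la ρ g s0) +
      e * (ww ρ g (r0 * s0) + ww ρ g s0) ≤ FF ρ g (c + e) (c - e) := by
  have p1 : 0 < 1 + c := by linarith
  have p2 : 0 < 1 - c := by linarith
  have h1' := abs_lt.mp h1
  have h2' := abs_lt.mp h2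
  have ht0 : 0 < r0 * s0 := by positivity
  have hts : r0 * s0 ≤ s0 := mul_le_of_le_one_left hs0.le hr1
  have ht01 : r0 * s0 < 1 := lt_of_le_of_lt hts hs1
  have hrr0 : rr ρ g (r0 * s0) = r0 := rr_eq hg1 hr0 h0
  have hss0 : ss ρ g (r0 * s0) = s0 := by
    unfold ss
    rw [hrr0]
    field_simp
  have hlog : 0 < log (1 + r0) := log_pos (by linarith)
  have hla0 : 0 < la ρ g (r0 * s0) := by rw [h0]; exact mul_pos (by linarith) hlog
  have hla02 : la ρ g (r0 * s0) ≤ (1 - g) * log 2 := by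
    rw [h0]
    apply mul_le_mul_of_nonneg_left _ (by linarith)
    exact Real.log_le_log (by linarith) (by linarith)
  have hP0 : PP ρ g (1 - c) e (r0 * s0) =
      (1 - c) * ((1 - g) * (log (1 + r0) - log r0) - la ρ g s0) +
      e * (ww ρ g (r0 * s0) + ww ρ g s0) := by
    unfold PP
    rw [hrr0, hss0, h0]
    ring
  rw [← hP0]
  obtain ⟨z, hz1, hz2, hz3⟩ := exists_z hρ0 hρ1 hg1 hr0 hr1 hs0 hs1 h0
  have hz0 : 0 < z := lt_of_lt_of_le ht0 hz1
  have hz1' : z < 1 := lt_of_le_of_lt hz2 hs1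
  have hrrz : rr ρ g z = 1 := rr_eq hg1 one_pos (by rw [hz3]; norm_num)
  have hssz : ss ρ g z = z := by
    unfold ss
    rw [hrrz]
    ring
  have hlog2 : 0 < log 2 := log_pos (by norm_num)
  have hlaz : 0 < la ρ g z := by rw [hz3]; exact mul_pos (by linarith) hlog2
  rcases le_or_gt e ((1 - c) * z) with hcase | hcase
  · -- the point is in the range of the symmetric ridge
    have h3 := (PP_mono_le hρ0 hρ1 hg0.le hg1 (R := 1 - c) (e := e) p2.le ht0 hz1 hz1' hla0 hz3.le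
      (by rw [hss0]; exact hs1)).1 (by rw [hssz]; exact hcase)
    have h4 : PP ρ g (1 - c) e z = ww ρ g z * ((c + e) - (c - e)) := by
      unfold PP
      rw [hrrz, hssz, Real.log_one]
      ring
    rw [h4] at h3
    refine le_trans h3 (hS1 z hz0 hz1' hz3 _ _ ?_ ?_)
    · rw [abs_le]; constructor <;> linarith
    · rw [abs_le]; constructor <;> linarith
  · set s := e / (1 - c) with hs
    have hes : e = (1 - c) * s := by rw [hs]; field_simp
    have hzs : z < s := by rw [hs, lt_div_iff₀ p2]; linarith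
    have hs_pos : 0 < s := lt_trans hz0 hzs
    have hs_lt : s < 1 := by rw [hs, div_lt_one p2]; linarith
    have hlas : (1 - g) * log 2 ≤ la ρ g s := by
      rw [← hz3]
      exact la_mono hρ0 hρ1 hz0 hzs.le hs_lt hlaz.le
    obtain ⟨r1, hr10, hr11, hr1⟩ := exists_ray_min hρ0 hρ1 hg0 hg1 hs_pos hs_lt hlas
    have ht1 : 0 < r1 * s := by positivity
    have ht1s : r1 * s ≤ s := mul_le_of_le_one_left hs_pos.le hr11
    have ht11 : r1 * s < 1 := lt_of_le_of_lt ht1s hs_lt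
    have hrr1 : rr ρ g (r1 * s) = r1 := rr_eq hg1 hr10 hr1
    have hss1 : ss ρ g (r1 * s) = s := by
      unfold ss
      rw [hrr1]
      field_simp
    have hlog1 : 0 < log (1 + r1) := log_pos (by linarith)
    have hla1 : 0 < la ρ g (r1 * s) := by rw [hr1]; exact mul_pos (by linarith) hlog1
    have hla12 : la ρ g (r1 * s) ≤ (1 - g) * log 2 := by
      rw [hr1]
      apply mul_le_mul_of_nonneg_left _ (by linarith)
      exact Real.log_le_log (by linarith) (by linarith)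
    have hcmp : PP ρ g (1 - c) e (r0 * s0) ≤ PP ρ g (1 - c) e (r1 * s) := by
      rcases le_total (r0 * s0) (r1 * s) with h | h
      · exact (PP_mono_le hρ0 hρ1 hg0.le hg1 p2.le ht0 h ht11 hla0 hla12
          (by rw [hss0]; exact hs1)).1 (by rw [hss1, hes])
      · exact (PP_mono_le hρ0 hρ1 hg0.le hg1 p2.le ht1 h ht01 hla1 hla02
          (by rw [hss1]; exact hs_lt)).2 (by rw [hss1, hes])
    refine le_trans hcmp ?_
    rw [hes, PP_eq_MM hρ0 hρ1 hs_pos hs_lt hr10 ht11 hr1 hrr1 hss1, ← hes,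
      FF_eq hρ0 hρ1 hc1 hc2 h1 h2]
    apply mul_le_mul_of_nonneg_left _ p2.le
    have hr : 0 < (1 - c) / (1 + c) := div_pos p2 p1
    have hrs : (1 - c) / (1 + c) * s < 1 := by
      rw [hs]
      have : (1 - c) / (1 + c) * (e / (1 - c)) = e / (1 + c) := by field_simp
      rw [this, div_lt_one p1]
      linarith
    exact MM_min hρ0 hρ1 hg1 hs_pos hr hrs hr10 ht11 hr1

/-- **Lemma K** -/
theorem lemmaK (hρ0 : 0 < ρ) (hρ1 : ρ ≤ 1) (hg0 : 0 < g) (hg1 : g < 1) {r0 s0 : ℝ}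
    (hr0 : 0 < r0) (hr1 : r0 ≤ 1) (hs0 : 0 < s0) (hs1 : s0 < 1)
    (h0 : la ρ g (r0 * s0) = (1 - g) * log (1 + r0))
    (hS1 : ∀ z : ℝ, 0 < z → z < 1 → la ρ g z = (1 - g) * log 2 →
      ∀ u v : ℝ, |u| ≤ 1 → |v| ≤ 1 → ww ρ g z * (u - v) ≤ FF ρ g u v)
    {u v : ℝ} (hu : |u| ≤ 1) (hv : |v| ≤ 1) :
    (1 - (u + v) / 2) * ((1 - g) * (log (1 + r0) - log r0) - la ρ g s0) +
      (u - v) / 2 * (ww ρ g (r0 * s0) + ww ρ g s0) ≤ FF ρ g u v := by
  set A := (1 - g) * (log (1 + r0) - log r0) - la ρ g s0 with hA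
  set B := ww ρ g (r0 * s0) + ww ρ g s0 with hB
  have hint : ∀ x y : ℝ, |x| < 1 → |y| < 1 → (1 - (x + y) / 2) * A + (x - y) / 2 * B ≤ FF ρ g x y := by
    intro x y hx hy
    rw [abs_lt] at hx hy
    have := lemmaK_int hρ0 hρ1 hg0 hg1 hr0 hr1 hs0 hs1 h0 hS1 (c := (x + y) / 2)
      (e := (x - y) / 2) (by linarith) (by linarith)
      (by rw [abs_lt]; constructor <;> linarith) (by rw [abs_lt]; constructor <;> linarith)
    rw [← hA, ← hB] at this
    have e1 : (x + y) / 2 + (x - y) / 2 = x := by ring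
    have e2 : (x + y) / 2 - (x - y) / 2 = y := by ring
    rw [e1, e2] at this
    exact this
  have hcont : Continuous (fun l : ℝ => FF ρ g (l * u) (l * v) -
      ((1 - (l * u + l * v) / 2) * A + (l * u - l * v) / 2 * B)) := by
    have h := (continuous_FF ρ g).comp (by fun_prop : Continuous (fun l : ℝ => (l * u, l * v)))
    have h' : Continuous (fun l : ℝ => FF ρ g (l * u) (l * v)) := h
    fun_prop
  have hmem : (1:ℝ) ∈ closure (Set.Ioo (0:ℝ) 1) := by
    rw [closure_Ioo zero_ne_one]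
    exact ⟨zero_le_one, le_refl _⟩
  have hsub : Set.Ioo (0:ℝ) 1 ⊆ {l : ℝ | 0 ≤ FF ρ g (l * u) (l * v) -
      ((1 - (l * u + l * v) / 2) * A + (l * u - l * v) / 2 * B)} := by
    intro l hl
    have h1 : |l * u| < 1 := by
      rw [abs_mul, abs_of_pos hl.1]
      nlinarith [hl.1, hl.2, abs_nonneg u]
    have h2 : |l * v| < 1 := by
      rw [abs_mul, abs_of_pos hl.1]
      nlinarith [hl.1, hl.2, abs_nonneg v]
    have := hint _ _ h1 h2
    simp only [Set.mem_ofPred_eq]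
    linarith
  have hclosed : IsClosed {l : ℝ | 0 ≤ FF ρ g (l * u) (l * v) -
      ((1 - (l * u + l * v) / 2) * A + (l * u - l * v) / 2 * B)} :=
    isClosed_le continuous_const hcont
  have := hclosed.closure_subset_iff.mpr hsub hmem
  simp only [Set.mem_ofPred_eq, one_mul] at this
  linarith

end

end Vale.Agent.P322
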