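import Vale.Agent.P322.Fun

/-! numerical bounds for logarithms of rationals and for `hb` at rationals -/

namespace Vale.Agent.P322

open Real Finset

/-- partial sum of the `artanh` series -/
noncomputable def S7 (y : ℝ) : ℝ :=
  y + y ^ 3 / 3 + y ^ 5 / 5 + y ^ 7 / 7 + y ^ 9 / 9 + y ^ 11 / 11 + y ^ 13 / 13

theorem S7_eq (y : ℝ) : ∑ i ∈ range 7, y ^ (2 * i + 1) / (2 * i + 1) = S7 y := by
  simp only [Finset.sum_range_succ, Finset.sum_range_zero, S7]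
  norm_num

theorem log_num {q c : ℝ} (k : ℤ) (hc : 1 ≤ c) (hc2 : c ≤ 2) (hq : q = 2 ^ k * c) :
    k * log 2 + 2 * S7 ((c - 1) / (c + 1)) ≤ log q ∧
      log q ≤ k * log 2 + 2 * S7 ((c - 1) / (c + 1)) + 2 / 10 ^ 7 := by
  have hc0 : 0 < c := by linarith
  set y := (c - 1) / (c + 1) with hy
  have hy0 : 0 ≤ y := div_nonneg (by linarith) (by linarith)
  have hy1 : y ≤ 1 / 3 := by
    rw [hy, div_le_iff₀ (by linarith)]
    linarith
  have hyc : (1 + y) / (1 - y) = c := by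
    rw [hy]
    field_simp
    ring
  have h1 := Real.sum_range_le_log_div hy0 (by linarith) 7
  have h2 := Real.log_div_le_sum_range_add hy0 (by linarith) 7
  rw [S7_eq, hyc] at h1
  rw [S7_eq, hyc] at h2
  have h3 : y ^ (2 * 7 + 1) / (1 - y ^ 2) ≤ 1 / 10 ^ 7 := by
    have h4 : y ^ 15 ≤ (1 / 3) ^ 15 := pow_le_pow_left₀ hy0 hy1 15
    have h5 : y ^ 2 ≤ (1 / 3) ^ 2 := pow_le_pow_left₀ hy0 hy1 2
    have h6 : y ^ 2 ≤ 1 / 9 := by norm_num at h5; exact h5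
    have h7 : y ^ 15 ≤ 1 / 14348907 := by norm_num at h4; linarith
    have h8 : 0 < 1 - y ^ 2 := by linarith
    rw [div_le_iff₀ h8, show 2 * 7 + 1 = 15 from rfl]
    linarith
  have h6 : log q = k * log 2 + log c := by
    rw [hq, Real.log_mul (by positivity) hc0.ne', Real.log_zpow]
  rw [h6]
  constructor <;> linarith

/-- bounds for `hb x` from bounds of the two logarithms -/
theorem hb_num {x a1 b1 a2 b2 : ℝ} (h0 : 0 ≤ x) (h1 : x < 1)
    (h2 : a1 ≤ log (1 + x)) (h3 : log (1 + x) ≤ b1)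
    (h4 : a2 ≤ log (1 - x)) (h5 : log (1 - x) ≤ b2) :
    log 2 - ((1 + x) * b1 + (1 - x) * b2) / 2 ≤ hb x ∧
      hb x ≤ log 2 - ((1 + x) * a1 + (1 - x) * a2) / 2 := by
  rw [hb_eq_log (by linarith) h1]
  unfold Phi
  have e1 := mul_le_mul_of_nonneg_left h2 (show 0 ≤ 1 + x by linarith)
  have e2 := mul_le_mul_of_nonneg_left h3 (show 0 ≤ 1 + x by linarith)
  have e3 := mul_le_mul_of_nonneg_left h4 (show 0 ≤ 1 - x by linarith)
  have e4 := mul_le_mul_of_nonneg_left h5 (show 0 ≤ 1 - x by linarith)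
  constructor <;> linarith

/-- rational enclosure of `hb x` -/
theorem hb_val {x lo hi c1 c2 : ℝ} {k1 k2 : ℤ} (hx0 : 0 ≤ x) (hx1 : x < 1)
    (hc1 : 1 ≤ c1 ∧ c1 ≤ 2) (hc2 : 1 ≤ c2 ∧ c2 ≤ 2) (e1 : 1 + x = 2 ^ k1 * c1)
    (e2 : 1 - x = 2 ^ k2 * c2) (hC : 0 ≤ 1 - ((1 + x) * k1 + (1 - x) * k2) / 2)
    (hlo : lo ≤ (1 - ((1 + x) * k1 + (1 - x) * k2) / 2) * (6931471803 / 10000000000)
      - ((1 + x) * S7 ((c1 - 1) / (c1 + 1)) + (1 - x) * S7 ((c2 - 1) / (c2 + 1))) - 2 / 10 ^ 7)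
    (hhi : (1 - ((1 + x) * k1 + (1 - x) * k2) / 2) * (6931471808 / 10000000000)
      - ((1 + x) * S7 ((c1 - 1) / (c1 + 1)) + (1 - x) * S7 ((c2 - 1) / (c2 + 1))) ≤ hi) :
    lo ≤ hb x ∧ hb x ≤ hi := by
  obtain ⟨l1, l2⟩ := log_num k1 hc1.1 hc1.2 e1
  obtain ⟨l3, l4⟩ := log_num k2 hc2.1 hc2.2 e2
  obtain ⟨h1, h2⟩ := hb_num hx0 hx1 l1 l2 l3 l4
  have g1 : (6931471803 / 10000000000 : ℝ) ≤ log 2 := by
    have := Real.log_two_gt_d9
    norm_num at this ⊢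
    linarith
  have g2 : log 2 ≤ (6931471808 / 10000000000 : ℝ) := by
    have := Real.log_two_lt_d9
    norm_num at this ⊢
    linarith
  have m1 := mul_le_mul_of_nonneg_left g1 hC
  have m2 := mul_le_mul_of_nonneg_left g2 hC
  constructor
  · refine hlo.trans (le_trans ?_ h1)
    linarith
  · refine le_trans (h2.trans ?_) hhi
    linarith

end Vale.Agent.P322
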