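import Vale.Agent.P322.Defs

/-!
# P322: reduction of the Courtade–Kumar inequality to the one-step certificates
-/

namespace Vale.Agent.P322

open Real Finset

noncomputable section

/-! ### basic facts on `hb` -/

theorem hb_neg (w : ℝ) : hb (-w) = hb w := by
  unfold hb
  rw [← Real.binEntropy_one_sub]
  congr 1
  ring

@[simp] theorem hb_one : hb 1 = 0 := by
  unfold hb; norm_num

@[simp] theorem hb_neg_one : hb (-1) = 0 := by
  rw [hb_neg, hb_one]

theorem hb_zero : hb 0 = log 2 := by
  unfold hb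
  have : ((1 + 0) / 2 : ℝ) = 2⁻¹ := by norm_num
  rw [this, Real.binEntropy_two_inv]

theorem hb_nonneg {w : ℝ} (h : |w| ≤ 1) : 0 ≤ hb w := by
  rw [abs_le] at h
  unfold hb
  apply Real.binEntropy_nonneg <;> linarith

theorem hb_le (w : ℝ) : hb w ≤ log 2 := by
  unfold hb; exact Real.binEntropy_le_log_two

theorem continuous_hb : Continuous hb := by
  unfold hb
  exact Real.binEntropy_continuous.comp (by fun_prop)

/-! ### the cube -/

def sgn (b : Bool) : ℝ := if b then 1 else -1

def mean {n : ℕ} (f : Cube n → Bool) : ℝ := (1 / 2) ^ n * ∑ x, sgn (f x)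

/-- `E[f(X) | Y = y]` -/
def post {n : ℕ} (ε : ℝ) (f : Cube n → Bool) (y : Cube n) : ℝ := ∑ x, chan ε x y * sgn (f x)

/-- `H(f(X) | Y)` in nats -/
def Ent {n : ℕ} (ε : ℝ) (f : Cube n → Bool) : ℝ := (1 / 2) ^ n * ∑ y, hb (post ε f y)

theorem sum_cube_succ {n : ℕ} (F : Cube (n + 1) → ℝ) :
    ∑ x, F x = ∑ x : Cube n, F (Fin.cons true x) + ∑ x : Cube n, F (Fin.cons false x) := by
  rw [← (Fin.consEquiv (fun _ : Fin (n + 1) => Bool)).sum_comp, Fintype.sum_prod_type]
  rw [Fintype.sum_bool]
  rfl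

theorem chan_cons {n : ℕ} (ε : ℝ) (b c : Bool) (x y : Cube n) :
    chan ε (Fin.cons b x : Cube (n + 1)) (Fin.cons c y) =
      (if b = c then 1 - ε else ε) * chan ε x y := by
  unfold chan
  rw [Fin.prod_univ_succ]
  simp

theorem chan_symm {n : ℕ} (ε : ℝ) (x y : Cube n) : chan ε x y = chan ε y x := by
  unfold chan
  apply Finset.prod_congr rfl
  intro i _
  simp only [eq_comm]

theorem sum_chan {n : ℕ} (ε : ℝ) (y : Cube n) : ∑ x, chan ε x y = 1 := by
  induction n with
  | zero => simp [chan]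
  | succ n ih =>
    rw [sum_cube_succ]
    have hy : y = Fin.cons (y 0) (Fin.tail y) := (Fin.cons_self_tail y).symm
    rw [hy]
    simp only [chan_cons]
    rw [← Finset.mul_sum, ← Finset.mul_sum, ih]
    cases y 0 <;> simp

theorem sum_chan' {n : ℕ} (ε : ℝ) (x : Cube n) : ∑ y, chan ε x y = 1 := by
  rw [← sum_chan ε x]
  apply Finset.sum_congr rfl
  intro y _
  rw [chan_symm]

theorem chan_nonneg {n : ℕ} {ε : ℝ} (h0 : 0 ≤ ε) (h1 : ε ≤ 1) (x y : Cube n) : 0 ≤ chan ε x y := by
  unfold chan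
  apply Finset.prod_nonneg
  intro i _
  split_ifs <;> linarith

theorem abs_sgn (b : Bool) : |sgn b| = 1 := by
  cases b <;> simp [sgn]

theorem abs_post_le {n : ℕ} {ε : ℝ} (h0 : 0 ≤ ε) (h1 : ε ≤ 1) (f : Cube n → Bool) (y : Cube n) :
    |post ε f y| ≤ 1 := by
  unfold post
  calc |∑ x, chan ε x y * sgn (f x)| ≤ ∑ x, |chan ε x y * sgn (f x)| :=
        Finset.abs_sum_le_sum_abs _ _
    _ = ∑ x, chan ε x y := by
        apply Finset.sum_congr rfl
        intro x _
        rw [abs_mul, abs_sgn, mul_one, abs_of_nonneg (chan_nonneg h0 h1 x y)]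
    _ = 1 := sum_chan ε y

theorem card_cube (n : ℕ) : (1 / 2 : ℝ) ^ n * ((Fintype.card (Cube n) : ℕ) : ℝ) = 1 := by
  rw [Fintype.card_fun, Fintype.card_bool, Fintype.card_fin]
  push_cast
  rw [← mul_pow]
  norm_num

theorem mean_post {n : ℕ} (ε : ℝ) (f : Cube n → Bool) :
    (1 / 2) ^ n * ∑ y, post ε f y = mean f := by
  unfold post mean
  rw [Finset.sum_comm]
  congr 1
  apply Finset.sum_congr rfl
  intro x _
  rw [← Finset.sum_mul, sum_chan', one_mul]

theorem abs_mean_le {n : ℕ} (f : Cube n → Bool) : |mean f| ≤ 1 := by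
  unfold mean
  rw [abs_mul, abs_of_nonneg (by positivity : (0 : ℝ) ≤ (1 / 2) ^ n)]
  calc (1 / 2 : ℝ) ^ n * |∑ x, sgn (f x)| ≤ (1 / 2) ^ n * ∑ x, |sgn (f x)| := by
        apply mul_le_mul_of_nonneg_left (Finset.abs_sum_le_sum_abs _ _) (by positivity)
    _ = (1 / 2) ^ n * ((Fintype.card (Cube n) : ℕ) : ℝ) := by
        congr 1
        simp only [abs_sgn, Finset.sum_const, nsmul_eq_mul, mul_one]
        rfl
    _ = 1 := card_cube n

/-- restriction of the first coordinate -/
def restr {n : ℕ} (f : Cube (n + 1) → Bool) (b : Bool) (x : Cube n) : Bool := f (Fin.cons b x)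

theorem mean_succ {n : ℕ} (f : Cube (n + 1) → Bool) :
    mean f = (mean (restr f true) + mean (restr f false)) / 2 := by
  unfold mean restr
  rw [sum_cube_succ, pow_succ]
  ring

theorem post_cons {n : ℕ} (ε : ℝ) (f : Cube (n + 1) → Bool) (c : Bool) (y : Cube n) :
    post ε f (Fin.cons c y) =
      (if c then 1 - ε else ε) * post ε (restr f true) y +
        (if c then ε else 1 - ε) * post ε (restr f false) y := by
  unfold post restr
  rw [sum_cube_succ]
  simp only [chan_cons]
  rw [Finset.mul_sum, Finset.mul_sum]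
  cases c
  · simp [mul_assoc]
  · simp [mul_assoc]

theorem Ent_succ {n : ℕ} (ρ : ℝ) (f : Cube (n + 1) → Bool) :
    Ent ((1 - ρ) / 2) f = (1 / 2) ^ n *
      ∑ y : Cube n, HS ρ (post ((1 - ρ) / 2) (restr f true) y)
        (post ((1 - ρ) / 2) (restr f false) y) := by
  unfold Ent HS
  rw [sum_cube_succ]
  simp only [post_cons]
  rw [← Finset.sum_add_distrib, pow_succ, Finset.mul_sum, Finset.mul_sum]
  apply Finset.sum_congr rfl
  intro y _
  simp only [if_true, Bool.false_eq_true, if_false]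
  have e : 1 - (1 - ρ) / 2 = (1 + ρ) / 2 := by ring
  rw [e]
  ring

/-- the induction -/
theorem ent_ge {ρ : ℝ} (h0 : 0 ≤ ρ) (h1 : ρ ≤ 1)
    (hcert : ∀ a b : ℝ, |a| ≤ 1 → |b| ≤ 1 → Cert ρ a b) :
    ∀ (n : ℕ) (f : Cube n → Bool), HH ρ (mean f) ≤ Ent ((1 - ρ) / 2) f := by
  intro n
  induction n with
  | zero =>
    intro f
    have hm : mean f = 1 ∨ mean f = -1 := by
      have e : mean f = sgn (f default) := by
        unfold mean
        simp only [pow_zero, one_mul, Finset.univ_unique, Finset.sum_singleton]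
        exact congrArg sgn (congrArg f (Subsingleton.elim _ _))
      rw [e]
      cases f default
      · right; simp [sgn]
      · left; simp [sgn]
    have h2 : HH ρ (mean f) = 0 := by
      unfold HH
      rcases hm with h | h <;> rw [h] <;> simp
    rw [h2]
    unfold Ent
    apply mul_nonneg (by positivity)
    apply Finset.sum_nonneg
    intro y _
    exact hb_nonneg (abs_post_le (by linarith) (by linarith) f y)
  | succ n ih =>
    intro f
    set ε := (1 - ρ) / 2 with hε
    have hε0 : 0 ≤ ε := by rw [hε]; linarith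
    have hε1 : ε ≤ 1 := by rw [hε]; linarith
    set a := mean (restr f true) with ha
    set b := mean (restr f false) with hb'
    obtain ⟨g, α, β₁, β₂, hg, hpt, hfin⟩ := hcert a b (abs_mean_le _) (abs_mean_le _)
    rw [mean_succ, ← ha, ← hb', Ent_succ]
    refine le_trans hfin ?_
    set U : Cube n → ℝ := fun y => post ε (restr f true) y with hU
    set W : Cube n → ℝ := fun y => post ε (restr f false) y with hW
    have hUa : (1 / 2 : ℝ) ^ n * ∑ y, U y = a := mean_post ε _
    have hWb : (1 / 2 : ℝ) ^ n * ∑ y, W y = b := mean_post ε _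
    have hEa : HH ρ a ≤ (1 / 2 : ℝ) ^ n * ∑ y, hb (U y) := ih (restr f true)
    have hEb : HH ρ b ≤ (1 / 2 : ℝ) ^ n * ∑ y, hb (W y) := ih (restr f false)
    have hsum : (1 / 2 : ℝ) ^ n * ∑ y, (g * ((hb (U y) + hb (W y)) / 2) + α + β₁ * U y + β₂ * W y) ≤
        (1 / 2 : ℝ) ^ n * ∑ y, HS ρ (U y) (W y) := by
      apply mul_le_mul_of_nonneg_left _ (by positivity)
      apply Finset.sum_le_sum
      intro y _
      exact hpt _ _ (abs_post_le hε0 hε1 _ _) (abs_post_le hε0 hε1 _ _)
    refine le_trans ?_ hsum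
    have hexp : (1 / 2 : ℝ) ^ n * ∑ y, (g * ((hb (U y) + hb (W y)) / 2) + α + β₁ * U y + β₂ * W y)
        = g * (((1 / 2 : ℝ) ^ n * ∑ y, hb (U y) + (1 / 2 : ℝ) ^ n * ∑ y, hb (W y)) / 2) + α
          + β₁ * a + β₂ * b := by
      rw [← hUa, ← hWb]
      have hα : (1 / 2 : ℝ) ^ n * ∑ _y : Cube n, α = α := by
        rw [Finset.sum_const, nsmul_eq_mul, ← mul_assoc]
        have := card_cube n
        rw [Finset.card_univ, this, one_mul]
      have hsplit : ∑ y, (g * ((hb (U y) + hb (W y)) / 2) + α + β₁ * U y + β₂ * W y)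
          = g / 2 * ∑ y, hb (U y) + g / 2 * ∑ y, hb (W y) + ∑ _y : Cube n, α
            + β₁ * ∑ y, U y + β₂ * ∑ y, W y := by
        rw [Finset.mul_sum, Finset.mul_sum, Finset.mul_sum, Finset.mul_sum,
          ← Finset.sum_add_distrib, ← Finset.sum_add_distrib, ← Finset.sum_add_distrib,
          ← Finset.sum_add_distrib]
        apply Finset.sum_congr rfl
        intro y _
        ring
      rw [hsplit, mul_add, mul_add, mul_add, mul_add, hα]
      ring
    rw [hexp]
    have := mul_le_mul_of_nonneg_left (add_le_add hEa hEb) (by linarith : 0 ≤ g / 2)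
    nlinarith [this]

/-! ### mutual information -/

theorem jointLaw_true {n : ℕ} (ε : ℝ) (f : Cube n → Bool) (y : Cube n) :
    jointLaw ε f true y = (1 / 2) ^ n * ((1 + post ε f y) / 2) := by
  have h : 1 + post ε f y = ∑ x, (chan ε x y + chan ε x y * sgn (f x)) := by
    unfold post
    rw [Finset.sum_add_distrib, sum_chan]
  rw [h]
  unfold jointLaw
  rw [Finset.sum_div, Finset.mul_sum]
  apply Finset.sum_congr rfl
  intro x _
  cases h : f x <;> simp [sgn]

theorem jointLaw_false {n : ℕ} (ε : ℝ) (f : Cube n → Bool) (y : Cube n) :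
    jointLaw ε f false y = (1 / 2) ^ n * ((1 - post ε f y) / 2) := by
  have h : 1 - post ε f y = ∑ x, (chan ε x y - chan ε x y * sgn (f x)) := by
    unfold post
    rw [Finset.sum_sub_distrib, sum_chan]
  rw [h]
  unfold jointLaw
  rw [Finset.sum_div, Finset.mul_sum]
  apply Finset.sum_congr rfl
  intro x _
  cases h : f x <;> simp [sgn]

theorem marginal_y {n : ℕ} (ε : ℝ) (f : Cube n → Bool) (y : Cube n) :
    ∑ b, jointLaw ε f b y = (1 / 2) ^ n := by
  rw [Fintype.sum_bool, jointLaw_true, jointLaw_false]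
  ring

theorem marginal_true {n : ℕ} (ε : ℝ) (f : Cube n → Bool) :
    ∑ y, jointLaw ε f true y = (1 + mean f) / 2 := by
  have h1 : ∑ y, jointLaw ε f true y = (1 / 2) ^ n * ∑ y : Cube n, (1 + post ε f y) / 2 := by
    rw [Finset.mul_sum]
    exact Finset.sum_congr rfl (fun y _ => jointLaw_true ε f y)
  rw [h1, ← Finset.sum_div, Finset.sum_add_distrib, ← mul_div_assoc, mul_add, mean_post]
  have := card_cube n
  rw [Finset.sum_const, nsmul_eq_mul, mul_one, Finset.card_univ, this]

theorem marginal_false {n : ℕ} (ε : ℝ) (f : Cube n → Bool) :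
    ∑ y, jointLaw ε f false y = (1 - mean f) / 2 := by
  have h1 : ∑ y, jointLaw ε f false y = (1 / 2) ^ n * ∑ y : Cube n, (1 - post ε f y) / 2 := by
    rw [Finset.mul_sum]
    exact Finset.sum_congr rfl (fun y _ => jointLaw_false ε f y)
  rw [h1, ← Finset.sum_div, Finset.sum_sub_distrib, ← mul_div_assoc, mul_sub, mean_post]
  have := card_cube n
  rw [Finset.sum_const, nsmul_eq_mul, mul_one, Finset.card_univ, this]

theorem mutualInfo_eq {n : ℕ} {ε : ℝ} (h0 : 0 ≤ ε) (h1 : ε ≤ 1) (f : Cube n → Bool) :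
    mutualInfo (jointLaw ε f) * log 2 = hb (mean f) - Ent ε f := by
  have hlog2 : log 2 ≠ 0 := (log_pos (by norm_num)).ne'
  set m := mean f with hm
  set c : ℝ := (1 / 2) ^ n with hc
  have hcpos : 0 < c := by rw [hc]; positivity
  -- the terms
  have term : ∀ (s q : ℝ), 0 ≤ s → (q = 0 → s = 0) →
      c * s * Real.logb 2 (c * s / (q * c)) * log 2 = c * (s * log s - s * log q) := by
    intro s q hs hq
    by_cases hs0 : s = 0
    · simp [hs0]
    · have hq0 : q ≠ 0 := fun h => hs0 (hq h)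
      have : c * s / (q * c) = s / q := by
        field_simp
      rw [this, Real.logb, Real.log_div hs0 hq0]
      field_simp
  -- the posterior of a constant
  have hT : ∀ y, (1 + m) / 2 = 0 → (1 + post ε f y) / 2 = 0 := by
    intro y hy
    have hsum : ∑ y, jointLaw ε f true y = 0 := by rw [marginal_true, ← hm, hy]
    have hnn : ∀ y ∈ Finset.univ, 0 ≤ jointLaw ε f true y := by
      intro y _
      rw [jointLaw_true]
      have := abs_post_le h0 h1 f y
      rw [abs_le] at this
      apply mul_nonneg hcpos.le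
      linarith [this.1]
    have := (Finset.sum_eq_zero_iff_of_nonneg hnn).mp hsum y (Finset.mem_univ y)
    rw [jointLaw_true] at this
    rcases mul_eq_zero.mp this with h | h
    · exact absurd h hcpos.ne'
    · exact h
  have hF : ∀ y, (1 - m) / 2 = 0 → (1 - post ε f y) / 2 = 0 := by
    intro y hy
    have hsum : ∑ y, jointLaw ε f false y = 0 := by rw [marginal_false, ← hm, hy]
    have hnn : ∀ y ∈ Finset.univ, 0 ≤ jointLaw ε f false y := by
      intro y _
      rw [jointLaw_false]
      have := abs_post_le h0 h1 f y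
      rw [abs_le] at this
      apply mul_nonneg hcpos.le
      linarith [this.2]
    have := (Finset.sum_eq_zero_iff_of_nonneg hnn).mp hsum y (Finset.mem_univ y)
    rw [jointLaw_false] at this
    rcases mul_eq_zero.mp this with h | h
    · exact absurd h hcpos.ne'
    · exact h
  have hb_eq : ∀ w : ℝ, hb w = -((1 + w) / 2 * log ((1 + w) / 2)) -
      (1 - w) / 2 * log ((1 - w) / 2) := by
    intro w
    unfold hb
    rw [Real.binEntropy_eq_negMulLog_add_negMulLog_one_sub]
    unfold Real.negMulLog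
    have : 1 - (1 + w) / 2 = (1 - w) / 2 := by ring
    rw [this]
    ring
  unfold mutualInfo
  rw [Fintype.sum_bool, add_mul, Finset.sum_mul, Finset.sum_mul, ← Finset.sum_add_distrib]
  have hterm : ∀ y : Cube n,
      jointLaw ε f true y * Real.logb 2 (jointLaw ε f true y /
        ((∑ b', jointLaw ε f true b') * (∑ a', jointLaw ε f a' y))) * log 2 +
      jointLaw ε f false y * Real.logb 2 (jointLaw ε f false y /
        ((∑ b', jointLaw ε f false b') * (∑ a', jointLaw ε f a' y))) * log 2 =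
      c * (-hb (post ε f y)) - c * ((1 + post ε f y) / 2 * log ((1 + m) / 2)) -
        c * ((1 - post ε f y) / 2 * log ((1 - m) / 2)) := by
    intro y
    have hab := abs_post_le h0 h1 f y
    rw [abs_le] at hab
    rw [marginal_true, marginal_false, marginal_y, jointLaw_true, jointLaw_false, ← hc, ← hm,
      term _ _ (by linarith [hab.1]) (hT y), term _ _ (by linarith [hab.2]) (hF y),
      hb_eq (post ε f y)]
    ring
  rw [Finset.sum_congr rfl (fun y _ => hterm y)]
  have e1 : ∑ y : Cube n, (c * (-hb (post ε f y)) - c * ((1 + post ε f y) / 2 * log ((1 + m) / 2)) -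
        c * ((1 - post ε f y) / 2 * log ((1 - m) / 2)))
      = -(c * ∑ y, hb (post ε f y))
        - (c * ∑ y : Cube n, (1 + post ε f y) / 2) * log ((1 + m) / 2)
        - (c * ∑ y : Cube n, (1 - post ε f y) / 2) * log ((1 - m) / 2) := by
    rw [Finset.sum_sub_distrib, Finset.sum_sub_distrib, ← Finset.mul_sum, ← Finset.mul_sum,
      ← Finset.mul_sum, ← Finset.sum_mul, ← Finset.sum_mul, Finset.sum_neg_distrib]
    ring
  have e2 : c * ∑ y : Cube n, (1 + post ε f y) / 2 = (1 + m) / 2 := by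
    rw [hm, ← marginal_true ε f, Finset.mul_sum]
    exact Finset.sum_congr rfl (fun y _ => (jointLaw_true ε f y).symm)
  have e3 : c * ∑ y : Cube n, (1 - post ε f y) / 2 = (1 - m) / 2 := by
    rw [hm, ← marginal_false ε f, Finset.mul_sum]
    exact Finset.sum_congr rfl (fun y _ => (jointLaw_false ε f y).symm)
  rw [e1, e2, e3, hb_eq m]
  unfold Ent
  rw [← hc]
  ring

/-! ### final assembly -/

theorem h2_eq (p : ℝ) : h2 p * log 2 = Real.binEntropy p := by
  have hlog2 : log 2 ≠ 0 := (log_pos (by norm_num)).ne'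
  unfold h2
  rw [Real.binEntropy_eq_negMulLog_add_negMulLog_one_sub]
  unfold Real.negMulLog Real.logb
  field_simp
  ring

/-- the Courtade–Kumar inequality at `ε = (1-ρ)/2` from the certificates and the scalar
comparison `HH ρ m ≥ hb m - (log 2 - hb ρ)` -/
theorem ck_of_cert {ρ : ℝ} (h0 : 0 ≤ ρ) (h1 : ρ ≤ 1)
    (hcert : ∀ a b : ℝ, |a| ≤ 1 → |b| ≤ 1 → Cert ρ a b)
    (hHH : ∀ m : ℝ, |m| ≤ 1 → hb m - (log 2 - hb ρ) ≤ HH ρ m)
    {n : ℕ} (f : Cube n → Bool) :
    mutualInfo (jointLaw ((1 - ρ) / 2) f) ≤ 1 - h2 ((1 - ρ) / 2) := by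
  have hlog2 : 0 < log 2 := log_pos (by norm_num)
  have h3 := mutualInfo_eq (ε := (1 - ρ) / 2) (by linarith) (by linarith) f
  have h4 := ent_ge h0 h1 hcert n f
  have h5 := hHH (mean f) (abs_mean_le f)
  have h6 : h2 ((1 - ρ) / 2) * log 2 = hb ρ := by
    rw [h2_eq, ← hb_neg]
    unfold hb
    congr 1
  have h7 : mutualInfo (jointLaw ((1 - ρ) / 2) f) * log 2 ≤ (1 - h2 ((1 - ρ) / 2)) * log 2 := by
    rw [h3, sub_mul, one_mul, h6]
    linarith
  exact le_of_mul_le_mul_right h7 hlog2

end

end Vale.Agent.P322
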