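import Vale.Agent.P322.RForms

/-!
# P322: positivity of `kap`, concavity of `HH`, monotonicity of `R1`, `R2`
-/

namespace Vale.Agent.P322

open Real Finset

noncomputable section

/-- `x/(1-x²) ≥ ath x` -/
theorem ath_le {x : ℝ} (h0 : 0 ≤ x) (h1 : x < 1) : ath x ≤ x / (1 - x ^ 2) := by
  have hder : ∀ t ∈ Set.Icc (0:ℝ) x, HasDerivAt (fun t : ℝ => t / (1 - t ^ 2) - ath t)
      (2 * t ^ 2 / (1 - t ^ 2) ^ 2) t := by
    intro t ht
    have ht1 : t < 1 := lt_of_le_of_lt ht.2 h1
    have hp : 1 - t ^ 2 ≠ 0 := (one_sub_sq_pos (by linarith [ht.1]) ht1).ne'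
    have e1 : HasDerivAt (fun t : ℝ => 1 - t ^ 2) (-(2 * t)) t := by
      have := ((hasDerivAt_id t).pow 2).const_sub 1
      simpa using this
    have := ((hasDerivAt_id t).div e1 hp).sub (hasDerivAt_ath (by linarith [ht.1]) ht1)
    refine this.congr_deriv ?_
    simp only [id]
    field_simp
    ring
  have hmono : MonotoneOn (fun t : ℝ => t / (1 - t ^ 2) - ath t) (Set.Icc 0 x) := by
    apply monotoneOn_of_deriv_nonneg (convex_Icc 0 x)
    · intro t ht
      exact (hder t ht).continuousAt.continuousWithinAt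
    · intro t ht
      rw [interior_Icc] at ht
      exact (hder t ⟨ht.1.le, ht.2.le⟩).differentiableAt.differentiableWithinAt
    · intro t ht
      rw [interior_Icc] at ht
      rw [(hder t ⟨ht.1.le, ht.2.le⟩).deriv]
      positivity
  have := hmono ⟨le_refl _, h0⟩ ⟨h0, le_refl _⟩ h0
  simp only [ath_zero, zero_div, sub_zero] at this
  linarith

/-- `ath x / x` is nondecreasing -/
theorem ath_ratio {x y : ℝ} (h0 : 0 < x) (hxy : x ≤ y) (h1 : y < 1) : ath x * y ≤ ath y * x := by
  have hder : ∀ t ∈ Set.Icc x y, HasDerivAt (fun t : ℝ => ath t / t)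
      ((1 / (1 - t ^ 2) * t - ath t * 1) / t ^ 2) t := by
    intro t ht
    have ht0 : 0 < t := lt_of_lt_of_le h0 ht.1
    exact (hasDerivAt_ath (by linarith) (lt_of_le_of_lt ht.2 h1)).div (hasDerivAt_id t) ht0.ne'
  have hmono : MonotoneOn (fun t : ℝ => ath t / t) (Set.Icc x y) := by
    apply monotoneOn_of_deriv_nonneg (convex_Icc x y)
    · intro t ht
      exact (hder t ht).continuousAt.continuousWithinAt
    · intro t ht
      rw [interior_Icc] at ht
      exact (hder t ⟨ht.1.le, ht.2.le⟩).differentiableAt.differentiableWithinAt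
    · intro t ht
      rw [interior_Icc] at ht
      rw [(hder t ⟨ht.1.le, ht.2.le⟩).deriv]
      apply div_nonneg _ (sq_nonneg _)
      have := ath_le (x := t) (by linarith [ht.1]) (lt_trans ht.2 h1)
      have e : 1 / (1 - t ^ 2) * t = t / (1 - t ^ 2) := by ring
      rw [e]
      linarith
  have := hmono ⟨le_refl _, hxy⟩ ⟨hxy, le_refl _⟩ hxy
  simp only at this
  rw [div_le_div_iff₀ h0 (by linarith)] at this
  exact this

theorem kap_nonneg {ρ : ℝ} (h0 : 0 ≤ ρ) (h1 : ρ ≤ 1) : 0 ≤ kap ρ := by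
  rcases h0.eq_or_lt with h | hρ0
  · rw [← h]; unfold kap; simp [hb_zero]
  rcases h1.eq_or_lt with h | hρ1
  · rw [h]; unfold kap; simp
  have hder : ∀ t ∈ Set.Ioo (0:ℝ) 1, HasDerivAt kap (-ath t + 2 * t * log 2) t := by
    intro t ht
    have e1 := hasDerivAt_hb (w := t) (by linarith [ht.1]) ht.2
    have e2 : HasDerivAt (fun t : ℝ => (1 - t ^ 2) * log 2) (-(2 * t) * log 2) t := by
      have : HasDerivAt (fun t : ℝ => 1 - t ^ 2) (-(2 * t)) t := by
        have := ((hasDerivAt_id t).pow 2).const_sub 1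
        simpa using this
      exact this.mul_const _
    refine (e1.sub e2).congr_deriv ?_
    unfold ath
    ring
  have hcont : Continuous kap := by
    unfold kap
    have := continuous_hb
    fun_prop
  rcases le_total (ath ρ) (2 * ρ * log 2) with hcase | hcase
  · have hmono : MonotoneOn kap (Set.Icc 0 ρ) := by
      apply monotoneOn_of_deriv_nonneg (convex_Icc 0 ρ) hcont.continuousOn
      · intro t ht
        rw [interior_Icc] at ht
        exact (hder t ⟨ht.1, lt_trans ht.2 hρ1⟩).differentiableAt.differentiableWithinAt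
      · intro t ht
        rw [interior_Icc] at ht
        rw [(hder t ⟨ht.1, lt_trans ht.2 hρ1⟩).deriv]
        have h2 := ath_ratio ht.1 ht.2.le hρ1
        have h3 : ath ρ * t ≤ 2 * ρ * log 2 * t := mul_le_mul_of_nonneg_right hcase ht.1.le
        have h4 : ρ * ath t ≤ ρ * (2 * t * log 2) := by linarith
        have := le_of_mul_le_mul_left h4 hρ0
        linarith
    have := hmono ⟨le_refl _, h0⟩ ⟨h0, le_refl _⟩ h0
    have e : kap 0 = 0 := by unfold kap; simp [hb_zero]
    linarith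
  · have hanti : AntitoneOn kap (Set.Icc ρ 1) := by
      apply antitoneOn_of_deriv_nonpos (convex_Icc ρ 1) hcont.continuousOn
      · intro t ht
        rw [interior_Icc] at ht
        exact (hder t ⟨lt_trans hρ0 ht.1, ht.2⟩).differentiableAt.differentiableWithinAt
      · intro t ht
        rw [interior_Icc] at ht
        rw [(hder t ⟨lt_trans hρ0 ht.1, ht.2⟩).deriv]
        have h2 := ath_ratio hρ0 ht.1.le ht.2
        have ht0 : 0 < t := lt_trans hρ0 ht.1
        have h3 : 2 * ρ * log 2 * t ≤ ath ρ * t := mul_le_mul_of_nonneg_right hcase ht0.le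
        have h4 : ρ * (2 * t * log 2) ≤ ρ * ath t := by linarith
        have := le_of_mul_le_mul_left h4 hρ0
        linarith
    have := hanti ⟨le_refl _, h1⟩ ⟨h1, le_refl _⟩ h1
    have e : kap 1 = 0 := by unfold kap; simp
    linarith

theorem concaveOn_hb : ConcaveOn ℝ (Set.Icc (-1:ℝ) 1) hb := by
  have h2 := Real.strictConcave_binEntropy.concaveOn
  refine ⟨convex_Icc _ _, ?_⟩
  intro x hx y hy s t hs ht hst
  have h3 := h2.2 (x := (1 + x) / 2) ⟨by linarith [hx.1], by linarith [hx.2]⟩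
    (y := (1 + y) / 2) ⟨by linarith [hy.1], by linarith [hy.2]⟩ hs ht hst
  unfold hb
  simp only [smul_eq_mul] at h3 ⊢
  have e : (1 + (s * x + t * y)) / 2 = s * ((1 + x) / 2) + t * ((1 + y) / 2) := by
    have : s * ((1 + x) / 2) + t * ((1 + y) / 2) = ((s + t) + (s * x + t * y)) / 2 := by ring
    rw [this, hst]
  rw [e]
  exact h3

theorem concaveOn_HH {ρ : ℝ} (h0 : 0 ≤ ρ) (h1 : ρ ≤ 1) :
    ConcaveOn ℝ (Set.Icc (-1:ℝ) 1) (HH ρ) := by
  have hN : 0 ≤ 1 - ρ ^ 2 := by nlinarith
  have hk := kap_nonneg h0 h1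
  have c1 : ConcaveOn ℝ (Set.Icc (-1:ℝ) 1) (fun m => (1 - ρ ^ 2) * hb m) := by
    have := concaveOn_hb.smul hN
    exact this
  have c2 : ConcaveOn ℝ (Set.Icc (-1:ℝ) 1) (fun m : ℝ => kap ρ * (1 - m ^ 2)) := by
    have h3 : ConvexOn ℝ (Set.Icc (-1:ℝ) 1) (fun m : ℝ => m ^ 2) :=
      (even_two.convexOn_pow).subset (Set.subset_univ _) (convex_Icc _ _)
    have h4 : ConcaveOn ℝ (Set.Icc (-1:ℝ) 1) (fun m : ℝ => 1 - m ^ 2) :=
      (concaveOn_const (1:ℝ) (convex_Icc _ _)).sub h3
    have := h4.smul hk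
    exact this
  exact c1.add c2

theorem HH_one (ρ : ℝ) : HH ρ 1 = 0 := by unfold HH; simp

/-- slope monotonicity: `p' HH(1-p w) ≥ p HH(1-p' w)` -/
theorem HH_slope {ρ : ℝ} (h0 : 0 ≤ ρ) (h1 : ρ ≤ 1) {p p' w : ℝ} (hp : 0 < p) (hpp : p ≤ p')
    (hw0 : 0 ≤ w) (hw : p' * w ≤ 2) : p * HH ρ (1 - p' * w) ≤ p' * HH ρ (1 - p * w) := by
  have hp' : 0 < p' := by linarith
  have hc := concaveOn_HH h0 h1
  have hx : (1 - p' * w) ∈ Set.Icc (-1:ℝ) 1 := ⟨by linarith, by nlinarith [mul_nonneg hp'.le hw0]⟩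
  have hy : (1:ℝ) ∈ Set.Icc (-1:ℝ) 1 := ⟨by norm_num, le_refl _⟩
  have h3 := hc.2 hx hy (show 0 ≤ p / p' by positivity)
    (show 0 ≤ 1 - p / p' by rw [sub_nonneg, div_le_one hp']; exact hpp) (by ring)
  simp only [smul_eq_mul, HH_one, mul_zero, add_zero, mul_one] at h3
  have e : p / p' * (1 - p' * w) + (1 - p / p') = 1 - p * w := by
    field_simp
    ring
  rw [e] at h3
  have h4 := mul_le_mul_of_nonneg_left h3 hp'.le
  have e2 : p' * (p / p' * HH ρ (1 - p' * w)) = p * HH ρ (1 - p' * w) := by field_simp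
  rw [e2] at h4
  exact h4

theorem R2_mono {ρ : ℝ} (h0 : 0 ≤ ρ) (h1 : ρ ≤ 1) {x y p p' : ℝ} (hp : 0 < p) (hpp : p ≤ p')
    (hx : x ≤ 1) (hy : y ≤ 1) (hx2 : p' * (1 - x) ≤ 2) (hy2 : p' * (1 - y) ≤ 2)
    (h : 0 ≤ R2 ρ x y p) : 0 ≤ R2 ρ x y p' := by
  have hp' : 0 < p' := by linarith
  have k1 := HH_slope h0 h1 hp hpp (w := 1 - x) (by linarith) hx2
  have k2 := HH_slope h0 h1 hp hpp (w := 1 - y) (by linarith) hy2
  have h2 : 0 ≤ p' * R2 ρ x y p := mul_nonneg hp'.le h
  have h3 : p' * R2 ρ x y p ≤ p * R2 ρ x y p' := by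
    unfold R2
    nlinarith
  exact nonneg_of_mul_nonneg_right (le_trans h2 h3) hp

/-- the symmetric `R2` is monotone in the mean -/
theorem HH_sym_le {ρ : ℝ} (h0 : 0 ≤ ρ) (h1 : ρ ≤ 1) {m e : ℝ} (he : 0 ≤ e) (hm : 0 ≤ m)
    (hme : m + e ≤ 1) : (HH ρ (m + e) + HH ρ (m - e)) / 2 ≤ HH ρ e := by
  have hc := concaveOn_HH h0 h1
  have h3 := hc.2 (x := m + e) ⟨by linarith, by linarith⟩ (y := e - m)
    ⟨by linarith, by linarith⟩ (show (0:ℝ) ≤ 1 / 2 by norm_num) (show (0:ℝ) ≤ 1 / 2 by norm_num)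
    (by norm_num)
  simp only [smul_eq_mul] at h3
  have e1 : 1 / 2 * (m + e) + 1 / 2 * (e - m) = e := by ring
  have e2 : HH ρ (e - m) = HH ρ (m - e) := by rw [← HH_neg]; congr 1; ring
  rw [e1, e2] at h3
  linarith

/-- the Jensen gap of `hb` is monotone in the mean -/
theorem J_mono {m m' e : ℝ} (he : 0 ≤ e) (hm : 0 ≤ m) (hmm : m ≤ m') (hme : m' + e ≤ 1) :
    hb m - (hb (m + e) + hb (m - e)) / 2 ≤ hb m' - (hb (m' + e) + hb (m' - e)) / 2 := by
  have hder : ∀ t ∈ Set.Ioo m m', HasDerivAt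
      (fun t : ℝ => hb t - (hb (t + e) + hb (t - e)) / 2)
      ((log (1 - t) - log (1 + t)) / 2 -
        ((log (1 - (t + e)) - log (1 + (t + e))) / 2 +
          (log (1 - (t - e)) - log (1 + (t - e))) / 2) / 2) t := by
    intro t ht
    have d1 := hasDerivAt_hb (w := t) (by linarith [ht.1]) (by linarith [ht.2])
    have d2 : HasDerivAt (fun t : ℝ => hb (t + e))
        ((log (1 - (t + e)) - log (1 + (t + e))) / 2) t := by
      have h := hasDerivAt_hb (w := t + e) (by linarith [ht.1]) (by linarith [ht.2])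
      have hin : HasDerivAt (fun t : ℝ => t + e) 1 t := by
        simpa using (hasDerivAt_id t).add_const e
      have := HasDerivAt.comp (h₂ := hb) (h := fun t : ℝ => t + e) t h hin
      rw [mul_one] at this
      exact this
    have d3 : HasDerivAt (fun t : ℝ => hb (t - e))
        ((log (1 - (t - e)) - log (1 + (t - e))) / 2) t := by
      have h := hasDerivAt_hb (w := t - e) (by linarith [ht.1]) (by linarith [ht.2])
      have hin : HasDerivAt (fun t : ℝ => t - e) 1 t := by
        simpa using (hasDerivAt_id t).sub_const e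
      have := HasDerivAt.comp (h₂ := hb) (h := fun t : ℝ => t - e) t h hin
      rw [mul_one] at this
      exact this
    exact d1.sub ((d2.add d3).div_const 2)
  have hmono : MonotoneOn (fun t : ℝ => hb t - (hb (t + e) + hb (t - e)) / 2) (Set.Icc m m') := by
    apply monotoneOn_of_deriv_nonneg (convex_Icc m m')
    · apply Continuous.continuousOn
      have := continuous_hb
      fun_prop
    · intro t ht
      rw [interior_Icc] at ht
      exact (hder t ht).differentiableAt.differentiableWithinAt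
    · intro t ht
      rw [interior_Icc] at ht
      rw [(hder t ht).deriv]
      have ht0 : 0 < t := by linarith [ht.1]
      have ht1 : t + e < 1 := by linarith [ht.2]
      -- reduces to `(1-t-e)(1-t+e)(1+t)² ≤ (1+t+e)(1+t-e)(1-t)²`
      have l1 : log (1 - (t + e)) + log (1 - (t - e)) + 2 * log (1 + t) ≤
          log (1 + (t + e)) + log (1 + (t - e)) + 2 * log (1 - t) := by
        have q1 : 0 < 1 - (t + e) := by linarith
        have q2 : 0 < 1 - (t - e) := by linarith
        have q3 : 0 < 1 + t := by linarith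
        have q4 : 0 < 1 + (t + e) := by linarith
        have q5 : 0 < 1 + (t - e) := by linarith
        have q6 : 0 < 1 - t := by linarith
        have e1 : log (1 - (t + e)) + log (1 - (t - e)) + 2 * log (1 + t) =
            log ((1 - (t + e)) * (1 - (t - e)) * (1 + t) ^ 2) := by
          rw [Real.log_mul (by positivity) (by positivity), Real.log_mul q1.ne' q2.ne',
            Real.log_pow]
          norm_num
        have e2 : log (1 + (t + e)) + log (1 + (t - e)) + 2 * log (1 - t) =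
            log ((1 + (t + e)) * (1 + (t - e)) * (1 - t) ^ 2) := by
          rw [Real.log_mul (by positivity) (by positivity), Real.log_mul q4.ne' q5.ne',
            Real.log_pow]
          norm_num
        rw [e1, e2]
        apply Real.log_le_log (by positivity)
        nlinarith [mul_nonneg ht0.le (sq_nonneg e)]
      linarith
  exact hmono ⟨le_refl _, hmm⟩ ⟨hmm, le_refl _⟩ hmm

/-- `T Φ(z/T)` is nonincreasing in `T` -/
theorem TPhi_anti {z T T' : ℝ} (hz : 0 < z) (hzT : z < T) (hTT : T ≤ T') :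
    T' * Phi (z / T') ≤ T * Phi (z / T) := by
  have hder : ∀ t ∈ Set.Icc T T', HasDerivAt (fun t : ℝ => t * Phi (z / t))
      (1 * Phi (z / t) + t * (ath (z / t) * (-z / t ^ 2))) t := by
    intro t ht
    have ht0 : 0 < t := by linarith [ht.1]
    have h1 : z / t < 1 := by rw [div_lt_one ht0]; linarith [ht.1]
    have h2 : 0 < z / t := by positivity
    have hin : HasDerivAt (fun t : ℝ => z / t) (-z / t ^ 2) t := by
      have := (hasDerivAt_const t z).div (hasDerivAt_id t) ht0.ne'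
      refine this.congr_deriv ?_
      simp
    have d1 := HasDerivAt.comp (h₂ := Phi) (h := fun t : ℝ => z / t) t
      (hasDerivAt_Phi (by linarith) h1) hin
    exact (hasDerivAt_id t).mul d1
  have hanti : AntitoneOn (fun t : ℝ => t * Phi (z / t)) (Set.Icc T T') := by
    apply antitoneOn_of_deriv_nonpos (convex_Icc T T')
    · intro t ht
      exact (hder t ht).continuousAt.continuousWithinAt
    · intro t ht
      rw [interior_Icc] at ht
      exact (hder t ⟨ht.1.le, ht.2.le⟩).differentiableAt.differentiableWithinAt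
    · intro t ht
      rw [interior_Icc] at ht
      rw [(hder t ⟨ht.1.le, ht.2.le⟩).deriv]
      have ht0 : 0 < t := by linarith [ht.1]
      have h1 : z / t < 1 := by rw [div_lt_one ht0]; linarith [ht.1]
      have h2 : 0 < z / t := by positivity
      rw [Phi_eq (by linarith) h1]
      have e : 1 * (z / t * ath (z / t) - La (z / t)) + t * (ath (z / t) * (-z / t ^ 2)) =
          -La (z / t) := by
        field_simp
        ring
      rw [e]
      have := La_nonneg (t := z / t) (by linarith) h1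
      linarith
  exact hanti ⟨le_refl _, hTT⟩ ⟨hTT, le_refl _⟩ hTT

/-- form of `R1` at the symmetric reference points -/
theorem R1_sym_eq {ρ z p : ℝ} (hρ0 : 0 < ρ) (hρ1 : ρ ≤ 1) (hz0 : 0 < z) (hz1 : z < 1)
    (hp0 : 0 < p) (hp1 : p ≤ 1) :
    R1 ρ z (-z) p = p * (WW ρ z + (1 - ρ ^ 2) / 2 * (Phi z - (2 / p - 1) * Phi (z / (2 / p - 1))) -
      kap ρ * p * z ^ 2) := by
  have h := R1_eq (ρ := ρ) (u := (1 - z) / 2) (v := (1 + z) / 2) (p := p) hρ0 hρ1 (by linarith)
    (by linarith) (by linarith) hp0 hp1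
  have e1 : 1 - 2 * ((1 - z) / 2) = z := by ring
  have e2 : 1 - 2 * ((1 + z) / 2) = -z := by ring
  have e3 : ((1 - z) / 2 + (1 + z) / 2) / 2 = 1 / 2 := by ring
  have e4 : ((1 + z) / 2 - (1 - z) / 2) / 2 = z / 2 := by ring
  have e5 : (1:ℝ) - 1 / 2 = 1 / 2 := by norm_num
  have e6 : z / 2 / (1 / 2) = z := by ring
  have e7 : z / 2 / (1 / p - 1 / 2) = z / (2 / p - 1) := by
    have : 2 / p - 1 = 2 * (1 / p - 1 / 2) := by ring
    rw [this]
    rw [div_div]
  rw [e1, e2, e3, e4, e5, e6, e7] at h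
  rw [h]
  ring

/-- `R1/p` at the symmetric reference points is nonincreasing in `p` -/
theorem R1_sym_mono {ρ : ℝ} (hρ0 : 0 < ρ) (hρ1 : ρ ≤ 1) {z p p' : ℝ} (hz0 : 0 < z) (hz1 : z < 1)
    (hp : 0 < p) (hpp : p ≤ p') (hp' : p' ≤ 1) (h : 0 ≤ R1 ρ z (-z) p') :
    0 ≤ R1 ρ z (-z) p := by
  have hp'0 : 0 < p' := by linarith
  rw [R1_sym_eq hρ0 hρ1 hz0 hz1 hp'0 hp'] at h
  rw [R1_sym_eq hρ0 hρ1 hz0 hz1 hp (by linarith)]
  apply mul_nonneg hp.le
  have h2 := nonneg_of_mul_nonneg_right h hp'0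
  have hT : 2 / p' - 1 ≤ 2 / p - 1 := by
    have : 2 / p' ≤ 2 / p := div_le_div_of_nonneg_left (by norm_num) hp hpp
    linarith
  have hzT : z < 2 / p' - 1 := by
    have : 2 ≤ 2 / p' := by rw [le_div_iff₀ hp'0]; linarith
    linarith
  have h3 := TPhi_anti hz0 hzT hT
  have hN : 0 ≤ (1 - ρ ^ 2) / 2 := by nlinarith
  have h4 := mul_le_mul_of_nonneg_left h3 hN
  have hk := kap_nonneg hρ0.le hρ1
  have h5 : kap ρ * p * z ^ 2 ≤ kap ρ * p' * z ^ 2 :=
    mul_le_mul_of_nonneg_right (mul_le_mul_of_nonneg_left hpp hk) (sq_nonneg z)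
  linarith

end

end Vale.Agent.P322
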