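import Vale.Agent.P322.Mono

/-!
# P322: `R1` for a fixed difference `d = v - u` is smallest at `u = 0`
-/

namespace Vale.Agent.P322

open Real Finset

noncomputable section

theorem hasDerivAt_WW {ρ : ℝ} (hρ0 : 0 < ρ) (hρ1 : ρ ≤ 1) {t : ℝ} (h1 : -1 < t) (h2 : t < 1) :
    HasDerivAt (WW ρ) (ρ ^ 2 * ath t - ρ * ath (ρ * t)) t := by
  obtain ⟨h3, h4⟩ := rho_mul_lt hρ0 hρ1 h1 h2
  have e1 := (hasDerivAt_Phi h1 h2).const_mul (ρ ^ 2)
  have e2 : HasDerivAt (fun t => Phi (ρ * t)) (ath (ρ * t) * ρ) t := by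
    have hin : HasDerivAt (fun t : ℝ => ρ * t) ρ t := by
      simpa using (hasDerivAt_id t).const_mul ρ
    exact (hasDerivAt_Phi h3 h4).comp t hin
  refine (e1.sub e2).congr_deriv ?_
  ring

/-- convexity of `W` -/
theorem convexOn_WW {ρ : ℝ} (hρ0 : 0 < ρ) (hρ1 : ρ ≤ 1) :
    ConvexOn ℝ (Set.Ioo (-1:ℝ) 1) (WW ρ) := by
  apply MonotoneOn.convexOn_of_deriv (convex_Ioo _ _)
  · intro t ht
    exact (hasDerivAt_WW hρ0 hρ1 ht.1 ht.2).continuousAt.continuousWithinAt
  · intro t ht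
    rw [interior_Ioo] at ht
    exact (hasDerivAt_WW hρ0 hρ1 ht.1 ht.2).differentiableAt.differentiableWithinAt
  · rw [interior_Ioo]
    have hd : ∀ t ∈ Set.Ioo (-1:ℝ) 1, deriv (WW ρ) t = ρ ^ 2 * ath t - ρ * ath (ρ * t) :=
      fun t ht => (hasDerivAt_WW hρ0 hρ1 ht.1 ht.2).deriv
    have hder : ∀ t ∈ Set.Ioo (-1:ℝ) 1, HasDerivAt (fun t => ρ ^ 2 * ath t - ρ * ath (ρ * t))
        (ρ ^ 2 * (1 / (1 - t ^ 2) - 1 / (1 - (ρ * t) ^ 2))) t := by
      intro t ht
      obtain ⟨h3, h4⟩ := rho_mul_lt hρ0 hρ1 ht.1 ht.2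
      have e1 := (hasDerivAt_ath ht.1 ht.2).const_mul (ρ ^ 2)
      have e2 : HasDerivAt (fun t => ρ * ath (ρ * t)) (ρ * ((1 / (1 - (ρ * t) ^ 2)) * ρ)) t := by
        have hin : HasDerivAt (fun t : ℝ => ρ * t) ρ t := by
          simpa using (hasDerivAt_id t).const_mul ρ
        exact ((hasDerivAt_ath h3 h4).comp t hin).const_mul ρ
      refine (e1.sub e2).congr_deriv ?_
      ring
    have hmono : MonotoneOn (fun t => ρ ^ 2 * ath t - ρ * ath (ρ * t)) (Set.Ioo (-1:ℝ) 1) := by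
      apply monotoneOn_of_deriv_nonneg (convex_Ioo _ _)
      · intro t ht
        exact (hder t ht).continuousAt.continuousWithinAt
      · intro t ht
        rw [interior_Ioo] at ht
        exact (hder t ht).differentiableAt.differentiableWithinAt
      · intro t ht
        rw [interior_Ioo] at ht
        rw [(hder t ht).deriv]
        apply mul_nonneg (sq_nonneg ρ)
        have h1 := one_sub_sq_pos ht.1 ht.2
        have hq : ρ ^ 2 ≤ 1 := by nlinarith
        have h2 : (ρ * t) ^ 2 ≤ t ^ 2 := by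
          rw [mul_pow]
          exact mul_le_of_le_one_left (sq_nonneg t) hq
        have h3 : 1 / (1 - (ρ * t) ^ 2) ≤ 1 / (1 - t ^ 2) :=
          one_div_le_one_div_of_le h1 (by linarith)
        linarith
    intro a ha b hb hab
    rw [hd a ha, hd b hb]
    exact hmono ha hb hab

/-- Jensen for `W` -/
theorem WW_jensen {ρ : ℝ} (hρ0 : 0 < ρ) (hρ1 : ρ ≤ 1) {s z : ℝ} (hz0 : 0 < z) (hzs : z < s)
    (hs : s ≤ 1 / 2) : WW ρ (2 * z) ≤ s * WW ρ (z / s) + (1 - s) * WW ρ (z / (1 - s)) := by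
  have hs0 : 0 < s := by linarith
  have hs1 : 0 < 1 - s := by linarith
  have hc := convexOn_WW hρ0 hρ1
  have m1 : z / s ∈ Set.Ioo (-1:ℝ) 1 :=
    ⟨by have := div_pos hz0 hs0; linarith, by rw [div_lt_one hs0]; exact hzs⟩
  have m2 : z / (1 - s) ∈ Set.Ioo (-1:ℝ) 1 :=
    ⟨by have := div_pos hz0 hs1; linarith, by rw [div_lt_one hs1]; linarith⟩
  have h := hc.2 m1 m2 hs0.le hs1.le (by ring)
  simp only [smul_eq_mul] at h
  have e : s * (z / s) + (1 - s) * (z / (1 - s)) = 2 * z := by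
    field_simp
    ring
  rw [e] at h
  exact h

theorem TPhi_eq {z T : ℝ} (hz : 0 < z) (hzT : z < T) :
    T * Phi (z / T) = ((T + z) * log (T + z) + (T - z) * log (T - z)) / 2 - T * log T := by
  have hT : 0 < T := by linarith
  unfold Phi
  have e1 : 1 + z / T = (T + z) / T := by field_simp
  have e2 : 1 - z / T = (T - z) / T := by field_simp
  rw [e1, e2, Real.log_div (by linarith) hT.ne', Real.log_div (by linarith) hT.ne']
  field_simp
  ring

/-- the bracket is nondecreasing in `s` -/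
theorem bracket_mono {z s k : ℝ} (hz0 : 0 < z) (hzs : z ≤ s) (hs : s ≤ 1 / 2) (hz1 : z < 1 / 2)
    (hk : 1 ≤ k) :
    (1 - z) * Phi (z / (1 - z)) - (k - z) * Phi (z / (k - z)) ≤
      (1 - s) * Phi (z / (1 - s)) - (k - s) * Phi (z / (k - s)) := by
  have hd : ∀ c : ℝ, ∀ t : ℝ, z < c - t → HasDerivAt (fun t : ℝ => (c - t) * Phi (z / (c - t)))
      (La (z / (c - t))) t := by
    intro c t ht
    have hT0 : 0 < c - t := by linarith
    have h1 : z / (c - t) < 1 := by rw [div_lt_one hT0]; exact ht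
    have h2 : 0 < z / (c - t) := by positivity
    have i1 : HasDerivAt (fun t : ℝ => c - t) (-1) t := by
      simpa using (hasDerivAt_id t).const_sub c
    have i2 : HasDerivAt (fun t : ℝ => z / (c - t)) (z / (c - t) ^ 2) t := by
      have := (hasDerivAt_const t z).div i1 hT0.ne'
      refine this.congr_deriv ?_
      ring
    have d1 := HasDerivAt.comp (h₂ := Phi) (h := fun t : ℝ => z / (c - t)) t
      (hasDerivAt_Phi (by linarith) h1) i2
    refine (i1.mul d1).congr_deriv ?_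
    rw [Function.comp_apply, Phi_eq (by linarith) h1]
    field_simp
    ring
  have hder : ∀ t ∈ Set.Icc z s, HasDerivAt
      (fun t : ℝ => (1 - t) * Phi (z / (1 - t)) - (k - t) * Phi (z / (k - t)))
      (La (z / (1 - t)) - La (z / (k - t))) t := by
    intro t ht
    exact (hd 1 t (by linarith [ht.2])).sub (hd k t (by linarith [ht.2]))
  have hmono : MonotoneOn (fun t : ℝ => (1 - t) * Phi (z / (1 - t)) - (k - t) * Phi (z / (k - t)))
      (Set.Icc z s) := by
    apply monotoneOn_of_deriv_nonneg (convex_Icc z s)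
    · intro t ht
      exact (hder t ht).continuousAt.continuousWithinAt
    · intro t ht
      rw [interior_Icc] at ht
      exact (hder t ⟨ht.1.le, ht.2.le⟩).differentiableAt.differentiableWithinAt
    · intro t ht
      rw [interior_Icc] at ht
      rw [(hder t ⟨ht.1.le, ht.2.le⟩).deriv]
      have hT0 : 0 < 1 - t := by linarith [ht.2]
      have hT1 : 0 < k - t := by linarith [ht.2]
      have h1 : z / (1 - t) < 1 := by rw [div_lt_one hT0]; linarith [ht.2]
      have h2 : z / (k - t) ≤ z / (1 - t) := div_le_div_of_nonneg_left hz0.le hT0 (by linarith)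
      have h3 : 0 < z / (k - t) := by positivity
      unfold La
      have h4 : (z / (k - t)) ^ 2 ≤ (z / (1 - t)) ^ 2 := by
        apply pow_le_pow_left₀ h3.le h2
      have h5 : (z / (1 - t)) ^ 2 < 1 := by
        have : 0 < z / (1 - t) := by positivity
        nlinarith
      have h6 : log (1 - (z / (1 - t)) ^ 2) ≤ log (1 - (z / (k - t)) ^ 2) :=
        Real.log_le_log (by linarith) (by linarith)
      linarith
  exact hmono ⟨le_refl _, hzs⟩ ⟨hzs, le_refl _⟩ hzs

/-- the lower bound of `R1/p` for fixed `d` -/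
def XJ (ρ d p : ℝ) : ℝ :=
  WW ρ d - kap ρ * p * d ^ 2 + (1 - ρ ^ 2) * ((1 - d / 2) * Phi ((d / 2) / (1 - d / 2)) -
    (1 / p - d / 2) * Phi ((d / 2) / (1 / p - d / 2)))

theorem R1_ge_XJ {ρ u d p : ℝ} (hρ0 : 0 < ρ) (hρ1 : ρ ≤ 1) (hu : 0 < u) (hd : 0 < d)
    (hs : 2 * u + d ≤ 1) (hp0 : 0 < p) (hp1 : p ≤ 1) :
    p * XJ ρ d p ≤ R1 ρ (1 - 2 * u) (1 - 2 * (u + d)) p := by
  rw [R1_eq hρ0 hρ1 hu (by linarith) (by linarith) hp0 hp1]
  apply mul_le_mul_of_nonneg_left _ hp0.le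
  have e1 : (u + d - u) / 2 = d / 2 := by ring
  rw [e1]
  set s := (u + (u + d)) / 2 with hsd
  set z := d / 2 with hz
  have hz0 : 0 < z := by rw [hz]; linarith
  have hzs : z < s := by rw [hz, hsd]; linarith
  have hs2 : s ≤ 1 / 2 := by rw [hsd]; linarith
  have h1 := WW_jensen hρ0 hρ1 hz0 hzs hs2
  have hk : 1 ≤ 1 / p := by rw [le_div_iff₀ hp0]; linarith
  have h2 := bracket_mono hz0 hzs.le hs2 (by linarith) hk
  have hN : 0 ≤ 1 - ρ ^ 2 := by nlinarith
  have h3 := mul_le_mul_of_nonneg_left h2 hN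
  unfold XJ
  have e2 : d = 2 * z := by rw [hz]; ring
  rw [← hz, e2]
  nlinarith

/-- `XJ` in terms of logarithms -/
theorem XJ_eq {ρ d p : ℝ} (hd : 0 < d) (hd1 : d < 1) (hp0 : 0 < p) (hp1 : p ≤ 1) :
    XJ ρ d p = WW ρ d - kap ρ * p * d ^ 2 + (1 - ρ ^ 2) * (
      (1 - d) * log (1 - d) / 2 - (1 - d / 2) * log (1 - d / 2) -
      (1 / p * log (1 / p) + (1 / p - d) * log (1 / p - d)) / 2 +
      (1 / p - d / 2) * log (1 / p - d / 2)) := by
  unfold XJ
  have hk : 1 ≤ 1 / p := by rw [le_div_iff₀ hp0]; linarith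
  rw [TPhi_eq (z := d / 2) (T := 1 - d / 2) (by linarith) (by linarith),
    TPhi_eq (z := d / 2) (T := 1 / p - d / 2) (by linarith) (by linarith)]
  have e1 : 1 - d / 2 + d / 2 = 1 := by ring
  have e2 : 1 - d / 2 - d / 2 = 1 - d := by ring
  have e3 : 1 / p - d / 2 + d / 2 = 1 / p := by ring
  have e4 : 1 / p - d / 2 - d / 2 = 1 / p - d := by ring
  rw [e1, e2, e3, e4, Real.log_one]
  ring

end

end Vale.Agent.P322
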