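import Vale.Agent.P322.Assemble
import Vale.Agent.P322.RJensen

/-!
# P322: the one-dimensional functions
-/

namespace Vale.Agent.P322

open Real Finset

noncomputable section

/-- `M = N + q F` -/
def Mq (ρ F : ℝ) : ℝ := (1 - ρ ^ 2) + ρ ^ 2 * F

/-- the term of `R2` at `t` -/
def bt (ρ F t : ℝ) : ℝ :=
  binEntropy t - Mq ρ F * binEntropy ((1 - ρ ^ 2) * t / Mq ρ F) -
    4 * kap ρ * (t * (1 - (1 - ρ ^ 2) * t / Mq ρ F))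

theorem Mq_pos {ρ F : ℝ} (hρ0 : 0 < ρ) (hρ1 : ρ < 1) (hF : 0 ≤ F) : 0 < Mq ρ F := by
  unfold Mq
  have := mul_nonneg (sq_nonneg ρ) hF
  nlinarith

theorem pw_eq_div (ρ F : ℝ) : pw ρ F = (1 - ρ ^ 2) / Mq ρ F := rfl

theorem R2_eq_bt {ρ F u v : ℝ} (hρ0 : 0 < ρ) (hρ1 : ρ < 1) (hF : 0 ≤ F) :
    R2 ρ (1 - 2 * u) (1 - 2 * v) (pw ρ F) = pw ρ F / 2 * (bt ρ F u + bt ρ F v) := by
  have hN0 : 0 < 1 - ρ ^ 2 := by nlinarith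
  have hM := Mq_pos hρ0 hρ1 hF
  have hp := pw_pos hρ0 hρ1 hF
  rw [R2_eq hp.ne']
  unfold bt
  rw [pw_eq_div]
  have e1 : (1 - ρ ^ 2) / ((1 - ρ ^ 2) / Mq ρ F) = Mq ρ F := by field_simp
  have e2 : ∀ t, (1 - ρ ^ 2) / Mq ρ F * t = (1 - ρ ^ 2) * t / Mq ρ F := by intro t; ring
  rw [e1, e2, e2]

end

end Vale.Agent.P322
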