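import Vale.Agent.P322.Reg2A

/-!
# P322, regime 2: the inequality (8b)
-/

namespace Vale.Agent.P322

open Real Set

noncomputable section

/-- the weight function `s(ρ) = sqrt(1-ρ²(1-e²))` -/
def sf (e ρ : ℝ) : ℝ := √(1 - ρ ^ 2 * (1 - e ^ 2))

section
variable {e ρ : ℝ}

theorem sf_arg_pos (he0 : 0 < e) (he1 : e < 1) (h0 : 0 ≤ ρ) (h1 : ρ < 1) :
    0 < 1 - ρ ^ 2 * (1 - e ^ 2) := by
  have h2 : ρ ^ 2 < 1 := by nlinarith
  have h3 : 0 ≤ ρ ^ 2 := sq_nonneg _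
  have h4 : 0 < e ^ 2 := by positivity
  nlinarith

theorem sf_pos (he0 : 0 < e) (he1 : e < 1) (h0 : 0 ≤ ρ) (h1 : ρ < 1) : 0 < sf e ρ :=
  Real.sqrt_pos.mpr (sf_arg_pos he0 he1 h0 h1)

theorem sf_sq (he0 : 0 < e) (he1 : e < 1) (h0 : 0 ≤ ρ) (h1 : ρ < 1) :
    sf e ρ ^ 2 = 1 - ρ ^ 2 * (1 - e ^ 2) :=
  Real.sq_sqrt (sf_arg_pos he0 he1 h0 h1).le

theorem sf_gt (he0 : 0 < e) (he1 : e < 1) (h0 : 0 ≤ ρ) (h1 : ρ < 1) : e < sf e ρ := by
  have h2 := sf_sq he0 he1 h0 h1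
  have h3 := sf_pos he0 he1 h0 h1
  have h5 : ρ ^ 2 < 1 := by nlinarith
  have h4 : e ^ 2 < sf e ρ ^ 2 := by
    rw [h2]
    have : 0 < 1 - e ^ 2 := by nlinarith
    nlinarith
  exact lt_of_pow_lt_pow_left₀ 2 h3.le h4

theorem sf_le_one (he0 : 0 < e) (he1 : e < 1) (h0 : 0 ≤ ρ) (h1 : ρ < 1) : sf e ρ ≤ 1 := by
  have h2 := sf_sq he0 he1 h0 h1
  have h3 := sf_pos he0 he1 h0 h1
  have h4 : 0 ≤ ρ ^ 2 * (1 - e ^ 2) := by
    have : 0 < 1 - e ^ 2 := by nlinarith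
    positivity
  nlinarith

theorem hasDerivAt_sf (he0 : 0 < e) (he1 : e < 1) (h0 : 0 ≤ ρ) (h1 : ρ < 1) :
    HasDerivAt (sf e) (-(ρ * (1 - e ^ 2)) / sf e ρ) ρ := by
  have a1 : HasDerivAt (fun ρ : ℝ => 1 - ρ ^ 2 * (1 - e ^ 2)) (-(2 * ρ * (1 - e ^ 2))) ρ := by
    have := (((hasDerivAt_id ρ).pow 2).mul_const (1 - e ^ 2)).const_sub 1
    simpa using this
  have := a1.sqrt (sf_arg_pos he0 he1 h0 h1).ne'
  refine this.congr_deriv ?_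
  change -(2 * ρ * (1 - e ^ 2)) / (2 * sf e ρ) = _
  have := sf_pos he0 he1 h0 h1
  field_simp

end

theorem log_two_add_La {t : ℝ} (h1 : -1 < t) (h2 : t < 1) : hb t + t * ath t = log 2 + La t := by
  rw [hb_eq_log h1 h2, Phi_eq h1 h2]
  ring

theorem hasDerivAt_kap {ρ : ℝ} (h1 : -1 < ρ) (h2 : ρ < 1) :
    HasDerivAt kap (-ath ρ + 2 * ρ * log 2) ρ := by
  have a1 : HasDerivAt (fun t : ℝ => (1 - t ^ 2) * log 2) (-(2 * ρ) * log 2) ρ := by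
    have := (((hasDerivAt_id ρ).pow 2).const_sub 1).mul_const (log 2)
    simpa using this
  have := (hasDerivAt_hb' h1 h2).sub a1
  refine this.congr_deriv ?_
  ring

theorem kap_zero : kap 0 = 0 := by
  unfold kap
  rw [hb_zero]
  ring

/-- (8b) in the parametrisation by `e` -/
theorem reg2b_aux {e ρ₀ : ℝ} (he0 : 0 < e) (he1 : e < 1) (h0 : 0 < ρ₀) (h1 : ρ₀ < 1) :
    (1 - ρ₀ ^ 2) * hb e + kap ρ₀ * (1 - e ^ 2) ≤ sf e ρ₀ * hb (e / sf e ρ₀) := by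
  set f : ℝ → ℝ := fun ρ => (sf e ρ * hb (e / sf e ρ) - (1 - ρ ^ 2) * hb e - kap ρ * (1 - e ^ 2)) /
    (1 - ρ ^ 2) with hf
  have he2 : 0 < 1 - e ^ 2 := by nlinarith
  have hder : ∀ ρ ∈ Icc 0 ρ₀, HasDerivAt f
      (((-(ρ * (1 - e ^ 2)) / sf e ρ * (hb (e / sf e ρ) + e / sf e ρ * ath (e / sf e ρ))
        + 2 * ρ * hb e - (-ath ρ + 2 * ρ * log 2) * (1 - e ^ 2)) * (1 - ρ ^ 2) +
        (sf e ρ * hb (e / sf e ρ) - (1 - ρ ^ 2) * hb e - kap ρ * (1 - e ^ 2)) * (2 * ρ)) /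
        (1 - ρ ^ 2) ^ 2) ρ := by
    intro ρ hρ
    have hρ0 := hρ.1
    have hρ1 : ρ < 1 := lt_of_le_of_lt hρ.2 h1
    have hs := sf_pos he0 he1 hρ0 hρ1
    have hse := sf_gt he0 he1 hρ0 hρ1
    have hX1 : e / sf e ρ < 1 := (div_lt_one hs).mpr hse
    have hX0 : 0 < e / sf e ρ := div_pos he0 hs
    have ds := hasDerivAt_sf he0 he1 hρ0 hρ1
    have dX : HasDerivAt (fun ρ => e / sf e ρ)
        (-(e * (-(ρ * (1 - e ^ 2)) / sf e ρ)) / sf e ρ ^ 2) ρ := by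
      have := (hasDerivAt_const ρ e).div ds hs.ne'
      refine this.congr_deriv ?_
      ring
    have d1 := ds.mul ((hasDerivAt_hb' (by linarith) hX1).comp ρ dX)
    have d2 : HasDerivAt (fun ρ : ℝ => (1 - ρ ^ 2) * hb e) (-(2 * ρ) * hb e) ρ := by
      have := (((hasDerivAt_id ρ).pow 2).const_sub 1).mul_const (hb e)
      simpa using this
    have d3 := (hasDerivAt_kap (by linarith) hρ1).mul_const (1 - e ^ 2)
    have d4 : HasDerivAt (fun ρ : ℝ => 1 - ρ ^ 2) (-(2 * ρ)) ρ := by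
      have := ((hasDerivAt_id ρ).pow 2).const_sub 1
      simpa using this
    have hN : 1 - ρ ^ 2 ≠ 0 := (one_sub_sq_pos (by linarith) hρ1).ne'
    have := ((d1.sub d2).sub d3).div d4 hN
    refine this.congr_deriv ?_
    simp only [Pi.sub_apply, Pi.mul_apply, Function.comp_apply]
    congr 1
    field_simp
    ring
  have key := le_of_deriv_nonneg h0.le (f := f) (a := 0) (b := ρ₀)
    (fun x hx => (hder x hx).continuousAt.continuousWithinAt)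
    (fun x hx => hder x ⟨hx.1.le, hx.2.le⟩) ?_
  · have hf0 : f 0 = 0 := by
      have hsf : sf e 0 = 1 := by simp [sf]
      simp only [hf, hsf, kap_zero]
      simp
    rw [hf0] at key
    have hN : 0 < 1 - ρ₀ ^ 2 := one_sub_sq_pos (by linarith) h1
    have := (le_div_iff₀ hN).mp key
    linarith
  · intro ρ hρ
    have hρ0 := hρ.1
    have hρ1 : ρ < 1 := hρ.2.trans h1
    have hs := sf_pos he0 he1 hρ0.le hρ1
    have hs1 := sf_le_one he0 he1 hρ0.le hρ1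
    have hse := sf_gt he0 he1 hρ0.le hρ1
    have hsq := sf_sq he0 he1 hρ0.le hρ1
    set s := sf e ρ with hsdef
    set X := e / s with hX
    have hX1 : X < 1 := (div_lt_one hs).mpr hse
    have hX0 : 0 < X := div_pos he0 hs
    have hN : 0 < 1 - ρ ^ 2 := one_sub_sq_pos (by linarith) hρ1
    have heX : e = s * X := by rw [hX]; field_simp
    apply div_nonneg _ (by positivity)
    have D1 := hb_le_D1 hρ0 hρ1
    have D2 := hb_ge_D2 hX0 hX1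
    -- relation
    have hrel : (1 - ρ ^ 2) * (1 - e ^ 2) = s ^ 2 * (1 - X ^ 2) := by
      have : s ^ 2 * X ^ 2 = e ^ 2 := by rw [heX]; ring
      nlinarith
    have hy : 0 < 1 - X ^ 2 := one_sub_sq_pos (by linarith) hX1
    have e1 : (-(ρ * (1 - e ^ 2)) / s * (hb X + X * ath X) + 2 * ρ * hb e -
        (-ath ρ + 2 * ρ * log 2) * (1 - e ^ 2)) * (1 - ρ ^ 2) +
        (s * hb X - (1 - ρ ^ 2) * hb e - kap ρ * (1 - e ^ 2)) * (2 * ρ) =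
        ρ * s * (2 * hb X - (1 - X ^ 2) * (hb X + X * ath X)) -
        (1 - e ^ 2) * (2 * ρ * hb ρ - (1 - ρ ^ 2) * ath ρ) := by
      have e2 : (-(ρ * (1 - e ^ 2)) / s * (hb X + X * ath X)) * (1 - ρ ^ 2) =
          -(ρ * s * ((1 - X ^ 2) * (hb X + X * ath X))) := by
        have : (1 - e ^ 2) * (1 - ρ ^ 2) / s = s * (1 - X ^ 2) := by
          rw [mul_comm (1 - e ^ 2), hrel]
          field_simp
        calc (-(ρ * (1 - e ^ 2)) / s * (hb X + X * ath X)) * (1 - ρ ^ 2)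
            = -(ρ * ((1 - e ^ 2) * (1 - ρ ^ 2) / s) * (hb X + X * ath X)) := by ring
          _ = _ := by rw [this]; ring
      unfold kap
      linear_combination e2
    rw [e1]
    -- bounds
    have b1 : (1 - X ^ 2) / 2 ≤ 2 * hb X - (1 - X ^ 2) * (hb X + X * ath X) := by
      linarith
    have b2 : 2 * ρ * hb ρ - (1 - ρ ^ 2) * ath ρ ≤ (1 - ρ ^ 2) * ρ / 2 := by linarith
    have b3 : ρ * s * ((1 - X ^ 2) / 2) ≤
        ρ * s * (2 * hb X - (1 - X ^ 2) * (hb X + X * ath X)) :=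
      mul_le_mul_of_nonneg_left b1 (by positivity)
    have b4 : (1 - e ^ 2) * (2 * ρ * hb ρ - (1 - ρ ^ 2) * ath ρ) ≤
        (1 - e ^ 2) * ((1 - ρ ^ 2) * ρ / 2) :=
      mul_le_mul_of_nonneg_left b2 he2.le
    have b5 : (1 - e ^ 2) * ((1 - ρ ^ 2) * ρ / 2) = ρ * (s ^ 2 * (1 - X ^ 2)) / 2 := by
      rw [← hrel]; ring
    have b6 : ρ * (s ^ 2 * (1 - X ^ 2)) / 2 ≤ ρ * s * ((1 - X ^ 2) / 2) := by
      have : s ^ 2 ≤ s := by nlinarith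
      have h7 : 0 ≤ ρ * (1 - X ^ 2) / 2 := by positivity
      nlinarith
    linarith

/-- relation between the weight `p = sqrt(N/(1-q z²))` and `sf` -/
theorem weight_facts {ρ z : ℝ} (h0 : 0 < ρ) (h1 : ρ < 1) (hz0 : 0 < z) (hz1 : z < 1) :
    0 < √((1 - ρ ^ 2) / (1 - ρ ^ 2 * z ^ 2)) ∧ √((1 - ρ ^ 2) / (1 - ρ ^ 2 * z ^ 2)) < 1 ∧
    sf (√((1 - ρ ^ 2) / (1 - ρ ^ 2 * z ^ 2)) * z) ρ = √((1 - ρ ^ 2) / (1 - ρ ^ 2 * z ^ 2)) := by
  have hN : 0 < 1 - ρ ^ 2 := one_sub_sq_pos (by linarith) h1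
  have hz2 : z ^ 2 < 1 := by nlinarith
  have hρ2 : 0 < ρ ^ 2 := by positivity
  have hD : 0 < 1 - ρ ^ 2 * z ^ 2 := by nlinarith
  set p := √((1 - ρ ^ 2) / (1 - ρ ^ 2 * z ^ 2)) with hp
  have hp0 : 0 < p := Real.sqrt_pos.mpr (div_pos hN hD)
  have hpsq : p ^ 2 = (1 - ρ ^ 2) / (1 - ρ ^ 2 * z ^ 2) := Real.sq_sqrt (div_pos hN hD).le
  have hpsq' : p ^ 2 * (1 - ρ ^ 2 * z ^ 2) = 1 - ρ ^ 2 := by
    rw [hpsq]; field_simp
  have hp1 : p < 1 := by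
    have : p ^ 2 < 1 := by
      rw [hpsq, div_lt_one hD]
      nlinarith
    nlinarith
  refine ⟨hp0, hp1, ?_⟩
  unfold sf
  have : 1 - ρ ^ 2 * (1 - (p * z) ^ 2) = p ^ 2 := by
    have : (p * z) ^ 2 = p ^ 2 * z ^ 2 := by ring
    rw [this]
    linarith
  rw [this]
  exact Real.sqrt_sq hp0.le

/-- **(8b)** -/
theorem reg2b {ρ z : ℝ} (h0 : 0 < ρ) (h1 : ρ < 1) (hz0 : 0 < z) (hz1 : z < 1) :
    (1 - ρ ^ 2) * hb (√((1 - ρ ^ 2) / (1 - ρ ^ 2 * z ^ 2)) * z) +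
      kap ρ * (1 - (√((1 - ρ ^ 2) / (1 - ρ ^ 2 * z ^ 2)) * z) ^ 2) ≤
      √((1 - ρ ^ 2) / (1 - ρ ^ 2 * z ^ 2)) * hb z := by
  obtain ⟨hp0, hp1, hsf⟩ := weight_facts h0 h1 hz0 hz1
  set p := √((1 - ρ ^ 2) / (1 - ρ ^ 2 * z ^ 2)) with hp
  have := reg2b_aux (e := p * z) (ρ₀ := ρ) (by positivity) (by nlinarith) h0 h1
  rw [hsf] at this
  have e : p * z / p = z := by field_simp
  rwa [e] at this

end

end Vale.Agent.P322
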