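import Mathlib

/-!
# P322, regime 2: the polynomial inequality behind (8a)
-/

namespace Vale.Agent.P322

theorem pe8 {ν w : ℝ} (h0 : 0 ≤ ν) (h1 : ν ≤ w ^ 2) (hw0 : 0 ≤ w) (hw1 : w ≤ 1) :
    0 ≤ 2 * w ^ 2 - w ^ 4 + (1 - ν) * (1 / 2 - ν - w) := by
  rcases le_total w (3 / 10) with h | h
  · nlinarith [mul_nonneg hw0 hw0, mul_nonneg (sub_nonneg.mpr h1) hw0, mul_nonneg h0 hw0,
      sq_nonneg (w ^ 2 - ν)]
  · have h2 : w ^ 4 ≤ w ^ 2 := pow_le_pow_of_le_one hw0 hw1 (by norm_num)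
    nlinarith [sq_nonneg (ν - (3 / 2 - w) / 2), mul_nonneg (sub_nonneg.mpr h) (sub_nonneg.mpr hw1),
      mul_nonneg hw0 (mul_nonneg (sub_nonneg.mpr h) (sub_nonneg.mpr hw1)),
      mul_nonneg (mul_nonneg hw0 hw0) (mul_nonneg (sub_nonneg.mpr h) (sub_nonneg.mpr hw1))]

theorem pII1 {n : ℝ} (h0 : 0 ≤ n) (h1 : n ^ 2 ≤ 1 / 3) :
    0 ≤ 3 - 6 * n + n ^ 3 + 3 * n ^ 4 := by
  have h2 : n ≤ 0.5775 := by nlinarith
  nlinarith [sq_nonneg (n - 0.5775), mul_nonneg h0 (sub_nonneg.mpr h2), sq_nonneg (n ^ 2 - 1 / 3),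
    mul_nonneg h0 (mul_nonneg h0 (sub_nonneg.mpr h2))]

theorem pIIn {n : ℝ} (h0 : 0 ≤ n) (h1 : n ^ 2 ≤ 1 / 3) :
    0 ≤ n ^ 2 * (2 * n - 1) +
      3 * (1 - n) * (1 - 2 * n ^ 2 - n ^ 3 - n ^ 2 / 6 * (1 + n)) := by
  have h2 : n ≤ 0.5775 := by nlinarith
  nlinarith [sq_nonneg (n - 0.5775), mul_nonneg h0 (sub_nonneg.mpr h2), sq_nonneg (n ^ 2 - 1 / 3),
    mul_nonneg h0 (mul_nonneg h0 (sub_nonneg.mpr h2)),
    mul_nonneg (mul_nonneg h0 h0) (mul_nonneg h0 (sub_nonneg.mpr h2))]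

theorem pIn {n : ℝ} (h1 : 1 / 3 ≤ n ^ 2) (h0 : 0 ≤ n) (h2 : n ≤ 1) :
    0 ≤ (n ^ 2 / 24 + 0.015 * n ^ 2 * (3 - 2 * n ^ 2) * (1 - 1.5 * n ^ 2)) * (2 * n * n - n ^ 2) +
      1.5 * (0.015 * n ^ 2 * (3 - 2 * n ^ 2)) * n ^ 2 - ((1 - n ^ 2) / 8) * (n ^ 2 + n) +
      (1 / 4 - n ^ 2 / 24 - 0.015 * n ^ 2 * (3 - 2 * n ^ 2)) * (1 - n) * (1 + n) / 2 := by
  have h3 : 0.577 ≤ n := by nlinarith
  nlinarith [sq_nonneg (n - 0.7164), mul_nonneg (sub_nonneg.mpr h3) (sub_nonneg.mpr h2),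
    mul_nonneg h0 (mul_nonneg (sub_nonneg.mpr h3) (sub_nonneg.mpr h2)),
    sq_nonneg (n * (n - 0.7164)), sq_nonneg (n ^ 2 * (n - 0.7164)),
    sq_nonneg (n ^ 3 * (n - 0.7164))]

theorem pI1 {n : ℝ} (h1 : 1 / 3 ≤ n ^ 2) (h0 : 0 ≤ n) (h2 : n ≤ 1) :
    0 ≤ (n ^ 2 / 24 + 0.015 * n ^ 2 * (3 - 2 * n ^ 2) * (1 - 1.5 * n ^ 2)) * (2 * n - n ^ 2) +
      1.5 * (0.015 * n ^ 2 * (3 - 2 * n ^ 2)) * n ^ 2 - ((1 - n ^ 2) / 8) * (n ^ 2 + 1) +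
      (1 / 4 - n ^ 2 / 24 - 0.015 * n ^ 2 * (3 - 2 * n ^ 2)) * (1 - n) := by
  have h3 : 0.577 ≤ n := by nlinarith
  nlinarith [sq_nonneg (n - 0.672), mul_nonneg (sub_nonneg.mpr h3) (sub_nonneg.mpr h2),
    mul_nonneg h0 (mul_nonneg (sub_nonneg.mpr h3) (sub_nonneg.mpr h2)),
    sq_nonneg (n * (n - 0.672)), sq_nonneg (n ^ 2 * (n - 0.672)),
    sq_nonneg (n ^ 3 * (n - 0.672))]

/-- linear interpolation -/
theorem lin_nonneg {n w A B : ℝ} (hnw : n ≤ w) (hw1 : w ≤ 1) (hn1 : n < 1)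
    (h1 : 0 ≤ A + B * n) (h2 : 0 ≤ A + B) : 0 ≤ A + B * w := by
  have h3 : 0 ≤ (1 - w) * (A + B * n) + (w - n) * (A + B) :=
    add_nonneg (mul_nonneg (by linarith) h1) (mul_nonneg (by linarith) h2)
  have h4 : (1 - w) * (A + B * n) + (w - n) * (A + B) = (1 - n) * (A + B * w) := by ring
  rw [h4] at h3
  exact nonneg_of_mul_nonneg_right h3 (by linarith)

theorem PII {n w : ℝ} (h0 : 0 ≤ n) (h1 : n ^ 2 ≤ 1 / 3) (hnw : n ≤ w) (hw1 : w ≤ 1) :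
    0 ≤ n ^ 2 * w ^ 2 / 24 - ((1 - n ^ 2) / 8) * (n ^ 2 + w) +
      (1 / 4 - n ^ 2 / 24) * (1 - n) * (1 + w) / 2 := by
  have hn1 : n < 1 := by nlinarith
  have k1 := pII1 h0 h1
  have k2 := pIIn h0 h1
  have key := lin_nonneg (A := -(n ^ 2 / 24) - ((1 - n ^ 2) / 8) * n ^ 2 +
      (1 / 4 - n ^ 2 / 24) * (1 - n) / 2)
    (B := n ^ 2 * 2 / 24 - (1 - n ^ 2) / 8 + (1 / 4 - n ^ 2 / 24) * (1 - n) / 2) hnw hw1 hn1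
    (by nlinarith) (by nlinarith)
  have h3 : n ^ 2 * (2 * w - 1) ≤ n ^ 2 * w ^ 2 :=
    mul_le_mul_of_nonneg_left (by nlinarith [sq_nonneg (w - 1)]) (sq_nonneg n)
  nlinarith

theorem PI {n w : ℝ} (h0 : 0 ≤ n) (h1 : 1 / 3 ≤ n ^ 2) (hnw : n ≤ w) (hw1 : w ≤ 1) (hn1 : n < 1) :
    0 ≤ (n ^ 2 / 24 + 0.015 * n ^ 2 * (3 - 2 * n ^ 2)) * w ^ 2 +
      1.5 * (0.015 * n ^ 2 * (3 - 2 * n ^ 2)) * (w ^ 2 * (1 - w ^ 2)) -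
      ((1 - n ^ 2) / 8) * (n ^ 2 + w) +
      (1 / 4 - n ^ 2 / 24 - 0.015 * n ^ 2 * (3 - 2 * n ^ 2)) * (1 - n) * (1 + w) / 2 := by
  have k1 := pIn h1 h0 hn1.le
  have k2 := pI1 h1 h0 hn1.le
  set K := 0.015 * n ^ 2 * (3 - 2 * n ^ 2) with hK
  have hn2 : n ^ 2 < 1 := by nlinarith
  have hK0 : 0 ≤ K := by rw [hK]; have := sq_nonneg n; nlinarith
  set c2 := n ^ 2 / 24 + K * (1 - 1.5 * n ^ 2) with hc2
  have hc20 : 0 ≤ c2 := by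
    rw [hc2, hK]
    have := sq_nonneg n
    nlinarith [mul_nonneg this (sub_nonneg.mpr hn2.le)]
  have key := lin_nonneg (A := -(c2 * n ^ 2) + 1.5 * K * n ^ 2 - ((1 - n ^ 2) / 8) * n ^ 2 +
      (1 / 4 - n ^ 2 / 24 - K) * (1 - n) / 2)
    (B := c2 * (2 * n) - (1 - n ^ 2) / 8 + (1 / 4 - n ^ 2 / 24 - K) * (1 - n) / 2) hnw hw1 hn1
    (by nlinarith) (by nlinarith)
  have h3 : c2 * (2 * n * w - n ^ 2) ≤ c2 * w ^ 2 :=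
    mul_le_mul_of_nonneg_left (by nlinarith [sq_nonneg (w - n)]) hc20
  have h4 : 0 ≤ K * ((w ^ 2 - n ^ 2) * (1 - w ^ 2)) := by
    apply mul_nonneg hK0
    apply mul_nonneg <;> nlinarith
  nlinarith

/-- the final polynomial inequality -/
theorem PP_nonneg {n w b : ℝ} (hn0 : 0 < n) (hnw : n ≤ w) (hw1 : w < 1) (hb1 : 1 / 8 ≤ b)
    (hb2 : b ≤ 1 / 4 - n ^ 2 / 24)
    (hb3 : 1 / 3 ≤ n ^ 2 → b ≤ 1 / 4 - n ^ 2 / 24 - 0.015 * n ^ 2 * (3 - 2 * n ^ 2)) :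
    0 ≤ ((1 / 4 - b) * (1 - n ^ 2) * w ^ 2 + (1 / 4 - n ^ 2 / 24 - b) * (w ^ 2 * (1 - w ^ 2)) -
      (1 - n ^ 2) ^ 2 / 8 * (n ^ 2 + w)) * (w + n) + b * (1 - n ^ 2) ^ 2 * w := by
  have hn1 : n < 1 := lt_of_le_of_lt hnw hw1
  have hw0 : 0 < w := lt_of_lt_of_le hn0 hnw
  have hq0 : 0 < 1 - n ^ 2 := by nlinarith
  have hwn : 0 < w + n := by linarith
  -- chord bound
  have chord : (w + n) * ((1 - n) * (1 + w) / 2) ≤ (1 - n ^ 2) * w := by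
    nlinarith [mul_nonneg (mul_nonneg (sub_nonneg.mpr hnw) (sub_nonneg.mpr hw1.le))
      (sub_nonneg.mpr hn1.le)]
  -- value at 1/8
  have v8 : 0 ≤ ((1 / 4 - 1 / 8) * (1 - n ^ 2) * w ^ 2 +
      (1 / 4 - n ^ 2 / 24 - 1 / 8) * (w ^ 2 * (1 - w ^ 2)) -
      (1 - n ^ 2) ^ 2 / 8 * (n ^ 2 + w)) * (w + n) + 1 / 8 * (1 - n ^ 2) ^ 2 * w := by
    have p := pe8 (ν := n ^ 2) (w := w) (sq_nonneg n) (by nlinarith) hw0.le hw1.le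
    have h1 : 0 ≤ w ^ 2 * (1 - w ^ 2) := mul_nonneg (sq_nonneg w) (by nlinarith)
    have h2 : (1 - n ^ 2) / 8 * (w ^ 2 * (1 - w ^ 2)) ≤
        (1 / 4 - n ^ 2 / 24 - 1 / 8) * (w ^ 2 * (1 - w ^ 2)) :=
      mul_le_mul_of_nonneg_right (by nlinarith [sq_nonneg n]) h1
    have h3 : (1 - n ^ 2) ^ 2 * ((w + n) / 2) ≤ (1 - n ^ 2) ^ 2 * w :=
      mul_le_mul_of_nonneg_left (by linarith) (sq_nonneg _)
    have h4 : 0 ≤ (1 - n ^ 2) / 8 * (w + n) *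
        (2 * w ^ 2 - w ^ 4 + (1 - n ^ 2) * (1 / 2 - n ^ 2 - w)) :=
      mul_nonneg (by positivity) p
    have h5 := mul_le_mul_of_nonneg_right h2 hwn.le
    nlinarith
  -- value at the upper bound
  have conv : ∀ bm : ℝ, b ≤ bm →
      0 ≤ ((1 / 4 - bm) * (1 - n ^ 2) * w ^ 2 +
        (1 / 4 - n ^ 2 / 24 - bm) * (w ^ 2 * (1 - w ^ 2)) -
        (1 - n ^ 2) ^ 2 / 8 * (n ^ 2 + w)) * (w + n) + bm * (1 - n ^ 2) ^ 2 * w →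
      0 ≤ ((1 / 4 - b) * (1 - n ^ 2) * w ^ 2 +
        (1 / 4 - n ^ 2 / 24 - b) * (w ^ 2 * (1 - w ^ 2)) -
        (1 - n ^ 2) ^ 2 / 8 * (n ^ 2 + w)) * (w + n) + b * (1 - n ^ 2) ^ 2 * w := by
    intro bm hbm hv
    set κ := ((1 - n ^ 2) * w ^ 2 + w ^ 2 * (1 - w ^ 2)) * (w + n) - (1 - n ^ 2) ^ 2 * w with hκ
    rcases le_total 0 κ with hk | hk
    · have : 0 ≤ (bm - b) * κ := mul_nonneg (by linarith) hk
      rw [hκ] at this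
      linarith
    · have : 0 ≤ (b - 1 / 8) * (-κ) := mul_nonneg (by linarith) (by linarith)
      rw [hκ] at this
      linarith
  rcases le_total (n ^ 2) (1 / 3) with h3 | h3
  · apply conv _ hb2
    have p := PII hn0.le h3 hnw hw1.le
    have hb0 : 0 ≤ 1 / 4 - n ^ 2 / 24 := by nlinarith
    have c1 := mul_le_mul_of_nonneg_left chord (mul_nonneg hb0 hq0.le)
    have c2 : 0 ≤ (1 - n ^ 2) * (w + n) * (n ^ 2 * w ^ 2 / 24 - ((1 - n ^ 2) / 8) * (n ^ 2 + w) +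
      (1 / 4 - n ^ 2 / 24) * (1 - n) * (1 + w) / 2) := mul_nonneg (by positivity) p
    linarith
  · apply conv _ (hb3 h3)
    have p := PI hn0.le h3 hnw hw1.le hn1
    set K := 0.015 * n ^ 2 * (3 - 2 * n ^ 2) with hK
    have hK0 : 0 ≤ K := by rw [hK]; have := sq_nonneg n; nlinarith
    have hb0 : 0 ≤ 1 / 4 - n ^ 2 / 24 - K := by
      have := hb3 h3
      linarith
    have c1 := mul_le_mul_of_nonneg_left chord (mul_nonneg hb0 hq0.le)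
    have c2 : 0 ≤ (1 - n ^ 2) * (w + n) * ((n ^ 2 / 24 + K) * w ^ 2 +
      1.5 * K * (w ^ 2 * (1 - w ^ 2)) -
      ((1 - n ^ 2) / 8) * (n ^ 2 + w) +
      (1 / 4 - n ^ 2 / 24 - K) * (1 - n) * (1 + w) / 2) := mul_nonneg (by positivity) p
    have h1 : 0 ≤ w ^ 2 * (1 - w ^ 2) := mul_nonneg (sq_nonneg w) (by nlinarith)
    have c3 : 0 ≤ (1 - 1.5 * (1 - n ^ 2)) * (K * (w ^ 2 * (1 - w ^ 2)) * (w + n)) :=
      mul_nonneg (by linarith) (by positivity)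
    linarith

end Vale.Agent.P322
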