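import Vale.Agent.P322.Reg2B
import Vale.Agent.P322.Reg2P

/-!
# P322, regime 2: the key estimate for (8a)
-/

namespace Vale.Agent.P322

open Real Set

noncomputable section

/-- `β(ρ) = h(ρ) - (1-ρ²) artanh(ρ)/(2ρ)` -/
def bet (ρ : ℝ) : ℝ := log 2 - Phi ρ - (1 - ρ ^ 2) * ath ρ / ρ / 2

theorem hasDerivAt_Nath_div {t : ℝ} (h0 : 0 < t) (h1 : t < 1) :
    HasDerivAt (fun t : ℝ => (1 - t ^ 2) * ath t / t / 2)
      ((1 / t - ath t - (1 - t ^ 2) * ath t / t ^ 2 - ath t) / 2) t := by
  have a1 := ((hasDerivAt_Nath (t := t) (by linarith) h1).div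
      (hasDerivAt_id t) h0.ne').div_const 2
  refine a1.congr_deriv ?_
  simp only [id]
  field_simp
  ring

theorem hasDerivAt_bet {t : ℝ} (h0 : 0 < t) (h1 : t < 1) :
    HasDerivAt bet (-(1 - (1 - t ^ 2) * ath t / t) / (2 * t)) t := by
  have a1 := ((hasDerivAt_Phi (t := t) (by linarith) h1).const_sub (log 2)).sub
    (hasDerivAt_Nath_div h0 h1)
  refine a1.congr_deriv ?_
  field_simp
  ring

theorem bet_one : bet 1 = 0 := by
  unfold bet Phi
  norm_num

theorem continuousOn_bet {a : ℝ} (ha : 0 < a) : ContinuousOn bet (Icc a 1) := by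
  apply ContinuousOn.sub
  · exact (continuous_const.sub continuous_Phi).continuousOn
  · apply ContinuousOn.div_const
    apply ContinuousOn.div continuous_Nath.continuousOn continuousOn_id
    intro x hx
    have := hx.1
    simp only [id]
    linarith

/-- `(1-t²) artanh t ≤ t - 2t³/3 - 2t⁵/15` -/
theorem Nath_le {t : ℝ} (h0 : 0 ≤ t) (h1 : t < 1) :
    (1 - t ^ 2) * ath t ≤ t - 2 / 3 * t ^ 3 - 2 / 15 * t ^ 5 := by
  have key := le_of_deriv_nonneg
    (f := fun x => x - 2 / 3 * x ^ 3 - 2 / 15 * x ^ 5 - (1 - x ^ 2) * ath x)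
    (f' := fun x => 2 * x * (ath x - x - x ^ 3 / 3)) h0 ?_ ?_ ?_
  · simp at key
    linarith
  · apply ContinuousOn.sub
    · fun_prop
    · exact continuous_Nath.continuousOn
  · intro x hx
    have a2 : HasDerivAt (fun x : ℝ => x - 2 / 3 * x ^ 3 - 2 / 15 * x ^ 5)
        (1 - 2 / 3 * (3 * x ^ 2) - 2 / 15 * (5 * x ^ 4)) x := by
      have h3 := ((hasDerivAt_id x).pow 3).const_mul (2 / 3 : ℝ)
      have h5 := ((hasDerivAt_id x).pow 5).const_mul (2 / 15 : ℝ)
      refine (((hasDerivAt_id x).sub h3).sub h5).congr_deriv ?_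
      simp
    refine (a2.sub (hasDerivAt_Nath (by linarith [hx.1]) (hx.2.trans h1))).congr_deriv ?_
    ring
  · intro x hx
    have := ath_ge hx.1.le (hx.2.trans h1)
    apply mul_nonneg (by linarith [hx.1])
    linarith

theorem bet_le2 {ρ : ℝ} (h0 : 0 < ρ) (h1 : ρ < 1) :
    bet ρ ≤ (1 - ρ ^ 2) * (5 + ρ ^ 2) / 24 := by
  have key := le_of_deriv_nonpos
    (f := fun x => (1 - x ^ 2) * (5 + x ^ 2) / 24 - bet x)
    (f' := fun x => (1 - x ^ 2) / (2 * x ^ 2) * (x + x ^ 3 / 3 - ath x)) h1.le ?_ ?_ ?_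
  · simp only [bet_one] at key
    norm_num at key
    linarith
  · apply ContinuousOn.sub
    · fun_prop
    · exact continuousOn_bet h0
  · intro x hx
    have hx0 : 0 < x := h0.trans hx.1
    have a2 : HasDerivAt (fun x : ℝ => (1 - x ^ 2) * (5 + x ^ 2) / 24)
        ((-(2 * x) * (5 + x ^ 2) + (1 - x ^ 2) * (2 * x)) / 24) x := by
      have b1 : HasDerivAt (fun x : ℝ => 1 - x ^ 2) (-(2 * x)) x := by
        have := ((hasDerivAt_id x).pow 2).const_sub 1
        simpa using this
      have b2 : HasDerivAt (fun x : ℝ => 5 + x ^ 2) (2 * x) x := by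
        have := ((hasDerivAt_id x).pow 2).const_add 5
        simpa using this
      exact (b1.mul b2).div_const 24
    refine (a2.sub (hasDerivAt_bet hx0 hx.2)).congr_deriv ?_
    field_simp
    ring
  · intro x hx
    have hx0 : 0 < x := h0.trans hx.1
    have := ath_ge hx0.le hx.2
    have h3 : 0 < 1 - x ^ 2 := one_sub_sq_pos (by linarith) hx.2
    apply mul_nonpos_of_nonneg_of_nonpos
    · positivity
    · linarith

theorem bet_ge {ρ : ℝ} (h0 : 0 < ρ) (h1 : ρ < 1) : (1 - ρ ^ 2) / 8 ≤ bet ρ := by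
  have key := le_of_deriv_nonpos
    (f := fun x => bet x - (1 - x ^ 2) / 8)
    (f' := fun x => -(1 - (1 - x ^ 2) * ath x / x) / (2 * x) + x / 4) h1.le ?_ ?_ ?_
  · simp only [bet_one] at key
    norm_num at key
    linarith
  · apply ContinuousOn.sub
    · exact continuousOn_bet h0
    · fun_prop
  · intro x hx
    have hx0 : 0 < x := h0.trans hx.1
    have a2 : HasDerivAt (fun x : ℝ => (1 - x ^ 2) / 8) (-(2 * x) / 8) x := by
      have := (((hasDerivAt_id x).pow 2).const_sub 1).div_const 8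
      simpa using this
    refine ((hasDerivAt_bet hx0 hx.2).sub a2).congr_deriv ?_
    ring
  · intro x hx
    have hx0 : 0 < x := h0.trans hx.1
    have := Nath_le hx0.le hx.2
    have e : -(1 - (1 - x ^ 2) * ath x / x) / (2 * x) + x / 4 =
        ((1 - x ^ 2) * ath x - x + x ^ 3 / 2) / (2 * x ^ 2) := by
      field_simp
      ring
    rw [e]
    apply div_nonpos_of_nonpos_of_nonneg _ (by positivity)
    have h5 : 0 ≤ x ^ 5 := by positivity
    have h3 : 0 ≤ x ^ 3 := by positivity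
    linarith

theorem bet_le1 {ρ : ℝ} (h0 : 0 < ρ) (h1 : ρ < 1) :
    bet ρ ≤ log 2 - 1 / 2 - ρ ^ 2 / 6 - ρ ^ 4 / 60 := by
  have main : ∀ r : ℝ, 0 < r → r < ρ → bet ρ + ρ ^ 2 / 6 + ρ ^ 4 / 60 ≤ log 2 - 1 / 2 + r := by
    intro r hr0 hr1
    have key := le_of_deriv_nonpos
      (f := fun x => bet x + (x ^ 2 / 6 + x ^ 4 / 60))
      (f' := fun x => -(1 - (1 - x ^ 2) * ath x / x) / (2 * x) + (2 * x / 6 + 4 * x ^ 3 / 60))
      hr1.le ?_ ?_ ?_
    · have hr2 : r < 1 := hr1.trans h1
      have hP : 0 ≤ Phi r := by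
        have h2 := hb_le r
        rw [hb_eq_log (by linarith) hr2] at h2
        linarith
      have ha := ath_ge_self hr0.le hr2
      have hN : 0 < 1 - r ^ 2 := one_sub_sq_pos (by linarith) hr2
      have h3 : (1 - r ^ 2) ≤ (1 - r ^ 2) * ath r / r := by
        rw [le_div_iff₀ hr0]
        exact mul_le_mul_of_nonneg_left ha hN.le
      have h4 : bet r ≤ log 2 - (1 - r ^ 2) / 2 := by
        unfold bet
        linarith
      have h5 : r ^ 2 ≤ r := by nlinarith
      have h6 : r ^ 4 ≤ r := by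
        have : r ^ 4 = r ^ 2 * r ^ 2 := by ring
        nlinarith
      linarith
    · apply ContinuousOn.add
      · exact (continuousOn_bet hr0).mono (Icc_subset_Icc le_rfl h1.le)
      · fun_prop
    · intro x hx
      have hx0 : 0 < x := hr0.trans hx.1
      have a2 : HasDerivAt (fun x : ℝ => x ^ 2 / 6 + x ^ 4 / 60)
          (2 * x / 6 + 4 * x ^ 3 / 60) x := by
        have b1 := ((hasDerivAt_id x).pow 2).div_const 6
        have b2 := ((hasDerivAt_id x).pow 4).div_const 60
        refine (b1.add b2).congr_deriv ?_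
        simp
      exact (hasDerivAt_bet hx0 (hx.2.trans h1)).add a2
    · intro x hx
      have hx0 : 0 < x := hr0.trans hx.1
      have := Nath_le hx0.le (hx.2.trans h1)
      have e : -(1 - (1 - x ^ 2) * ath x / x) / (2 * x) + (2 * x / 6 + 4 * x ^ 3 / 60) =
          ((1 - x ^ 2) * ath x - (x - 2 / 3 * x ^ 3 - 2 / 15 * x ^ 5)) / (2 * x ^ 2) := by
        field_simp
        ring
      rw [e]
      apply div_nonpos_of_nonpos_of_nonneg _ (by positivity)
      linarith
  have : bet ρ + ρ ^ 2 / 6 + ρ ^ 4 / 60 ≤ log 2 - 1 / 2 := by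
    apply le_of_forall_pos_le_add
    intro ε hε
    have := main (min (ρ / 2) ε) (by positivity) (by
      have := min_le_left (ρ / 2) ε
      linarith)
    have h2 := min_le_right (ρ / 2) ε
    linarith
  linarith

end

end Vale.Agent.P322
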