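import Vale.Agent.P322.Reg2C

/-!
# P322, regime 2: the key estimate for (8a), continued
-/

namespace Vale.Agent.P322

open Real Set

noncomputable section

theorem hasDerivAt_scale {F : ℝ → ℝ} {F' X r : ℝ} (h : HasDerivAt F F' (r * X)) :
    HasDerivAt (fun r => F (r * X)) (F' * X) r := by
  have h2 : HasDerivAt (fun r : ℝ => r * X) X r := by
    simpa using (hasDerivAt_id r).mul_const X
  exact h.comp r h2

theorem A_ge {ρ X : ℝ} (h0 : 0 < ρ) (h1 : ρ < 1) (hX0 : 0 < X) (hX1 : X < 1) :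
    X ^ 6 * bet ρ + (1 - ρ ^ 2) * X ^ 2 * (1 - X ^ 2) / 4 +
      X ^ 4 * (1 - X ^ 2) * ((1 - ρ ^ 4) / 24 + (1 - ρ ^ 2) / 6) ≤
    (1 - X ^ 2) / 2 * (La X - La (ρ * X)) + (Phi X - Phi (ρ * X)) -
      (1 - ρ ^ 2) * X * ath (ρ * X) / ρ / 2 := by
  have hX2 : 0 < 1 - X ^ 2 := one_sub_sq_pos (by linarith) hX1
  have key := le_of_deriv_nonpos
    (f := fun r => (1 - X ^ 2) / 2 * (La X - La (r * X)) + (Phi X - Phi (r * X)) -
      (1 - r ^ 2) * X * ath (r * X) / r / 2 - (X ^ 6 * bet r +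
      ((1 - r ^ 2) * X ^ 2 * (1 - X ^ 2) / 4 +
      X ^ 4 * (1 - X ^ 2) * ((1 - r ^ 4) / 24 + (1 - r ^ 2) / 6))))
    (f' := fun r => X * (1 - r ^ 2) / (2 * r ^ 2) * ((ath (X * r) - X * r - (X * r) ^ 3 / 3) -
      X ^ 5 * (ath r - r - r ^ 3 / 3))) h1.le ?_ ?_ ?_
  · simp only [bet_one, one_mul] at key
    norm_num at key
    linarith
  · have hdiff : ∀ r ∈ Icc ρ 1, ContinuousAt (fun r => (1 - X ^ 2) / 2 * (La X - La (r * X)) +
        (Phi X - Phi (r * X)) - (1 - r ^ 2) * X * ath (r * X) / r / 2) r := by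
      intro r hr
      have hr0 : 0 < r := lt_of_lt_of_le h0 hr.1
      have hrX0 : 0 < r * X := by positivity
      have hrX1 : r * X < 1 := by nlinarith [hr.2]
      have c1 := (hasDerivAt_scale (hasDerivAt_La (t := r * X) (by linarith) hrX1)).continuousAt
      have c2 := (hasDerivAt_scale (hasDerivAt_Phi (t := r * X) (by linarith) hrX1)).continuousAt
      have c3 := (hasDerivAt_scale (hasDerivAt_ath (t := r * X) (by linarith) hrX1)).continuousAt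
      have c4 : ContinuousAt (fun r : ℝ => (1 - r ^ 2) * X) r := by fun_prop
      have c5 : ContinuousAt (fun r : ℝ => (1 - r ^ 2) * X * ath (r * X) / r / 2) r :=
        ((c4.mul c3).div continuousAt_id hr0.ne').div_const 2
      exact ((((continuousAt_const (y := La X)).sub c1).const_mul ((1 - X ^ 2) / 2)).add
        ((continuousAt_const (y := Phi X)).sub c2)).sub c5
    apply ContinuousOn.sub
    · exact fun r hr => (hdiff r hr).continuousWithinAt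
    · apply ContinuousOn.add
      · exact (continuousOn_bet h0).const_mul _
      · fun_prop
  · intro r hr
    have hr0 : 0 < r := h0.trans hr.1
    have hr1 := hr.2
    have hrX0 : 0 < r * X := by positivity
    have hrX1 : r * X < 1 := by nlinarith
    have hD : 0 < 1 - (r * X) ^ 2 := one_sub_sq_pos (by linarith) hrX1
    have c1 := hasDerivAt_scale (hasDerivAt_La (t := r * X) (by linarith) hrX1)
    have c2 := hasDerivAt_scale (hasDerivAt_Phi (t := r * X) (by linarith) hrX1)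
    have c3 := hasDerivAt_scale (hasDerivAt_ath (t := r * X) (by linarith) hrX1)
    have c4 : HasDerivAt (fun r : ℝ => (1 - r ^ 2) * X) (-(2 * r) * X) r := by
      have := (((hasDerivAt_id r).pow 2).const_sub 1).mul_const X
      simpa using this
    have c5 := (((c4.mul c3).div (hasDerivAt_id r) hr0.ne')).div_const 2
    have c6 := (((c1.const_sub (La X)).const_mul ((1 - X ^ 2) / 2)).add
      (c2.const_sub (Phi X))).sub c5
    have c7 := (hasDerivAt_bet hr0 hr1).const_mul (X ^ 6)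
    have c8 : HasDerivAt (fun r : ℝ => (1 - r ^ 2) * X ^ 2 * (1 - X ^ 2) / 4)
        (-(2 * r) * X ^ 2 * (1 - X ^ 2) / 4) r := by
      have := (((((hasDerivAt_id r).pow 2).const_sub 1).mul_const (X ^ 2)).mul_const
        (1 - X ^ 2)).div_const 4
      simpa using this
    have c9 : HasDerivAt (fun r : ℝ => X ^ 4 * (1 - X ^ 2) * ((1 - r ^ 4) / 24 + (1 - r ^ 2) / 6))
        (X ^ 4 * (1 - X ^ 2) * (-(4 * r ^ 3) / 24 + -(2 * r) / 6)) r := by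
      have := (((((hasDerivAt_id r).pow 4).const_sub 1).div_const 24).add
        ((((hasDerivAt_id r).pow 2).const_sub 1).div_const 6)).const_mul (X ^ 4 * (1 - X ^ 2))
      refine this.congr_deriv ?_
      simp
    refine (c6.sub (c7.add (c8.add c9))).congr_deriv ?_
    simp only [id, Pi.mul_apply]
    rw [mul_comm X r]
    have hD' : 1 - r ^ 2 * X ^ 2 ≠ 0 := by
      have : (r * X) ^ 2 = r ^ 2 * X ^ 2 := by ring
      rw [this] at hD
      exact hD.ne'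
    rw [show (r * X) ^ 2 = r ^ 2 * X ^ 2 by ring]
    obtain ⟨I, hI⟩ : ∃ I : ℝ, I = (1 - r ^ 2 * X ^ 2)⁻¹ := ⟨_, rfl⟩
    have hI' : I * (1 - r ^ 2 * X ^ 2) = 1 := by rw [hI]; exact inv_mul_cancel₀ hD'
    simp only [div_eq_mul_inv _ (1 - r ^ 2 * X ^ 2), ← hI]
    linear_combination (norm := (field_simp; ring)) (-X ^ 2 / (2 * r)) * hI'
  · intro r hr
    have hr0 : 0 < r := h0.trans hr.1
    have hN : 0 < 1 - r ^ 2 := one_sub_sq_pos (by linarith) hr.2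
    have := ath_scale hX0.le hX1.le hr0.le hr.2
    apply mul_nonpos_of_nonneg_of_nonpos
    · positivity
    · linarith

theorem neg_two_log_le {w : ℝ} (h0 : 0 < w) (h1 : w ≤ 1) : -(2 * log w) ≤ (1 - w ^ 2) / w := by
  have key := le_of_deriv_nonpos
    (f := fun x => (1 - x ^ 2) / x + 2 * log x)
    (f' := fun x => -(1 - x) ^ 2 / x ^ 2) h1 ?_ ?_ ?_
  · norm_num at key
    linarith
  · intro x hx
    have hx0 : 0 < x := lt_of_lt_of_le h0 hx.1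
    apply ContinuousAt.continuousWithinAt
    have a1 : ContinuousAt (fun x : ℝ => 1 - x ^ 2) x := by fun_prop
    exact (a1.div continuousAt_id hx0.ne').add ((continuousAt_log hx0.ne').const_mul 2)
  · intro x hx
    have hx0 : 0 < x := h0.trans hx.1
    have a1 : HasDerivAt (fun x : ℝ => 1 - x ^ 2) (-(2 * x)) x := by
      have := ((hasDerivAt_id x).pow 2).const_sub 1
      simpa using this
    refine ((a1.div (hasDerivAt_id x) hx0.ne').add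
      ((hasDerivAt_log hx0.ne').const_mul 2)).congr_deriv ?_
    simp only [id]
    field_simp
    ring
  · intro x hx
    apply div_nonpos_of_nonpos_of_nonneg
    · nlinarith [sq_nonneg (1 - x)]
    · positivity

theorem La_diff_le {s w X : ℝ} (hs0 : 0 < s) (hs1 : s < 1) (hw0 : 0 < w) (hw1 : w < 1)
    (hq : (1 - s ^ 2 * w ^ 2) * X ^ 2 = 1 - w ^ 2) (hX0 : 0 < X) (hX : X < 1) :
    La X - La (s / (2 - s) * X) ≤ (s ^ 2 * (1 - w ^ 2) + (1 - w ^ 2) / w) / 2 := by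
  have h2s : 0 < 2 - s := by linarith
  set σ := s / (2 - s) with hσ
  have hσ0 : 0 < σ := div_pos hs0 h2s
  have hσ1 : σ < 1 := by rw [hσ, div_lt_one h2s]; linarith
  have hσs : s ^ 2 ≤ σ := by
    rw [hσ, le_div_iff₀ h2s]
    nlinarith [mul_nonneg hs0.le (sq_nonneg (1 - s))]
  have hσs2 : s ^ 4 ≤ σ ^ 2 := by
    have : s ^ 4 = (s ^ 2) ^ 2 := by ring
    rw [this]
    exact pow_le_pow_left₀ (sq_nonneg s) hσs 2
  have hw2 : w ^ 2 < 1 := by nlinarith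
  have hs2 : s ^ 2 < 1 := by nlinarith
  have hq0 : 0 < 1 - s ^ 2 * w ^ 2 := by
    have : 0 < s ^ 2 := by positivity
    have : 0 < w ^ 2 := by positivity
    nlinarith
  have hX2 : 0 < 1 - X ^ 2 := one_sub_sq_pos (by linarith) hX
  have hσX0 : 0 < σ * X := by positivity
  have hσX1 : σ * X < 1 := by nlinarith
  have hσX2 : 0 < 1 - (σ * X) ^ 2 := one_sub_sq_pos (by linarith) hσX1
  have hw2p : 0 < w ^ 2 := by positivity
  have h1s : 0 < 1 + s ^ 2 * (1 - w ^ 2) := by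
    have : 0 ≤ s ^ 2 * (1 - w ^ 2) := mul_nonneg (sq_nonneg s) (by linarith)
    linarith
  have hprod : (1 - (σ * X) ^ 2) * w ^ 2 ≤ (1 - X ^ 2) * (1 + s ^ 2 * (1 - w ^ 2)) := by
    have e1 : (1 - s ^ 2 * w ^ 2) * ((1 - (σ * X) ^ 2) * w ^ 2) =
        ((1 - s ^ 2 * w ^ 2) - σ ^ 2 * (1 - w ^ 2)) * w ^ 2 := by
      have : (1 - s ^ 2 * w ^ 2) * ((1 - (σ * X) ^ 2) * w ^ 2) =
        ((1 - s ^ 2 * w ^ 2) - σ ^ 2 * ((1 - s ^ 2 * w ^ 2) * X ^ 2)) * w ^ 2 := by ring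
      rw [this, hq]
    have e2 : (1 - s ^ 2 * w ^ 2) * ((1 - X ^ 2) * (1 + s ^ 2 * (1 - w ^ 2))) =
        (w ^ 2 * (1 - s ^ 2)) * (1 + s ^ 2 * (1 - w ^ 2)) := by
      have : (1 - s ^ 2 * w ^ 2) * ((1 - X ^ 2) * (1 + s ^ 2 * (1 - w ^ 2))) =
        ((1 - s ^ 2 * w ^ 2) - (1 - s ^ 2 * w ^ 2) * X ^ 2) * (1 + s ^ 2 * (1 - w ^ 2)) := by ring
      rw [this, hq]
      ring
    have e3 : ((1 - s ^ 2 * w ^ 2) - σ ^ 2 * (1 - w ^ 2)) * w ^ 2 ≤
        (w ^ 2 * (1 - s ^ 2)) * (1 + s ^ 2 * (1 - w ^ 2)) := by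
      have : 0 ≤ (σ ^ 2 - s ^ 4) * ((1 - w ^ 2) * w ^ 2) :=
        mul_nonneg (by linarith) (mul_nonneg (by linarith) hw2p.le)
      nlinarith
    rw [← e1, ← e2] at e3
    exact le_of_mul_le_mul_left e3 hq0
  have hlog := Real.log_le_log (mul_pos hσX2 hw2p) hprod
  rw [Real.log_mul hσX2.ne' hw2p.ne', Real.log_mul hX2.ne' h1s.ne', Real.log_pow] at hlog
  have h5 : log (1 + s ^ 2 * (1 - w ^ 2)) ≤ s ^ 2 * (1 - w ^ 2) := by
    have := Real.log_le_sub_one_of_pos h1s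
    linarith
  have h6 := neg_two_log_le hw0 hw1.le
  unfold La
  push_cast at hlog
  linarith

theorem b3_aux {t B : ℝ} (h3 : 1 / 3 ≤ t)
    (hB : B ≤ log 2 - 1 / 2 - (1 - t) / 6 - (1 - t) ^ 2 / 60) :
    B ≤ (1 / 4 - t / 24 - 0.015 * t * (3 - 2 * t)) * t := by
  have hl := Real.log_two_lt_d9
  have h5 : 0 ≤ (1 - t) ^ 2 * (0.02 - 0.03 * (1 - t)) :=
    mul_nonneg (sq_nonneg _) (by linarith)
  linarith

/-- the key estimate -/
theorem W_nonneg {ρ X s : ℝ} (h0 : 0 < ρ) (h1 : ρ < 1) (hX0 : 0 < X) (hX1 : X < 1) (hs0 : 0 < s)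
    (hs : s ^ 2 * (1 - ρ ^ 2 * X ^ 2) = 1 - ρ ^ 2) :
    0 ≤ (1 - X ^ 2) / 2 * (La X - La (ρ * X)) + (Phi X - Phi (ρ * X)) -
      (1 - ρ ^ 2) * X * ath (ρ * X) / ρ / 2 -
      (1 - ρ ^ 2) * (1 - X ^ 2) / 4 * (La X - La (s / (2 - s) * X)) - s * X ^ 2 * bet ρ := by
  have hA := A_ge h0 h1 hX0 hX1
  have hN : 0 < 1 - ρ ^ 2 := one_sub_sq_pos (by linarith) h1
  have hX2 : 0 < 1 - X ^ 2 := one_sub_sq_pos (by linarith) hX1
  have hρ2 : 0 < ρ ^ 2 := by positivity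
  have hX2' : 0 < X ^ 2 := by positivity
  have hD : 0 < 1 - ρ ^ 2 * X ^ 2 := by nlinarith
  obtain ⟨n, hn0, hn⟩ : ∃ n : ℝ, 0 < n ∧ n ^ 2 = 1 - ρ ^ 2 :=
    ⟨√(1 - ρ ^ 2), Real.sqrt_pos.mpr hN, Real.sq_sqrt hN.le⟩
  obtain ⟨w, hw0, hw⟩ : ∃ w : ℝ, 0 < w ∧ w ^ 2 = 1 - ρ ^ 2 * X ^ 2 :=
    ⟨√(1 - ρ ^ 2 * X ^ 2), Real.sqrt_pos.mpr hD, Real.sq_sqrt hD.le⟩
  have hw1 : w < 1 := by
    have : w ^ 2 < 1 := by rw [hw]; nlinarith [mul_pos hρ2 hX2']
    nlinarith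
  have hnw : n < w := by
    have : n ^ 2 < w ^ 2 := by rw [hn, hw]; nlinarith
    exact lt_of_pow_lt_pow_left₀ 2 hw0.le this
  have hsw : s * w = n := by
    have : (s * w) ^ 2 = n ^ 2 := by rw [mul_pow, hw, hs, hn]
    have h3 : 0 < s * w := by positivity
    nlinarith [this, sq_nonneg (s * w - n), sq_nonneg (s * w + n)]
  have hsn : s = n / w := by rw [← hsw]; field_simp
  have hs1 : s < 1 := by rw [hsn, div_lt_one hw0]; exact hnw
  have hq1 : ρ ^ 2 = 1 - n ^ 2 := by linarith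
  have hq0 : 0 < 1 - n ^ 2 := by linarith
  have hq : (1 - s ^ 2 * w ^ 2) * X ^ 2 = 1 - w ^ 2 := by
    have : s ^ 2 * w ^ 2 = n ^ 2 := by rw [← hsw]; ring
    rw [this, ← hq1, hw]
    ring
  have hL := La_diff_le hs0 hs1 hw0 hw1 hq hX0 hX1
  have hz : X ^ 2 = (1 - w ^ 2) / (1 - n ^ 2) := by
    rw [eq_div_iff hq0.ne', ← hq1, hw]
    ring
  -- bounds for b
  set b := bet ρ / n ^ 2 with hb
  have hn2 : 0 < n ^ 2 := by positivity
  have hbB : bet ρ = b * n ^ 2 := by rw [hb]; field_simp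
  have b1 : 1 / 8 ≤ b := by
    rw [hb, le_div_iff₀ hn2, hn]
    have := bet_ge h0 h1
    linarith
  have b2 : b ≤ 1 / 4 - n ^ 2 / 24 := by
    rw [hb, div_le_iff₀ hn2]
    have := bet_le2 h0 h1
    rw [hq1] at this
    linarith
  have b3 : 1 / 3 ≤ n ^ 2 → b ≤ 1 / 4 - n ^ 2 / 24 - 0.015 * n ^ 2 * (3 - 2 * n ^ 2) := by
    intro h3
    rw [hb, div_le_iff₀ hn2]
    have := bet_le1 h0 h1
    have e : ρ ^ 4 = (ρ ^ 2) ^ 2 := by ring
    rw [e, hq1] at this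
    exact b3_aux h3 this
  have hPP := PP_nonneg hn0 hnw.le hw1 b1 b2 b3
  -- combine
  have hc : (1 - ρ ^ 2) * (1 - X ^ 2) / 4 * (La X - La (s / (2 - s) * X)) ≤
      (1 - ρ ^ 2) * (1 - X ^ 2) / 4 * ((s ^ 2 * (1 - w ^ 2) + (1 - w ^ 2) / w) / 2) :=
    mul_le_mul_of_nonneg_left hL (by positivity)
  have hE : X ^ 6 * bet ρ + (1 - ρ ^ 2) * X ^ 2 * (1 - X ^ 2) / 4 +
      X ^ 4 * (1 - X ^ 2) * ((1 - ρ ^ 4) / 24 + (1 - ρ ^ 2) / 6) -
      (1 - ρ ^ 2) * (1 - X ^ 2) / 4 * ((s ^ 2 * (1 - w ^ 2) + (1 - w ^ 2) / w) / 2) -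
      s * X ^ 2 * bet ρ =
      n ^ 2 * X ^ 2 * (1 - X ^ 2) / ((1 - n ^ 2) * (w + n) * w ^ 2) *
      (((1 / 4 - b) * (1 - n ^ 2) * w ^ 2 + (1 / 4 - n ^ 2 / 24 - b) * (w ^ 2 * (1 - w ^ 2)) -
      (1 - n ^ 2) ^ 2 / 8 * (n ^ 2 + w)) * (w + n) + b * (1 - n ^ 2) ^ 2 * w) := by
    have e4 : ρ ^ 4 = (ρ ^ 2) ^ 2 := by ring
    have e6 : X ^ 6 = (X ^ 2) ^ 3 := by ring
    have e4' : X ^ 4 = (X ^ 2) ^ 2 := by ring
    have hwn : w + n ≠ 0 := by positivity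
    rw [e4, e6, e4', hbB, hz, hq1, hsn]
    field_simp
    ring
  have hE2 : 0 ≤ n ^ 2 * X ^ 2 * (1 - X ^ 2) / ((1 - n ^ 2) * (w + n) * w ^ 2) *
      (((1 / 4 - b) * (1 - n ^ 2) * w ^ 2 + (1 / 4 - n ^ 2 / 24 - b) * (w ^ 2 * (1 - w ^ 2)) -
      (1 - n ^ 2) ^ 2 / 8 * (n ^ 2 + w)) * (w + n) + b * (1 - n ^ 2) ^ 2 * w) :=
    mul_nonneg (by positivity) hPP
  linarith

end

end Vale.Agent.P322
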