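import Vale.Agent.P322.Reg2D

/-!
# P322, regime 2: the inequality (8a)
-/

namespace Vale.Agent.P322

open Real Set

noncomputable section

/-- the function whose quotient by `1-ρ²` is nondecreasing -/
def TT (e ρ : ℝ) : ℝ :=
  sf e ρ * Phi (e / sf e ρ) - sf e ρ * Phi (ρ * (e / sf e ρ)) -
    (1 - ρ ^ 2) / 2 * (sf e ρ * Phi (e / sf e ρ) + (2 - sf e ρ) * Phi (e / (2 - sf e ρ))) -
    (ρ ^ 2 * log 2 - Phi ρ) * e ^ 2

theorem hasDerivAt_TT {e ρ : ℝ} (he0 : 0 < e) (he1 : e < 1) (h0 : 0 ≤ ρ) (h1 : ρ < 1) :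
    HasDerivAt (TT e)
      (-(-(ρ * (1 - e ^ 2)) / sf e ρ) * (La (e / sf e ρ) - La (ρ * (e / sf e ρ))) -
        e * ath (ρ * (e / sf e ρ)) +
        ρ * (sf e ρ * Phi (e / sf e ρ) + (2 - sf e ρ) * Phi (e / (2 - sf e ρ))) +
        (1 - ρ ^ 2) / 2 * (-(ρ * (1 - e ^ 2)) / sf e ρ) * (La (e / sf e ρ) -
          La (e / (2 - sf e ρ))) - (2 * ρ * log 2 - ath ρ) * e ^ 2) ρ := by
  have hs := sf_pos he0 he1 h0 h1
  have hs1 := sf_le_one he0 he1 h0 h1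
  have hse := sf_gt he0 he1 h0 h1
  have ds := hasDerivAt_sf he0 he1 h0 h1
  set d := -(ρ * (1 - e ^ 2)) / sf e ρ with hd
  have hX1 : e / sf e ρ < 1 := (div_lt_one hs).mpr hse
  have hX0 : 0 < e / sf e ρ := div_pos he0 hs
  have h2s : 0 < 2 - sf e ρ := by linarith
  have hZ1 : e / (2 - sf e ρ) < 1 := (div_lt_one h2s).mpr (by linarith)
  have hZ0 : 0 < e / (2 - sf e ρ) := div_pos he0 h2s
  have hY1 : ρ * (e / sf e ρ) < 1 := by nlinarith
  have hY0 : 0 ≤ ρ * (e / sf e ρ) := by positivity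
  have dX : HasDerivAt (fun ρ => e / sf e ρ) (-(e * d) / sf e ρ ^ 2) ρ := by
    refine ((hasDerivAt_const ρ e).div ds hs.ne').congr_deriv ?_
    ring
  have dY : HasDerivAt (fun ρ => ρ * (e / sf e ρ))
      (1 * (e / sf e ρ) + ρ * (-(e * d) / sf e ρ ^ 2)) ρ := (hasDerivAt_id ρ).mul dX
  have d2s : HasDerivAt (fun ρ => 2 - sf e ρ) (-d) ρ := ds.const_sub 2
  have dZ : HasDerivAt (fun ρ => e / (2 - sf e ρ)) ((e * d) / (2 - sf e ρ) ^ 2) ρ := by
    refine ((hasDerivAt_const ρ e).div d2s h2s.ne').congr_deriv ?_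
    ring
  have p1 := ds.mul ((hasDerivAt_Phi (t := e / sf e ρ) (by linarith) hX1).comp ρ dX)
  have p2 := ds.mul ((hasDerivAt_Phi (t := ρ * (e / sf e ρ)) (by linarith) hY1).comp ρ dY)
  have p3 := d2s.mul ((hasDerivAt_Phi (t := e / (2 - sf e ρ)) (by linarith) hZ1).comp ρ dZ)
  have p4 : HasDerivAt (fun ρ : ℝ => (1 - ρ ^ 2) / 2) (-(2 * ρ) / 2) ρ := by
    have := (((hasDerivAt_id ρ).pow 2).const_sub 1).div_const 2
    simpa using this
  have p5 : HasDerivAt (fun ρ : ℝ => ρ ^ 2 * log 2) (2 * ρ * log 2) ρ := by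
    have := ((hasDerivAt_id ρ).pow 2).mul_const (log 2)
    simpa using this
  have p6 := ((p5.sub (hasDerivAt_Phi (by linarith) h1))).mul_const (e ^ 2)
  have := (((p1.sub p2).sub (p4.mul (p1.add p3))).sub p6)
  refine this.congr_deriv ?_
  simp only [Function.comp_apply, Pi.mul_apply, Pi.add_apply]
  have q1 := Phi_eq (t := e / sf e ρ) (by linarith) hX1
  have q2 := Phi_eq (t := ρ * (e / sf e ρ)) (by linarith) hY1
  have q3 := Phi_eq (t := e / (2 - sf e ρ)) (by linarith) hZ1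
  set S := sf e ρ with hS
  set PX := Phi (e / S)
  set PY := Phi (ρ * (e / S))
  set PZ := Phi (e / (2 - S))
  set aX := ath (e / S)
  set aY := ath (ρ * (e / S))
  set aZ := ath (e / (2 - S))
  have r1 : La (e / S) = e / S * aX - PX := by linarith
  have r2 : La (ρ * (e / S)) = ρ * (e / S) * aY - PY := by linarith
  have r3 : La (e / (2 - S)) = e / (2 - S) * aZ - PZ := by linarith
  rw [r1, r2, r3]
  field_simp
  ring

theorem TT_nonneg {e ρ₀ : ℝ} (he0 : 0 < e) (he1 : e < 1) (h0 : 0 < ρ₀) (h1 : ρ₀ < 1) :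
    0 ≤ TT e ρ₀ := by
  have hder : ∀ ρ ∈ Icc 0 ρ₀, HasDerivAt (fun ρ => TT e ρ / (1 - ρ ^ 2))
      ((( -(-(ρ * (1 - e ^ 2)) / sf e ρ) * (La (e / sf e ρ) - La (ρ * (e / sf e ρ))) -
        e * ath (ρ * (e / sf e ρ)) +
        ρ * (sf e ρ * Phi (e / sf e ρ) + (2 - sf e ρ) * Phi (e / (2 - sf e ρ))) +
        (1 - ρ ^ 2) / 2 * (-(ρ * (1 - e ^ 2)) / sf e ρ) * (La (e / sf e ρ) -
          La (e / (2 - sf e ρ))) - (2 * ρ * log 2 - ath ρ) * e ^ 2) * (1 - ρ ^ 2) +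
        TT e ρ * (2 * ρ)) / (1 - ρ ^ 2) ^ 2) ρ := by
    intro ρ hρ
    have hρ0 := hρ.1
    have hρ1 : ρ < 1 := lt_of_le_of_lt hρ.2 h1
    have d4 : HasDerivAt (fun ρ : ℝ => 1 - ρ ^ 2) (-(2 * ρ)) ρ := by
      have := ((hasDerivAt_id ρ).pow 2).const_sub 1
      simpa using this
    have hN : 1 - ρ ^ 2 ≠ 0 := (one_sub_sq_pos (by linarith) hρ1).ne'
    refine ((hasDerivAt_TT he0 he1 hρ0 hρ1).div d4 hN).congr_deriv ?_
    ring
  have key := le_of_deriv_nonneg h0.le (f := fun ρ => TT e ρ / (1 - ρ ^ 2)) (a := 0) (b := ρ₀)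
    (fun x hx => (hder x hx).continuousAt.continuousWithinAt)
    (fun x hx => hder x ⟨hx.1.le, hx.2.le⟩) ?_
  · have hf0 : TT e 0 = 0 := by
      have hsf : sf e 0 = 1 := by simp [sf]
      unfold TT
      rw [hsf]
      norm_num
      ring
    simp only [hf0] at key
    have hN : 0 < 1 - ρ₀ ^ 2 := one_sub_sq_pos (by linarith) h1
    rw [zero_div] at key
    have := (le_div_iff₀ hN).mp key
    linarith
  · intro ρ hρ
    have hρ0 := hρ.1
    have hρ1 : ρ < 1 := hρ.2.trans h1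
    have hs := sf_pos he0 he1 hρ0.le hρ1
    have hs1 := sf_le_one he0 he1 hρ0.le hρ1
    have hse := sf_gt he0 he1 hρ0.le hρ1
    have hsq := sf_sq he0 he1 hρ0.le hρ1
    have hN : 0 < 1 - ρ ^ 2 := one_sub_sq_pos (by linarith) hρ1
    apply div_nonneg _ (by positivity)
    unfold TT
    set s := sf e ρ with hsdef
    obtain ⟨X, hX⟩ : ∃ X, X = e / s := ⟨_, rfl⟩
    rw [← hX]
    have hX1 : X < 1 := by rw [hX]; exact (div_lt_one hs).mpr hse
    have hX0 : 0 < X := by rw [hX]; exact div_pos he0 hs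
    have heX : e = s * X := by rw [hX]; field_simp
    have h2s : 0 < 2 - s := by linarith
    have hZ : e / (2 - s) = s / (2 - s) * X := by rw [heX]; ring
    rw [hZ]
    have hrel0 : s ^ 2 * (1 - ρ ^ 2 * X ^ 2) = 1 - ρ ^ 2 := by
      have : s ^ 2 * X ^ 2 = e ^ 2 := by rw [heX]; ring
      have e1 : s ^ 2 * (1 - ρ ^ 2 * X ^ 2) = s ^ 2 - ρ ^ 2 * (s ^ 2 * X ^ 2) := by ring
      rw [e1, this, hsq]
      ring
    have hW := W_nonneg hρ0 hρ1 hX0 hX1 hs hrel0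
    have hrel : (1 - ρ ^ 2) * (1 - e ^ 2) = s ^ 2 * (1 - X ^ 2) := by
      have : s ^ 2 * X ^ 2 = e ^ 2 := by rw [heX]; ring
      nlinarith
    have hd : (-(ρ * (1 - e ^ 2)) / s) * (1 - ρ ^ 2) = -(ρ * s * (1 - X ^ 2)) := by
      have : (-(ρ * (1 - e ^ 2)) / s) * (1 - ρ ^ 2) =
        -(ρ * ((1 - ρ ^ 2) * (1 - e ^ 2))) / s := by ring
      rw [this, hrel]
      field_simp
    have hbet : 2 * ρ * bet ρ = 2 * ρ * (log 2 - Phi ρ) - (1 - ρ ^ 2) * ath ρ := by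
      unfold bet
      field_simp
    have he2 : e ^ 2 = s ^ 2 * X ^ 2 := by rw [heX]; ring
    set d := -(ρ * (1 - e ^ 2)) / s with hddef
    have hfin : (-d * (La X - La (ρ * X)) - e * ath (ρ * X) +
        ρ * (s * Phi X + (2 - s) * Phi (s / (2 - s) * X)) +
        (1 - ρ ^ 2) / 2 * d * (La X - La (s / (2 - s) * X)) - (2 * ρ * log 2 - ath ρ) * e ^ 2) *
        (1 - ρ ^ 2) +
        (s * Phi X - s * Phi (ρ * X) -
          (1 - ρ ^ 2) / 2 * (s * Phi X + (2 - s) * Phi (s / (2 - s) * X)) -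
          (ρ ^ 2 * log 2 - Phi ρ) * e ^ 2) * (2 * ρ) =
        2 * ρ * s * ((1 - X ^ 2) / 2 * (La X - La (ρ * X)) + (Phi X - Phi (ρ * X)) -
      (1 - ρ ^ 2) * X * ath (ρ * X) / ρ / 2 -
      (1 - ρ ^ 2) * (1 - X ^ 2) / 4 * (La X - La (s / (2 - s) * X)) - s * X ^ 2 * bet ρ) := by
      have h7 : 2 * ρ * s * ((1 - ρ ^ 2) * X * ath (ρ * X) / ρ / 2) =
          s * ((1 - ρ ^ 2) * X * ath (ρ * X)) := by field_simp
      have h8 : 2 * ρ * s * ((1 - X ^ 2) / 2 * (La X - La (ρ * X)) + (Phi X - Phi (ρ * X)) -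
          (1 - ρ ^ 2) * X * ath (ρ * X) / ρ / 2 -
          (1 - ρ ^ 2) * (1 - X ^ 2) / 4 * (La X - La (s / (2 - s) * X)) - s * X ^ 2 * bet ρ) =
          2 * ρ * s * ((1 - X ^ 2) / 2 * (La X - La (ρ * X)) + (Phi X - Phi (ρ * X)) -
          (1 - ρ ^ 2) * (1 - X ^ 2) / 4 * (La X - La (s / (2 - s) * X))) -
          s * ((1 - ρ ^ 2) * X * ath (ρ * X)) - s ^ 2 * X ^ 2 * (2 * ρ * bet ρ) := by
        rw [← h7]; ring
      rw [h8, hbet, he2]
      rw [heX]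
      linear_combination (-(La X - La (ρ * X)) +
        (1 - ρ ^ 2) / 2 * (La X - La (s / (2 - s) * X))) * hd
    rw [hfin]
    exact mul_nonneg (by positivity) hW

/-- **(8a)** -/
theorem reg2a {ρ z : ℝ} (h0 : 0 < ρ) (h1 : ρ < 1) (hz0 : 0 < z) (hz1 : z < 1) {p : ℝ}
    (hp : p = √((1 - ρ ^ 2) / (1 - ρ ^ 2 * z ^ 2))) :
    0 ≤ ρ ^ 2 * Phi z - Phi (ρ * z) +
      (1 - ρ ^ 2) / 2 * (Phi z - Phi (p / (2 - p) * z) / (p / (2 - p))) - kap ρ * p * z ^ 2 := by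
  obtain ⟨hp0, hp1, hsf⟩ := weight_facts h0 h1 hz0 hz1
  rw [← hp] at hp0 hp1 hsf
  have := TT_nonneg (e := p * z) (ρ₀ := ρ) (by positivity) (by nlinarith) h0 h1
  unfold TT at this
  rw [hsf] at this
  have e1 : p * z / p = z := by field_simp
  have e2 : p * z / (2 - p) = p / (2 - p) * z := by ring
  rw [e1, e2] at this
  have h2p : 0 < 2 - p := by linarith
  have hk : kap ρ = ρ ^ 2 * log 2 - Phi ρ := by
    unfold kap
    rw [hb_eq_log (by linarith) h1]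
    ring
  have e3 : p * Phi z - p * Phi (ρ * z) -
      (1 - ρ ^ 2) / 2 * (p * Phi z + (2 - p) * Phi (p / (2 - p) * z)) -
      (ρ ^ 2 * log 2 - Phi ρ) * (p * z) ^ 2 =
      p * (ρ ^ 2 * Phi z - Phi (ρ * z) +
      (1 - ρ ^ 2) / 2 * (Phi z - Phi (p / (2 - p) * z) / (p / (2 - p))) - kap ρ * p * z ^ 2) := by
    rw [hk]
    field_simp
    ring
  rw [e3] at this
  exact nonneg_of_mul_nonneg_right this hp0

end

end Vale.Agent.P322
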