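import Vale.Agent.P322.LogNum

/-! rational enclosures of `hb` used in (S3) -/

namespace Vale.Agent.P322

namespace S3ns

open Real Finset

theorem hv_0 : (3841927 / 10000000 : ℝ) ≤ hb (7423 / 10000) ∧ hb (7423 / 10000) ≤ (240123 / 625000 : ℝ) :=
  hb_val (k1 := 0) (k2 := (-2)) (c1 := 17423 / 10000) (c2 := 2577 / 2500) (by norm_num) (by norm_num)
    (by norm_num) (by norm_num) (by norm_num) (by norm_num) (by norm_num)
    (by norm_num [S7]) (by norm_num [S7])

theorem hv_1 : (3451521 / 10000000 : ℝ) ≤ hb (7813 / 10000) ∧ hb (7813 / 10000) ≤ (1725781 / 5000000 : ℝ) :=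
  hb_val (k1 := 0) (k2 := (-3)) (c1 := 17813 / 10000) (c2 := 2187 / 1250) (by norm_num) (by norm_num)
    (by norm_num) (by norm_num) (by norm_num) (by norm_num) (by norm_num)
    (by norm_num [S7]) (by norm_num [S7])

theorem hv_2 : (3465133 / 10000000 : ℝ) ≤ hb (39 / 50) ∧ hb (39 / 50) ≤ (1732587 / 5000000 : ℝ) :=
  hb_val (k1 := 0) (k2 := (-3)) (c1 := 89 / 50) (c2 := 44 / 25) (by norm_num) (by norm_num)
    (by norm_num) (by norm_num) (by norm_num) (by norm_num) (by norm_num)
    (by norm_num [S7]) (by norm_num [S7])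

theorem hv_3 : (5146203 / 10000000 : ℝ) ≤ hb (289497 / 500000) ∧ hb (289497 / 500000) ≤ (1286561 / 2500000 : ℝ) :=
  hb_val (k1 := 0) (k2 := (-2)) (c1 := 789497 / 500000) (c2 := 210503 / 125000) (by norm_num) (by norm_num)
    (by norm_num) (by norm_num) (by norm_num) (by norm_num) (by norm_num)
    (by norm_num [S7]) (by norm_num [S7])

theorem hv_4 : (957611 / 2500000 : ℝ) ≤ hb (1487 / 2000) ∧ hb (1487 / 2000) ≤ (766097 / 2000000 : ℝ) :=
  hb_val (k1 := 0) (k2 := (-2)) (c1 := 3487 / 2000) (c2 := 513 / 500) (by norm_num) (by norm_num)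
    (by norm_num) (by norm_num) (by norm_num) (by norm_num) (by norm_num)
    (by norm_num [S7]) (by norm_num [S7])

theorem hv_5 : (1718407 / 5000000 : ℝ) ≤ hb (7827 / 10000) ∧ hb (7827 / 10000) ≤ (687371 / 2000000 : ℝ) :=
  hb_val (k1 := 0) (k2 := (-3)) (c1 := 17827 / 10000) (c2 := 2173 / 1250) (by norm_num) (by norm_num)
    (by norm_num) (by norm_num) (by norm_num) (by norm_num) (by norm_num)
    (by norm_num [S7]) (by norm_num [S7])

theorem hv_6 : (5133601 / 10000000 : ℝ) ≤ hb (11617931 / 20000000) ∧ hb (11617931 / 20000000) ≤ (2566821 / 5000000 : ℝ) :=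
  hb_val (k1 := 0) (k2 := (-2)) (c1 := 31617931 / 20000000) (c2 := 8382069 / 5000000) (by norm_num) (by norm_num)
    (by norm_num) (by norm_num) (by norm_num) (by norm_num) (by norm_num)
    (by norm_num [S7]) (by norm_num [S7])

theorem hv_7 : (3818929 / 10000000 : ℝ) ≤ hb (7447 / 10000) ∧ hb (7447 / 10000) ≤ (381897 / 1000000 : ℝ) :=
  hb_val (k1 := 0) (k2 := (-2)) (c1 := 17447 / 10000) (c2 := 2553 / 2500) (by norm_num) (by norm_num)
    (by norm_num) (by norm_num) (by norm_num) (by norm_num) (by norm_num)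
    (by norm_num [S7]) (by norm_num [S7])

theorem hv_8 : (3421001 / 10000000 : ℝ) ≤ hb (3921 / 5000) ∧ hb (3921 / 5000) ≤ (1710521 / 5000000 : ℝ) :=
  hb_val (k1 := 0) (k2 := (-3)) (c1 := 8921 / 5000) (c2 := 1079 / 625) (by norm_num) (by norm_num)
    (by norm_num) (by norm_num) (by norm_num) (by norm_num) (by norm_num)
    (by norm_num [S7]) (by norm_num [S7])

theorem hv_9 : (5120427 / 10000000 : ℝ) ≤ hb (58287669 / 100000000) ∧ hb (58287669 / 100000000) ≤ (1280117 / 2500000 : ℝ) :=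
  hb_val (k1 := 0) (k2 := (-2)) (c1 := 158287669 / 100000000) (c2 := 41712331 / 25000000) (by norm_num) (by norm_num)
    (by norm_num) (by norm_num) (by norm_num) (by norm_num) (by norm_num)
    (by norm_num [S7]) (by norm_num [S7])

theorem hv_10 : (3806417 / 10000000 : ℝ) ≤ hb (373 / 500) ∧ hb (373 / 500) ≤ (1903229 / 5000000 : ℝ) :=
  hb_val (k1 := 0) (k2 := (-2)) (c1 := 873 / 500) (c2 := 127 / 125) (by norm_num) (by norm_num)
    (by norm_num) (by norm_num) (by norm_num) (by norm_num) (by norm_num)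
    (by norm_num [S7]) (by norm_num [S7])

theorem hv_11 : (26586 / 78125 : ℝ) ≤ hb (7859 / 10000) ∧ hb (7859 / 10000) ≤ (3403049 / 10000000 : ℝ) :=
  hb_val (k1 := 0) (k2 := (-3)) (c1 := 17859 / 10000) (c2 := 2141 / 1250) (by norm_num) (by norm_num)
    (by norm_num) (by norm_num) (by norm_num) (by norm_num) (by norm_num)
    (by norm_num [S7]) (by norm_num [S7])

theorem hv_12 : (2553073 / 5000000 : ℝ) ≤ hb (1462533 / 2500000) ∧ hb (1462533 / 2500000) ≤ (5106187 / 10000000 : ℝ) :=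
  hb_val (k1 := 0) (k2 := (-2)) (c1 := 3962533 / 2500000) (c2 := 1037467 / 625000) (by norm_num) (by norm_num)
    (by norm_num) (by norm_num) (by norm_num) (by norm_num) (by norm_num)
    (by norm_num [S7]) (by norm_num [S7])

theorem hv_13 : (1895967 / 5000000 : ℝ) ≤ hb (299 / 400) ∧ hb (299 / 400) ≤ (151679 / 400000 : ℝ) :=
  hb_val (k1 := 0) (k2 := (-2)) (c1 := 699 / 400) (c2 := 101 / 100) (by norm_num) (by norm_num)
    (by norm_num) (by norm_num) (by norm_num) (by norm_num) (by norm_num)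
    (by norm_num [S7]) (by norm_num [S7])

theorem hv_14 : (1691937 / 5000000 : ℝ) ≤ hb (7877 / 10000) ∧ hb (7877 / 10000) ≤ (676783 / 2000000 : ℝ) :=
  hb_val (k1 := 0) (k2 := (-3)) (c1 := 17877 / 10000) (c2 := 2123 / 1250) (by norm_num) (by norm_num)
    (by norm_num) (by norm_num) (by norm_num) (by norm_num) (by norm_num)
    (by norm_num [S7]) (by norm_num [S7])

theorem hv_15 : (636213 / 1250000 : ℝ) ≤ hb (2349841 / 4000000) ∧ hb (2349841 / 4000000) ≤ (1017949 / 2000000 : ℝ) :=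
  hb_val (k1 := 0) (k2 := (-2)) (c1 := 6349841 / 4000000) (c2 := 1650159 / 1000000) (by norm_num) (by norm_num)
    (by norm_num) (by norm_num) (by norm_num) (by norm_num) (by norm_num)
    (by norm_num [S7]) (by norm_num [S7])

theorem hv_16 : (944107 / 2500000 : ℝ) ≤ hb (7491 / 10000) ∧ hb (7491 / 10000) ≤ (3776469 / 10000000 : ℝ) :=
  hb_val (k1 := 0) (k2 := (-2)) (c1 := 17491 / 10000) (c2 := 2509 / 2500) (by norm_num) (by norm_num)
    (by norm_num) (by norm_num) (by norm_num) (by norm_num) (by norm_num)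
    (by norm_num [S7]) (by norm_num [S7])

theorem hv_17 : (672503 / 2000000 : ℝ) ≤ hb (7897 / 10000) ∧ hb (7897 / 10000) ≤ (840639 / 2500000 : ℝ) :=
  hb_val (k1 := 0) (k2 := (-3)) (c1 := 17897 / 10000) (c2 := 2103 / 1250) (by norm_num) (by norm_num)
    (by norm_num) (by norm_num) (by norm_num) (by norm_num) (by norm_num)
    (by norm_num [S7]) (by norm_num [S7])

theorem hv_18 : (2536047 / 5000000 : ℝ) ≤ hb (59006607 / 100000000) ∧ hb (59006607 / 100000000) ≤ (1014427 / 2000000 : ℝ) :=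
  hb_val (k1 := 0) (k2 := (-2)) (c1 := 159006607 / 100000000) (c2 := 40993393 / 25000000) (by norm_num) (by norm_num)
    (by norm_num) (by norm_num) (by norm_num) (by norm_num) (by norm_num)
    (by norm_num [S7]) (by norm_num [S7])

theorem hv_19 : (751783 / 2000000 : ℝ) ≤ hb (7509 / 10000) ∧ hb (7509 / 10000) ≤ (939739 / 2500000 : ℝ) :=
  hb_val (k1 := 0) (k2 := (-3)) (c1 := 17509 / 10000) (c2 := 2491 / 1250) (by norm_num) (by norm_num)
    (by norm_num) (by norm_num) (by norm_num) (by norm_num) (by norm_num)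
    (by norm_num [S7]) (by norm_num [S7])

theorem hv_20 : (208681 / 625000 : ℝ) ≤ hb (7919 / 10000) ∧ hb (7919 / 10000) ≤ (3338937 / 10000000 : ℝ) :=
  hb_val (k1 := 0) (k2 := (-3)) (c1 := 17919 / 10000) (c2 := 2081 / 1250) (by norm_num) (by norm_num)
    (by norm_num) (by norm_num) (by norm_num) (by norm_num) (by norm_num)
    (by norm_num [S7]) (by norm_num [S7])

theorem hv_21 : (63153 / 125000 : ℝ) ≤ hb (59298573 / 100000000) ∧ hb (59298573 / 100000000) ≤ (5052281 / 10000000 : ℝ) :=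
  hb_val (k1 := 0) (k2 := (-2)) (c1 := 159298573 / 100000000) (c2 := 40701427 / 25000000) (by norm_num) (by norm_num)
    (by norm_num) (by norm_num) (by norm_num) (by norm_num) (by norm_num)
    (by norm_num [S7]) (by norm_num [S7])

theorem hv_22 : (3739369 / 10000000 : ℝ) ≤ hb (7529 / 10000) ∧ hb (7529 / 10000) ≤ (373941 / 1000000 : ℝ) :=
  hb_val (k1 := 0) (k2 := (-3)) (c1 := 17529 / 10000) (c2 := 2471 / 1250) (by norm_num) (by norm_num)
    (by norm_num) (by norm_num) (by norm_num) (by norm_num) (by norm_num)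
    (by norm_num [S7]) (by norm_num [S7])

theorem hv_23 : (662813 / 2000000 : ℝ) ≤ hb (3971 / 5000) ∧ hb (3971 / 5000) ≤ (1657053 / 5000000 : ℝ) :=
  hb_val (k1 := 0) (k2 := (-3)) (c1 := 8971 / 5000) (c2 := 1029 / 625) (by norm_num) (by norm_num)
    (by norm_num) (by norm_num) (by norm_num) (by norm_num) (by norm_num)
    (by norm_num [S7]) (by norm_num [S7])

theorem hv_24 : (5030083 / 10000000 : ℝ) ≤ hb (59622151 / 100000000) ∧ hb (59622151 / 100000000) ≤ (1257531 / 2500000 : ℝ) :=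
  hb_val (k1 := 0) (k2 := (-2)) (c1 := 159622151 / 100000000) (c2 := 40377849 / 25000000) (by norm_num) (by norm_num)
    (by norm_num) (by norm_num) (by norm_num) (by norm_num) (by norm_num)
    (by norm_num [S7]) (by norm_num [S7])

theorem hv_25 : (1859373 / 5000000 : ℝ) ≤ hb (151 / 200) ∧ hb (151 / 200) ≤ (3718787 / 10000000 : ℝ) :=
  hb_val (k1 := 0) (k2 := (-3)) (c1 := 351 / 200) (c2 := 49 / 25) (by norm_num) (by norm_num)
    (by norm_num) (by norm_num) (by norm_num) (by norm_num) (by norm_num)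
    (by norm_num [S7]) (by norm_num [S7])

theorem hv_26 : (3286913 / 10000000 : ℝ) ≤ hb (7967 / 10000) ∧ hb (7967 / 10000) ≤ (1643477 / 5000000 : ℝ) :=
  hb_val (k1 := 0) (k2 := (-3)) (c1 := 17967 / 10000) (c2 := 2033 / 1250) (by norm_num) (by norm_num)
    (by norm_num) (by norm_num) (by norm_num) (by norm_num) (by norm_num)
    (by norm_num [S7]) (by norm_num [S7])

theorem hv_27 : (500663 / 1000000 : ℝ) ≤ hb (599621 / 1000000) ∧ hb (599621 / 1000000) ≤ (5006671 / 10000000 : ℝ) :=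
  hb_val (k1 := 0) (k2 := (-2)) (c1 := 1599621 / 1000000) (c2 := 400379 / 250000) (by norm_num) (by norm_num)
    (by norm_num) (by norm_num) (by norm_num) (by norm_num) (by norm_num)
    (by norm_num [S7]) (by norm_num [S7])

theorem hv_28 : (3696041 / 10000000 : ℝ) ≤ hb (7573 / 10000) ∧ hb (7573 / 10000) ≤ (1848041 / 5000000 : ℝ) :=
  hb_val (k1 := 0) (k2 := (-3)) (c1 := 17573 / 10000) (c2 := 2427 / 1250) (by norm_num) (by norm_num)
    (by norm_num) (by norm_num) (by norm_num) (by norm_num) (by norm_num)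
    (by norm_num [S7]) (by norm_num [S7])

theorem hv_29 : (814349 / 2500000 : ℝ) ≤ hb (3997 / 5000) ∧ hb (3997 / 5000) ≤ (3257437 / 10000000 : ℝ) :=
  hb_val (k1 := 0) (k2 := (-3)) (c1 := 8997 / 5000) (c2 := 1003 / 625) (by norm_num) (by norm_num)
    (by norm_num) (by norm_num) (by norm_num) (by norm_num) (by norm_num)
    (by norm_num [S7]) (by norm_num [S7])

theorem hv_30 : (4980759 / 10000000 : ℝ) ≤ hb (60334091 / 100000000) ∧ hb (60334091 / 100000000) ≤ (3113 / 6250 : ℝ) :=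
  hb_val (k1 := 0) (k2 := (-2)) (c1 := 160334091 / 100000000) (c2 := 39665909 / 25000000) (by norm_num) (by norm_num)
    (by norm_num) (by norm_num) (by norm_num) (by norm_num) (by norm_num)
    (by norm_num [S7]) (by norm_num [S7])

theorem hv_31 : (3672217 / 10000000 : ℝ) ≤ hb (7597 / 10000) ∧ hb (7597 / 10000) ≤ (1836129 / 5000000 : ℝ) :=
  hb_val (k1 := 0) (k2 := (-3)) (c1 := 17597 / 10000) (c2 := 2403 / 1250) (by norm_num) (by norm_num)
    (by norm_num) (by norm_num) (by norm_num) (by norm_num) (by norm_num)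
    (by norm_num [S7]) (by norm_num [S7])

theorem hv_32 : (3225467 / 10000000 : ℝ) ≤ hb (8023 / 10000) ∧ hb (8023 / 10000) ≤ (806377 / 2500000 : ℝ) :=
  hb_val (k1 := 0) (k2 := (-3)) (c1 := 18023 / 10000) (c2 := 1977 / 1250) (by norm_num) (by norm_num)
    (by norm_num) (by norm_num) (by norm_num) (by norm_num) (by norm_num)
    (by norm_num [S7]) (by norm_num [S7])

theorem hv_33 : (1238239 / 2500000 : ℝ) ≤ hb (30365209 / 50000000) ∧ hb (30365209 / 50000000) ≤ (4952997 / 10000000 : ℝ) :=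
  hb_val (k1 := 0) (k2 := (-2)) (c1 := 80365209 / 50000000) (c2 := 19634791 / 12500000) (by norm_num) (by norm_num)
    (by norm_num) (by norm_num) (by norm_num) (by norm_num) (by norm_num)
    (by norm_num [S7]) (by norm_num [S7])

theorem hv_34 : (14577 / 40000 : ℝ) ≤ hb (61 / 80) ∧ hb (61 / 80) ≤ (3644291 / 10000000 : ℝ) :=
  hb_val (k1 := 0) (k2 := (-3)) (c1 := 141 / 80) (c2 := 19 / 10) (by norm_num) (by norm_num)
    (by norm_num) (by norm_num) (by norm_num) (by norm_num) (by norm_num)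
    (by norm_num [S7]) (by norm_num [S7])

theorem hv_35 : (1594981 / 5000000 : ℝ) ≤ hb (1611 / 2000) ∧ hb (1611 / 2000) ≤ (3190003 / 10000000 : ℝ) :=
  hb_val (k1 := 0) (k2 := (-3)) (c1 := 3611 / 2000) (c2 := 389 / 250) (by norm_num) (by norm_num)
    (by norm_num) (by norm_num) (by norm_num) (by norm_num) (by norm_num)
    (by norm_num [S7]) (by norm_num [S7])

theorem hv_36 : (2460723 / 5000000 : ℝ) ≤ hb (489403 / 800000) ∧ hb (489403 / 800000) ≤ (4921487 / 10000000 : ℝ) :=
  hb_val (k1 := 0) (k2 := (-2)) (c1 := 1289403 / 800000) (c2 := 310597 / 200000) (by norm_num) (by norm_num)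
    (by norm_num) (by norm_num) (by norm_num) (by norm_num) (by norm_num)
    (by norm_num [S7]) (by norm_num [S7])

theorem hv_37 : (1807543 / 5000000 : ℝ) ≤ hb (3827 / 5000) ∧ hb (3827 / 5000) ≤ (3615127 / 10000000 : ℝ) :=
  hb_val (k1 := 0) (k2 := (-3)) (c1 := 8827 / 5000) (c2 := 1173 / 625) (by norm_num) (by norm_num)
    (by norm_num) (by norm_num) (by norm_num) (by norm_num) (by norm_num)
    (by norm_num [S7]) (by norm_num [S7])

theorem hv_38 : (1575959 / 5000000 : ℝ) ≤ hb (8089 / 10000) ∧ hb (8089 / 10000) ≤ (3151959 / 10000000 : ℝ) :=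
  hb_val (k1 := 0) (k2 := (-3)) (c1 := 18089 / 10000) (c2 := 1911 / 1250) (by norm_num) (by norm_num)
    (by norm_num) (by norm_num) (by norm_num) (by norm_num) (by norm_num)
    (by norm_num [S7]) (by norm_num [S7])

theorem hv_39 : (4887271 / 10000000 : ℝ) ≤ hb (6165297 / 10000000) ∧ hb (6165297 / 10000000) ≤ (305457 / 625000 : ℝ) :=
  hb_val (k1 := 0) (k2 := (-2)) (c1 := 16165297 / 10000000) (c2 := 3834703 / 2500000) (by norm_num) (by norm_num)
    (by norm_num) (by norm_num) (by norm_num) (by norm_num) (by norm_num)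
    (by norm_num [S7]) (by norm_num [S7])

theorem hv_40 : (3581653 / 10000000 : ℝ) ≤ hb (7687 / 10000) ∧ hb (7687 / 10000) ≤ (1790847 / 5000000 : ℝ) :=
  hb_val (k1 := 0) (k2 := (-3)) (c1 := 17687 / 10000) (c2 := 2313 / 1250) (by norm_num) (by norm_num)
    (by norm_num) (by norm_num) (by norm_num) (by norm_num) (by norm_num)
    (by norm_num [S7]) (by norm_num [S7])

theorem hv_41 : (3110137 / 10000000 : ℝ) ≤ hb (4063 / 5000) ∧ hb (4063 / 5000) ≤ (1555089 / 5000000 : ℝ) :=
  hb_val (k1 := 0) (k2 := (-3)) (c1 := 9063 / 5000) (c2 := 937 / 625) (by norm_num) (by norm_num)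
    (by norm_num) (by norm_num) (by norm_num) (by norm_num) (by norm_num)
    (by norm_num [S7]) (by norm_num [S7])

theorem hv_42 : (2424561 / 5000000 : ℝ) ≤ hb (62180143 / 100000000) ∧ hb (62180143 / 100000000) ≤ (4849163 / 10000000 : ℝ) :=
  hb_val (k1 := 0) (k2 := (-2)) (c1 := 162180143 / 100000000) (c2 := 37819857 / 25000000) (by norm_num) (by norm_num)
    (by norm_num) (by norm_num) (by norm_num) (by norm_num) (by norm_num)
    (by norm_num [S7]) (by norm_num [S7])

theorem hv_43 : (3545903 / 10000000 : ℝ) ≤ hb (3861 / 5000) ∧ hb (3861 / 5000) ≤ (443243 / 1250000 : ℝ) :=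
  hb_val (k1 := 0) (k2 := (-3)) (c1 := 8861 / 5000) (c2 := 1139 / 625) (by norm_num) (by norm_num)
    (by norm_num) (by norm_num) (by norm_num) (by norm_num) (by norm_num)
    (by norm_num [S7]) (by norm_num [S7])

theorem hv_44 : (153283 / 500000 : ℝ) ≤ hb (1633 / 2000) ∧ hb (1633 / 2000) ≤ (3065701 / 10000000 : ℝ) :=
  hb_val (k1 := 0) (k2 := (-3)) (c1 := 3633 / 2000) (c2 := 367 / 250) (by norm_num) (by norm_num)
    (by norm_num) (by norm_num) (by norm_num) (by norm_num) (by norm_num)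
    (by norm_num [S7]) (by norm_num [S7])

theorem hv_45 : (96149 / 200000 : ℝ) ≤ hb (15687243 / 25000000) ∧ hb (15687243 / 25000000) ≤ (4807491 / 10000000 : ℝ) :=
  hb_val (k1 := 0) (k2 := (-2)) (c1 := 40687243 / 25000000) (c2 := 9312757 / 6250000) (by norm_num) (by norm_num)
    (by norm_num) (by norm_num) (by norm_num) (by norm_num) (by norm_num)
    (by norm_num [S7]) (by norm_num [S7])

theorem hv_46 : (438343 / 1250000 : ℝ) ≤ hb (97 / 125) ∧ hb (97 / 125) ≤ (701357 / 2000000 : ℝ) :=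
  hb_val (k1 := 0) (k2 := (-3)) (c1 := 222 / 125) (c2 := 224 / 125) (by norm_num) (by norm_num)
    (by norm_num) (by norm_num) (by norm_num) (by norm_num) (by norm_num)
    (by norm_num [S7]) (by norm_num [S7])

theorem hv_47 : (3017253 / 10000000 : ℝ) ≤ hb (8207 / 10000) ∧ hb (8207 / 10000) ≤ (1508647 / 5000000 : ℝ) :=
  hb_val (k1 := 0) (k2 := (-3)) (c1 := 18207 / 10000) (c2 := 1793 / 1250) (by norm_num) (by norm_num)
    (by norm_num) (by norm_num) (by norm_num) (by norm_num) (by norm_num)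
    (by norm_num [S7]) (by norm_num [S7])

theorem hv_48 : (2381031 / 5000000 : ℝ) ≤ hb (158401 / 250000) ∧ hb (158401 / 250000) ≤ (4762103 / 10000000 : ℝ) :=
  hb_val (k1 := 0) (k2 := (-2)) (c1 := 408401 / 250000) (c2 := 91599 / 62500) (by norm_num) (by norm_num)
    (by norm_num) (by norm_num) (by norm_num) (by norm_num) (by norm_num)
    (by norm_num [S7]) (by norm_num [S7])

theorem hv_49 : (3464087 / 10000000 : ℝ) ≤ hb (7801 / 10000) ∧ hb (7801 / 10000) ≤ (54127 / 156250 : ℝ) :=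
  hb_val (k1 := 0) (k2 := (-3)) (c1 := 17801 / 10000) (c2 := 2199 / 1250) (by norm_num) (by norm_num)
    (by norm_num) (by norm_num) (by norm_num) (by norm_num) (by norm_num)
    (by norm_num [S7]) (by norm_num [S7])

theorem hv_50 : (74149 / 250000 : ℝ) ≤ hb (8251 / 10000) ∧ hb (8251 / 10000) ≤ (2966001 / 10000000 : ℝ) :=
  hb_val (k1 := 0) (k2 := (-3)) (c1 := 18251 / 10000) (c2 := 1749 / 1250) (by norm_num) (by norm_num)
    (by norm_num) (by norm_num) (by norm_num) (by norm_num) (by norm_num)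
    (by norm_num [S7]) (by norm_num [S7])

theorem hv_51 : (942437 / 2000000 : ℝ) ≤ hb (64022807 / 100000000) ∧ hb (64022807 / 100000000) ≤ (2356113 / 5000000 : ℝ) :=
  hb_val (k1 := 0) (k2 := (-2)) (c1 := 164022807 / 100000000) (c2 := 35977193 / 25000000) (by norm_num) (by norm_num)
    (by norm_num) (by norm_num) (by norm_num) (by norm_num) (by norm_num)
    (by norm_num [S7]) (by norm_num [S7])

theorem hv_52 : (427361 / 1250000 : ℝ) ≤ hb (1961 / 2500) ∧ hb (1961 / 2500) ≤ (3418929 / 10000000 : ℝ) :=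
  hb_val (k1 := 0) (k2 := (-3)) (c1 := 4461 / 2500) (c2 := 1078 / 625) (by norm_num) (by norm_num)
    (by norm_num) (by norm_num) (by norm_num) (by norm_num) (by norm_num)
    (by norm_num [S7]) (by norm_num [S7])

theorem hv_53 : (2910499 / 10000000 : ℝ) ≤ hb (4149 / 5000) ∧ hb (4149 / 5000) ≤ (145527 / 500000 : ℝ) :=
  hb_val (k1 := 0) (k2 := (-3)) (c1 := 9149 / 5000) (c2 := 851 / 625) (by norm_num) (by norm_num)
    (by norm_num) (by norm_num) (by norm_num) (by norm_num) (by norm_num)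
    (by norm_num [S7]) (by norm_num [S7])

theorem hv_54 : (4658819 / 10000000 : ℝ) ≤ hb (16180211 / 25000000) ∧ hb (16180211 / 25000000) ≤ (232943 / 500000 : ℝ) :=
  hb_val (k1 := 0) (k2 := (-2)) (c1 := 41180211 / 25000000) (c2 := 8819789 / 6250000) (by norm_num) (by norm_num)
    (by norm_num) (by norm_num) (by norm_num) (by norm_num) (by norm_num)
    (by norm_num [S7]) (by norm_num [S7])

theorem hv_55 : (673573 / 2000000 : ℝ) ≤ hb (1973 / 2500) ∧ hb (1973 / 2500) ≤ (1683953 / 5000000 : ℝ) :=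
  hb_val (k1 := 0) (k2 := (-3)) (c1 := 4473 / 2500) (c2 := 1054 / 625) (by norm_num) (by norm_num)
    (by norm_num) (by norm_num) (by norm_num) (by norm_num) (by norm_num)
    (by norm_num [S7]) (by norm_num [S7])

theorem hv_56 : (2850719 / 10000000 : ℝ) ≤ hb (2087 / 2500) ∧ hb (2087 / 2500) ≤ (71269 / 250000 : ℝ) :=
  hb_val (k1 := 0) (k2 := (-3)) (c1 := 4587 / 2500) (c2 := 826 / 625) (by norm_num) (by norm_num)
    (by norm_num) (by norm_num) (by norm_num) (by norm_num) (by norm_num)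
    (by norm_num [S7]) (by norm_num [S7])

theorem hv_57 : (4599217 / 10000000 : ℝ) ≤ hb (8185977 / 12500000) ∧ hb (8185977 / 12500000) ≤ (2299629 / 5000000 : ℝ) :=
  hb_val (k1 := 0) (k2 := (-2)) (c1 := 20685977 / 12500000) (c2 := 4314023 / 3125000) (by norm_num) (by norm_num)
    (by norm_num) (by norm_num) (by norm_num) (by norm_num) (by norm_num)
    (by norm_num [S7]) (by norm_num [S7])

theorem hv_58 : (3312983 / 10000000 : ℝ) ≤ hb (7943 / 10000) ∧ hb (7943 / 10000) ≤ (25883 / 78125 : ℝ) :=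
  hb_val (k1 := 0) (k2 := (-3)) (c1 := 17943 / 10000) (c2 := 2057 / 1250) (by norm_num) (by norm_num)
    (by norm_num) (by norm_num) (by norm_num) (by norm_num) (by norm_num)
    (by norm_num [S7]) (by norm_num [S7])

theorem hv_59 : (696613 / 2500000 : ℝ) ≤ hb (8401 / 10000) ∧ hb (8401 / 10000) ≤ (2786493 / 10000000 : ℝ) :=
  hb_val (k1 := 0) (k2 := (-3)) (c1 := 18401 / 10000) (c2 := 1599 / 1250) (by norm_num) (by norm_num)
    (by norm_num) (by norm_num) (by norm_num) (by norm_num) (by norm_num)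
    (by norm_num [S7]) (by norm_num [S7])

theorem hv_60 : (2267163 / 5000000 : ℝ) ≤ hb (16577041 / 25000000) ∧ hb (16577041 / 25000000) ≤ (4534367 / 10000000 : ℝ) :=
  hb_val (k1 := 0) (k2 := (-2)) (c1 := 41577041 / 25000000) (c2 := 8422959 / 6250000) (by norm_num) (by norm_num)
    (by norm_num) (by norm_num) (by norm_num) (by norm_num) (by norm_num)
    (by norm_num [S7]) (by norm_num [S7])

theorem hv_61 : (406763 / 1250000 : ℝ) ≤ hb (7997 / 10000) ∧ hb (7997 / 10000) ≤ (650829 / 2000000 : ℝ) :=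
  hb_val (k1 := 0) (k2 := (-3)) (c1 := 17997 / 10000) (c2 := 2003 / 1250) (by norm_num) (by norm_num)
    (by norm_num) (by norm_num) (by norm_num) (by norm_num) (by norm_num)
    (by norm_num [S7]) (by norm_num [S7])

theorem hv_62 : (2718749 / 10000000 : ℝ) ≤ hb (1057 / 1250) ∧ hb (1057 / 1250) ≤ (271879 / 1000000 : ℝ) :=
  hb_val (k1 := 0) (k2 := (-3)) (c1 := 2307 / 1250) (c2 := 772 / 625) (by norm_num) (by norm_num)
    (by norm_num) (by norm_num) (by norm_num) (by norm_num) (by norm_num)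
    (by norm_num [S7]) (by norm_num [S7])

theorem hv_63 : (4463817 / 10000000 : ℝ) ≤ hb (67182797 / 100000000) ∧ hb (67182797 / 100000000) ≤ (2231929 / 5000000 : ℝ) :=
  hb_val (k1 := 0) (k2 := (-2)) (c1 := 167182797 / 100000000) (c2 := 32817203 / 25000000) (by norm_num) (by norm_num)
    (by norm_num) (by norm_num) (by norm_num) (by norm_num) (by norm_num)
    (by norm_num [S7]) (by norm_num [S7])

theorem hv_64 : (199303 / 625000 : ℝ) ≤ hb (1007 / 1250) ∧ hb (1007 / 1250) ≤ (3188889 / 10000000 : ℝ) :=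
  hb_val (k1 := 0) (k2 := (-3)) (c1 := 2257 / 1250) (c2 := 972 / 625) (by norm_num) (by norm_num)
    (by norm_num) (by norm_num) (by norm_num) (by norm_num) (by norm_num)
    (by norm_num [S7]) (by norm_num [S7])

theorem hv_65 : (2646203 / 10000000 : ℝ) ≤ hb (4257 / 5000) ∧ hb (4257 / 5000) ≤ (661561 / 2500000 : ℝ) :=
  hb_val (k1 := 0) (k2 := (-3)) (c1 := 9257 / 5000) (c2 := 743 / 625) (by norm_num) (by norm_num)
    (by norm_num) (by norm_num) (by norm_num) (by norm_num) (by norm_num)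
    (by norm_num [S7]) (by norm_num [S7])

theorem hv_66 : (1096647 / 2500000 : ℝ) ≤ hb (1064399 / 1562500) ∧ hb (1064399 / 1562500) ≤ (4386629 / 10000000 : ℝ) :=
  hb_val (k1 := 0) (k2 := (-2)) (c1 := 2626899 / 1562500) (c2 := 498101 / 390625) (by norm_num) (by norm_num)
    (by norm_num) (by norm_num) (by norm_num) (by norm_num) (by norm_num)
    (by norm_num [S7]) (by norm_num [S7])

theorem hv_67 : (195021 / 625000 : ℝ) ≤ hb (8117 / 10000) ∧ hb (8117 / 10000) ≤ (3120377 / 10000000 : ℝ) :=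
  hb_val (k1 := 0) (k2 := (-3)) (c1 := 18117 / 10000) (c2 := 1883 / 1250) (by norm_num) (by norm_num)
    (by norm_num) (by norm_num) (by norm_num) (by norm_num) (by norm_num)
    (by norm_num [S7]) (by norm_num [S7])

theorem hv_68 : (2569867 / 10000000 : ℝ) ≤ hb (4287 / 5000) ∧ hb (4287 / 5000) ≤ (642477 / 2500000 : ℝ) :=
  hb_val (k1 := 0) (k2 := (-3)) (c1 := 9287 / 5000) (c2 := 713 / 625) (by norm_num) (by norm_num)
    (by norm_num) (by norm_num) (by norm_num) (by norm_num) (by norm_num)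
    (by norm_num [S7]) (by norm_num [S7])

theorem hv_69 : (134489 / 312500 : ℝ) ≤ hb (34554069 / 50000000) ∧ hb (34554069 / 50000000) ≤ (4303689 / 10000000 : ℝ) :=
  hb_val (k1 := 0) (k2 := (-2)) (c1 := 84554069 / 50000000) (c2 := 15445931 / 12500000) (by norm_num) (by norm_num)
    (by norm_num) (by norm_num) (by norm_num) (by norm_num) (by norm_num)
    (by norm_num [S7]) (by norm_num [S7])

theorem hv_70 : (152249 / 500000 : ℝ) ≤ hb (8183 / 10000) ∧ hb (8183 / 10000) ≤ (3045021 / 10000000 : ℝ) :=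
  hb_val (k1 := 0) (k2 := (-3)) (c1 := 18183 / 10000) (c2 := 1817 / 1250) (by norm_num) (by norm_num)
    (by norm_num) (by norm_num) (by norm_num) (by norm_num) (by norm_num)
    (by norm_num [S7]) (by norm_num [S7])

theorem hv_71 : (9953 / 40000 : ℝ) ≤ hb (8637 / 10000) ∧ hb (8637 / 10000) ≤ (2488291 / 10000000 : ℝ) :=
  hb_val (k1 := 0) (k2 := (-3)) (c1 := 18637 / 10000) (c2 := 1363 / 1250) (by norm_num) (by norm_num)
    (by norm_num) (by norm_num) (by norm_num) (by norm_num) (by norm_num)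
    (by norm_num [S7]) (by norm_num [S7])

theorem hv_72 : (2106539 / 5000000 : ℝ) ≤ hb (35080521 / 50000000) ∧ hb (35080521 / 50000000) ≤ (4213119 / 10000000 : ℝ) :=
  hb_val (k1 := 0) (k2 := (-2)) (c1 := 85080521 / 50000000) (c2 := 14919479 / 12500000) (by norm_num) (by norm_num)
    (by norm_num) (by norm_num) (by norm_num) (by norm_num) (by norm_num)
    (by norm_num [S7]) (by norm_num [S7])

theorem hv_73 : (2964787 / 10000000 : ℝ) ≤ hb (2063 / 2500) ∧ hb (2063 / 2500) ≤ (741207 / 2500000 : ℝ) :=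
  hb_val (k1 := 0) (k2 := (-3)) (c1 := 4563 / 2500) (c2 := 874 / 625) (by norm_num) (by norm_num)
    (by norm_num) (by norm_num) (by norm_num) (by norm_num) (by norm_num)
    (by norm_num [S7]) (by norm_num [S7])

theorem hv_74 : (600601 / 2500000 : ℝ) ≤ hb (4351 / 5000) ∧ hb (4351 / 5000) ≤ (480489 / 2000000 : ℝ) :=
  hb_val (k1 := 0) (k2 := (-3)) (c1 := 9351 / 5000) (c2 := 649 / 625) (by norm_num) (by norm_num)
    (by norm_num) (by norm_num) (by norm_num) (by norm_num) (by norm_num)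
    (by norm_num [S7]) (by norm_num [S7])

theorem hv_75 : (2057549 / 5000000 : ℝ) ≤ hb (17818131 / 25000000) ∧ hb (17818131 / 25000000) ≤ (4115139 / 10000000 : ℝ) :=
  hb_val (k1 := 0) (k2 := (-2)) (c1 := 42818131 / 25000000) (c2 := 7181869 / 6250000) (by norm_num) (by norm_num)
    (by norm_num) (by norm_num) (by norm_num) (by norm_num) (by norm_num)
    (by norm_num [S7]) (by norm_num [S7])

theorem hv_76 : (2878319 / 10000000 : ℝ) ≤ hb (333 / 400) ∧ hb (333 / 400) ≤ (71959 / 250000 : ℝ) :=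
  hb_val (k1 := 0) (k2 := (-3)) (c1 := 733 / 400) (c2 := 67 / 50) (by norm_num) (by norm_num)
    (by norm_num) (by norm_num) (by norm_num) (by norm_num) (by norm_num)
    (by norm_num [S7]) (by norm_num [S7])

theorem hv_77 : (1156727 / 5000000 : ℝ) ≤ hb (548 / 625) ∧ hb (548 / 625) ≤ (462699 / 2000000 : ℝ) :=
  hb_val (k1 := 0) (k2 := (-4)) (c1 := 1173 / 625) (c2 := 1232 / 625) (by norm_num) (by norm_num)
    (by norm_num) (by norm_num) (by norm_num) (by norm_num) (by norm_num)
    (by norm_num [S7]) (by norm_num [S7])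

theorem hv_78 : (501137 / 1250000 : ℝ) ≤ hb (1448883 / 2000000) ∧ hb (1448883 / 2000000) ≤ (4009137 / 10000000 : ℝ) :=
  hb_val (k1 := 0) (k2 := (-2)) (c1 := 3448883 / 2000000) (c2 := 551117 / 500000) (by norm_num) (by norm_num)
    (by norm_num) (by norm_num) (by norm_num) (by norm_num) (by norm_num)
    (by norm_num [S7]) (by norm_num [S7])

theorem hv_79 : (2219837 / 10000000 : ℝ) ≤ hb (2209 / 2500) ∧ hb (2209 / 2500) ≤ (1109939 / 5000000 : ℝ) :=
  hb_val (k1 := 0) (k2 := (-4)) (c1 := 4709 / 2500) (c2 := 1164 / 625) (by norm_num) (by norm_num)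
    (by norm_num) (by norm_num) (by norm_num) (by norm_num) (by norm_num)
    (by norm_num [S7]) (by norm_num [S7])

theorem hv_80 : (3896039 / 10000000 : ℝ) ≤ hb (1150937 / 1562500) ∧ hb (1150937 / 1562500) ≤ (48701 / 125000 : ℝ) :=
  hb_val (k1 := 0) (k2 := (-2)) (c1 := 2713437 / 1562500) (c2 := 411563 / 390625) (by norm_num) (by norm_num)
    (by norm_num) (by norm_num) (by norm_num) (by norm_num) (by norm_num)
    (by norm_num [S7]) (by norm_num [S7])

theorem hv_81 : (21511 / 80000 : ℝ) ≤ hb (106 / 125) ∧ hb (106 / 125) ≤ (672229 / 2500000 : ℝ) :=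
  hb_val (k1 := 0) (k2 := (-3)) (c1 := 231 / 125) (c2 := 152 / 125) (by norm_num) (by norm_num)
    (by norm_num) (by norm_num) (by norm_num) (by norm_num) (by norm_num)
    (by norm_num [S7]) (by norm_num [S7])

theorem hv_82 : (1061343 / 5000000 : ℝ) ≤ hb (1781 / 2000) ∧ hb (1781 / 2000) ≤ (2122727 / 10000000 : ℝ) :=
  hb_val (k1 := 0) (k2 := (-4)) (c1 := 3781 / 2000) (c2 := 219 / 125) (by norm_num) (by norm_num)
    (by norm_num) (by norm_num) (by norm_num) (by norm_num) (by norm_num)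
    (by norm_num [S7]) (by norm_num [S7])

theorem hv_83 : (943639 / 2500000 : ℝ) ≤ hb (117077 / 156250) ∧ hb (117077 / 156250) ≤ (3774597 / 10000000 : ℝ) :=
  hb_val (k1 := 0) (k2 := (-2)) (c1 := 273327 / 156250) (c2 := 78346 / 78125) (by norm_num) (by norm_num)
    (by norm_num) (by norm_num) (by norm_num) (by norm_num) (by norm_num)
    (by norm_num [S7]) (by norm_num [S7])

theorem hv_84 : (2585241 / 10000000 : ℝ) ≤ hb (4281 / 5000) ∧ hb (4281 / 5000) ≤ (1292641 / 5000000 : ℝ) :=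
  hb_val (k1 := 0) (k2 := (-3)) (c1 := 9281 / 5000) (c2 := 719 / 625) (by norm_num) (by norm_num)
    (by norm_num) (by norm_num) (by norm_num) (by norm_num) (by norm_num)
    (by norm_num [S7]) (by norm_num [S7])

theorem hv_85 : (2023233 / 10000000 : ℝ) ≤ hb (4487 / 5000) ∧ hb (4487 / 5000) ≤ (1011637 / 5000000 : ℝ) :=
  hb_val (k1 := 0) (k2 := (-4)) (c1 := 9487 / 5000) (c2 := 1026 / 625) (by norm_num) (by norm_num)
    (by norm_num) (by norm_num) (by norm_num) (by norm_num) (by norm_num)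
    (by norm_num [S7]) (by norm_num [S7])

theorem hv_86 : (364479 / 1000000 : ℝ) ≤ hb (7624461 / 10000000) ∧ hb (7624461 / 10000000) ≤ (3644831 / 10000000 : ℝ) :=
  hb_val (k1 := 0) (k2 := (-3)) (c1 := 17624461 / 10000000) (c2 := 2375539 / 1250000) (by norm_num) (by norm_num)
    (by norm_num) (by norm_num) (by norm_num) (by norm_num) (by norm_num)
    (by norm_num [S7]) (by norm_num [S7])

theorem hv_87 : (154861 / 625000 : ℝ) ≤ hb (1729 / 2000) ∧ hb (1729 / 2000) ≤ (2477817 / 10000000 : ℝ) :=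
  hb_val (k1 := 0) (k2 := (-3)) (c1 := 3729 / 2000) (c2 := 271 / 250) (by norm_num) (by norm_num)
    (by norm_num) (by norm_num) (by norm_num) (by norm_num) (by norm_num)
    (by norm_num [S7]) (by norm_num [S7])

theorem hv_88 : (959919 / 5000000 : ℝ) ≤ hb (2261 / 2500) ∧ hb (2261 / 2500) ≤ (1919879 / 10000000 : ℝ) :=
  hb_val (k1 := 0) (k2 := (-4)) (c1 := 4761 / 2500) (c2 := 956 / 625) (by norm_num) (by norm_num)
    (by norm_num) (by norm_num) (by norm_num) (by norm_num) (by norm_num)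
    (by norm_num [S7]) (by norm_num [S7])

theorem hv_89 : (3508791 / 10000000 : ℝ) ≤ hb (7758023 / 10000000) ∧ hb (7758023 / 10000000) ≤ (109651 / 312500 : ℝ) :=
  hb_val (k1 := 0) (k2 := (-3)) (c1 := 17758023 / 10000000) (c2 := 2241977 / 1250000) (by norm_num) (by norm_num)
    (by norm_num) (by norm_num) (by norm_num) (by norm_num) (by norm_num)
    (by norm_num [S7]) (by norm_num [S7])

theorem hv_90 : (1181773 / 5000000 : ℝ) ≤ hb (8731 / 10000) ∧ hb (8731 / 10000) ≤ (2363587 / 10000000 : ℝ) :=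
  hb_val (k1 := 0) (k2 := (-3)) (c1 := 18731 / 10000) (c2 := 1269 / 1250) (by norm_num) (by norm_num)
    (by norm_num) (by norm_num) (by norm_num) (by norm_num) (by norm_num)
    (by norm_num [S7]) (by norm_num [S7])

theorem hv_91 : (453821 / 2500000 : ℝ) ≤ hb (9113 / 10000) ∧ hb (9113 / 10000) ≤ (72613 / 400000 : ℝ) :=
  hb_val (k1 := 0) (k2 := (-4)) (c1 := 19113 / 10000) (c2 := 887 / 625) (by norm_num) (by norm_num)
    (by norm_num) (by norm_num) (by norm_num) (by norm_num) (by norm_num)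
    (by norm_num [S7]) (by norm_num [S7])

theorem hv_92 : (3363247 / 10000000 : ℝ) ≤ hb (19740791 / 25000000) ∧ hb (19740791 / 25000000) ≤ (420411 / 1250000 : ℝ) :=
  hb_val (k1 := 0) (k2 := (-3)) (c1 := 44740791 / 25000000) (c2 := 5259209 / 3125000) (by norm_num) (by norm_num)
    (by norm_num) (by norm_num) (by norm_num) (by norm_num) (by norm_num)
    (by norm_num [S7]) (by norm_num [S7])

theorem hv_93 : (1123101 / 5000000 : ℝ) ≤ hb (8817 / 10000) ∧ hb (8817 / 10000) ≤ (2246243 / 10000000 : ℝ) :=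
  hb_val (k1 := 0) (k2 := (-4)) (c1 := 18817 / 10000) (c2 := 1183 / 625) (by norm_num) (by norm_num)
    (by norm_num) (by norm_num) (by norm_num) (by norm_num) (by norm_num)
    (by norm_num [S7]) (by norm_num [S7])

theorem hv_94 : (1707919 / 10000000 : ℝ) ≤ hb (4591 / 5000) ∧ hb (4591 / 5000) ≤ (42699 / 250000 : ℝ) :=
  hb_val (k1 := 0) (k2 := (-4)) (c1 := 9591 / 5000) (c2 := 818 / 625) (by norm_num) (by norm_num)
    (by norm_num) (by norm_num) (by norm_num) (by norm_num) (by norm_num)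
    (by norm_num [S7]) (by norm_num [S7])

theorem hv_95 : (1606131 / 5000000 : ℝ) ≤ hb (80349321 / 100000000) ∧ hb (80349321 / 100000000) ≤ (3212303 / 10000000 : ℝ) :=
  hb_val (k1 := 0) (k2 := (-3)) (c1 := 180349321 / 100000000) (c2 := 19650679 / 12500000) (by norm_num) (by norm_num)
    (by norm_num) (by norm_num) (by norm_num) (by norm_num) (by norm_num)
    (by norm_num [S7]) (by norm_num [S7])

theorem hv_96 : (212411 / 1000000 : ℝ) ≤ hb (1113 / 1250) ∧ hb (1113 / 1250) ≤ (2124151 / 10000000 : ℝ) :=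
  hb_val (k1 := 0) (k2 := (-4)) (c1 := 2363 / 1250) (c2 := 1096 / 625) (by norm_num) (by norm_num)
    (by norm_num) (by norm_num) (by norm_num) (by norm_num) (by norm_num)
    (by norm_num [S7]) (by norm_num [S7])

theorem hv_97 : (1600761 / 10000000 : ℝ) ≤ hb (9249 / 10000) ∧ hb (9249 / 10000) ≤ (800401 / 5000000 : ℝ) :=
  hb_val (k1 := 0) (k2 := (-4)) (c1 := 19249 / 10000) (c2 := 751 / 625) (by norm_num) (by norm_num)
    (by norm_num) (by norm_num) (by norm_num) (by norm_num) (by norm_num)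
    (by norm_num [S7]) (by norm_num [S7])

theorem hv_98 : (3053433 / 10000000 : ℝ) ≤ hb (5109783 / 6250000) ∧ hb (5109783 / 6250000) ≤ (1526737 / 5000000 : ℝ) :=
  hb_val (k1 := 0) (k2 := (-3)) (c1 := 11359783 / 6250000) (c2 := 1140217 / 781250) (by norm_num) (by norm_num)
    (by norm_num) (by norm_num) (by norm_num) (by norm_num) (by norm_num)
    (by norm_num [S7]) (by norm_num [S7])

theorem hv_99 : (1998361 / 10000000 : ℝ) ≤ hb (8991 / 10000) ∧ hb (8991 / 10000) ≤ (999201 / 5000000 : ℝ) :=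
  hb_val (k1 := 0) (k2 := (-4)) (c1 := 18991 / 10000) (c2 := 1009 / 625) (by norm_num) (by norm_num)
    (by norm_num) (by norm_num) (by norm_num) (by norm_num) (by norm_num)
    (by norm_num [S7]) (by norm_num [S7])

theorem hv_100 : (298433 / 2000000 : ℝ) ≤ hb (1863 / 2000) ∧ hb (1863 / 2000) ≤ (746103 / 5000000 : ℝ) :=
  hb_val (k1 := 0) (k2 := (-4)) (c1 := 3863 / 2000) (c2 := 137 / 125) (by norm_num) (by norm_num)
    (by norm_num) (by norm_num) (by norm_num) (by norm_num) (by norm_num)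
    (by norm_num [S7]) (by norm_num [S7])

theorem hv_101 : (2889339 / 10000000 : ℝ) ≤ hb (83157759 / 100000000) ∧ hb (83157759 / 100000000) ≤ (144469 / 500000 : ℝ) :=
  hb_val (k1 := 0) (k2 := (-3)) (c1 := 183157759 / 100000000) (c2 := 16842241 / 12500000) (by norm_num) (by norm_num)
    (by norm_num) (by norm_num) (by norm_num) (by norm_num) (by norm_num)
    (by norm_num [S7]) (by norm_num [S7])

theorem hv_102 : (1870171 / 10000000 : ℝ) ≤ hb (9077 / 10000) ∧ hb (9077 / 10000) ≤ (467553 / 2500000 : ℝ) :=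
  hb_val (k1 := 0) (k2 := (-4)) (c1 := 19077 / 10000) (c2 := 923 / 625) (by norm_num) (by norm_num)
    (by norm_num) (by norm_num) (by norm_num) (by norm_num) (by norm_num)
    (by norm_num [S7]) (by norm_num [S7])

theorem hv_103 : (1383713 / 10000000 : ℝ) ≤ hb (9379 / 10000) ∧ hb (9379 / 10000) ≤ (691877 / 5000000 : ℝ) :=
  hb_val (k1 := 0) (k2 := (-5)) (c1 := 19379 / 10000) (c2 := 1242 / 625) (by norm_num) (by norm_num)
    (by norm_num) (by norm_num) (by norm_num) (by norm_num) (by norm_num)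
    (by norm_num [S7]) (by norm_num [S7])

theorem hv_104 : (271971 / 1000000 : ℝ) ≤ hb (16910451 / 20000000) ∧ hb (16910451 / 20000000) ≤ (2719751 / 10000000 : ℝ) :=
  hb_val (k1 := 0) (k2 := (-3)) (c1 := 36910451 / 20000000) (c2 := 3089549 / 2500000) (by norm_num) (by norm_num)
    (by norm_num) (by norm_num) (by norm_num) (by norm_num) (by norm_num)
    (by norm_num [S7]) (by norm_num [S7])

theorem hv_105 : (348181 / 2000000 : ℝ) ≤ hb (9161 / 10000) ∧ hb (9161 / 10000) ≤ (870473 / 5000000 : ℝ) :=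
  hb_val (k1 := 0) (k2 := (-4)) (c1 := 19161 / 10000) (c2 := 839 / 625) (by norm_num) (by norm_num)
    (by norm_num) (by norm_num) (by norm_num) (by norm_num) (by norm_num)
    (by norm_num [S7]) (by norm_num [S7])

theorem hv_106 : (1277177 / 10000000 : ℝ) ≤ hb (118 / 125) ∧ hb (118 / 125) ≤ (638609 / 5000000 : ℝ) :=
  hb_val (k1 := 0) (k2 := (-5)) (c1 := 243 / 125) (c2 := 224 / 125) (by norm_num) (by norm_num)
    (by norm_num) (by norm_num) (by norm_num) (by norm_num) (by norm_num)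
    (by norm_num [S7]) (by norm_num [S7])

theorem hv_107 : (636643 / 2500000 : ℝ) ≤ hb (85921019 / 100000000) ∧ hb (85921019 / 100000000) ≤ (2546613 / 10000000 : ℝ) :=
  hb_val (k1 := 0) (k2 := (-3)) (c1 := 185921019 / 100000000) (c2 := 14078981 / 12500000) (by norm_num) (by norm_num)
    (by norm_num) (by norm_num) (by norm_num) (by norm_num) (by norm_num)
    (by norm_num [S7]) (by norm_num [S7])

theorem hv_108 : (13021 / 78125 : ℝ) ≤ hb (1151 / 1250) ∧ hb (1151 / 1250) ≤ (1666729 / 10000000 : ℝ) :=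
  hb_val (k1 := 0) (k2 := (-4)) (c1 := 2401 / 1250) (c2 := 792 / 625) (by norm_num) (by norm_num)
    (by norm_num) (by norm_num) (by norm_num) (by norm_num) (by norm_num)
    (by norm_num [S7]) (by norm_num [S7])

theorem hv_109 : (251879 / 2000000 : ℝ) ≤ hb (189 / 200) ∧ hb (189 / 200) ≤ (314859 / 2500000 : ℝ) :=
  hb_val (k1 := 0) (k2 := (-5)) (c1 := 389 / 200) (c2 := 44 / 25) (by norm_num) (by norm_num)
    (by norm_num) (by norm_num) (by norm_num) (by norm_num) (by norm_num)
    (by norm_num [S7]) (by norm_num [S7])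

theorem hv_110 : (1207627 / 5000000 : ℝ) ≤ hb (67909 / 78125) ∧ hb (67909 / 78125) ≤ (483059 / 2000000 : ℝ) :=
  hb_val (k1 := 0) (k2 := (-3)) (c1 := 146034 / 78125) (c2 := 81728 / 78125) (by norm_num) (by norm_num)
    (by norm_num) (by norm_num) (by norm_num) (by norm_num) (by norm_num)
    (by norm_num [S7]) (by norm_num [S7])

end S3ns

end Vale.Agent.P322
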