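import Vale.Agent.P322.Interior

/-!
# P322: the induction with a generic potential; only pairs with `|a - b| ≤ 1` are needed,
because among the first two coordinates one can split along the one of smaller influence
-/

namespace Vale.Agent.P322

open Real Finset

noncomputable section

/-- The certificate for one induction step at the pair of means `(a,b)`, for the potential `K`. -/
def CertK (ρ : ℝ) (K : ℝ → ℝ) (a b : ℝ) : Prop :=
  ∃ g α β₁ β₂ : ℝ, 0 ≤ g ∧
    (∀ u v : ℝ, |u| ≤ 1 → |v| ≤ 1 → g * ((hb u + hb v) / 2) + α + β₁ * u + β₂ * v ≤ HS ρ u v) ∧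
    K ((a + b) / 2) ≤ g * ((K a + K b) / 2) + α + β₁ * a + β₂ * b

theorem CertK.swap {ρ : ℝ} {K : ℝ → ℝ} {a b : ℝ} (h : CertK ρ K a b) : CertK ρ K b a := by
  obtain ⟨g, α, β₁, β₂, hg, hpt, hfin⟩ := h
  refine ⟨g, α, β₂, β₁, hg, ?_, ?_⟩
  · intro u v hu hv
    have := hpt v u hv hu
    rw [HS_swap] at this
    linarith
  · rw [add_comm b a, add_comm (K b)]
    linarith

theorem CertK.neg {ρ : ℝ} {K : ℝ → ℝ} (hK : ∀ m, K (-m) = K m) {a b : ℝ} (h : CertK ρ K a b) :
    CertK ρ K (-a) (-b) := by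
  obtain ⟨g, α, β₁, β₂, hg, hpt, hfin⟩ := h
  refine ⟨g, α, -β₁, -β₂, hg, ?_, ?_⟩
  · intro u v hu hv
    have := hpt (-u) (-v) (by rwa [abs_neg]) (by rwa [abs_neg])
    rw [HS_neg, hb_neg, hb_neg] at this
    linarith
  · rw [hK, hK]
    have : (-a + -b) / 2 = -((a + b) / 2) := by ring
    rw [this, hK]
    linarith

/-- Admissible potentials. -/
structure Pot (ρ : ℝ) (K : ℝ → ℝ) : Prop where
  cont : Continuous K
  even : ∀ m, K (-m) = K m
  one : K 1 = 0
  zero : K 0 ≤ hb ρ
  le : ∀ m, |m| ≤ 1 → K m ≤ hb m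
  ge : ∀ m, |m| ≤ 1 → hb m - (log 2 - hb ρ) ≤ K m

/-- one induction step -/
theorem stepK {ρ : ℝ} {K : ℝ → ℝ} {n : ℕ} (U W : Cube n → ℝ) {a b : ℝ} (hcert : CertK ρ K a b)
    (hU : ∀ y, |U y| ≤ 1) (hW : ∀ y, |W y| ≤ 1)
    (hUa : (1 / 2 : ℝ) ^ n * ∑ y, U y = a) (hWb : (1 / 2 : ℝ) ^ n * ∑ y, W y = b)
    (hEa : K a ≤ (1 / 2 : ℝ) ^ n * ∑ y, hb (U y))
    (hEb : K b ≤ (1 / 2 : ℝ) ^ n * ∑ y, hb (W y)) :
    K ((a + b) / 2) ≤ (1 / 2 : ℝ) ^ n * ∑ y, HS ρ (U y) (W y) := by
  obtain ⟨g, α, β₁, β₂, hg, hpt, hfin⟩ := hcert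
  refine le_trans hfin ?_
  have hsum : (1 / 2 : ℝ) ^ n * ∑ y, (g * ((hb (U y) + hb (W y)) / 2) + α + β₁ * U y + β₂ * W y) ≤
      (1 / 2 : ℝ) ^ n * ∑ y, HS ρ (U y) (W y) := by
    apply mul_le_mul_of_nonneg_left _ (by positivity)
    apply Finset.sum_le_sum
    intro y _
    exact hpt _ _ (hU y) (hW y)
  refine le_trans ?_ hsum
  have hexp : (1 / 2 : ℝ) ^ n * ∑ y, (g * ((hb (U y) + hb (W y)) / 2) + α + β₁ * U y + β₂ * W y)
      = g * (((1 / 2 : ℝ) ^ n * ∑ y, hb (U y) + (1 / 2 : ℝ) ^ n * ∑ y, hb (W y)) / 2) + α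
        + β₁ * a + β₂ * b := by
    rw [← hUa, ← hWb]
    have hα : (1 / 2 : ℝ) ^ n * ∑ _y : Cube n, α = α := by
      rw [Finset.sum_const, nsmul_eq_mul, ← mul_assoc]
      have := card_cube n
      rw [Finset.card_univ, this, one_mul]
    have hsplit : ∑ y, (g * ((hb (U y) + hb (W y)) / 2) + α + β₁ * U y + β₂ * W y)
        = g / 2 * ∑ y, hb (U y) + g / 2 * ∑ y, hb (W y) + ∑ _y : Cube n, α
          + β₁ * ∑ y, U y + β₂ * ∑ y, W y := by
      rw [Finset.mul_sum, Finset.mul_sum, Finset.mul_sum, Finset.mul_sum,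
        ← Finset.sum_add_distrib, ← Finset.sum_add_distrib, ← Finset.sum_add_distrib,
        ← Finset.sum_add_distrib]
      apply Finset.sum_congr rfl
      intro y _
      ring
    rw [hsplit, mul_add, mul_add, mul_add, mul_add, hα]
    ring
  rw [hexp]
  have := mul_le_mul_of_nonneg_left (add_le_add hEa hEb) (by linarith : 0 ≤ g / 2)
  nlinarith [this]

theorem scaledK {K : ℝ → ℝ} (hKle : ∀ m, |m| ≤ 1 → K m ≤ hb m) {n : ℕ} {ε : ℝ} (hε0 : 0 ≤ ε)
    (hε1 : ε ≤ 1)
    (f : Cube n → Bool) (hf : K (mean f) ≤ (1 / 2 : ℝ) ^ n * ∑ y, hb (post ε f y)) {l : ℝ}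
    (hl0 : 0 < l) (hl1 : l < 1) :
    |sc (mean f) l * mean f| < 1 ∧ (∀ y, |sc (mean f) l * post ε f y| ≤ 1) ∧
    (1 / 2 : ℝ) ^ n * ∑ y, sc (mean f) l * post ε f y = sc (mean f) l * mean f ∧
    K (sc (mean f) l * mean f) ≤ (1 / 2 : ℝ) ^ n * ∑ y, hb (sc (mean f) l * post ε f y) := by
  have hmean := mean_post ε f
  refine ⟨?_, ?_, ?_, ?_⟩
  · unfold sc
    split_ifs with h
    · rwa [one_mul]
    · rw [abs_mul, abs_of_pos hl0]
      have := abs_mean_le f
      nlinarith [abs_nonneg (mean f)]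
  · intro y
    have := abs_post_le hε0 hε1 f y
    unfold sc
    split_ifs with h
    · rwa [one_mul]
    · rw [abs_mul, abs_of_pos hl0]
      nlinarith [abs_nonneg (post ε f y)]
  · rw [← Finset.mul_sum, ← hmean]
    ring
  · unfold sc
    split_ifs with h
    · simpa using hf
    · have hp := post_eq_of_mean hε0 hε1 f h
      simp only [hp]
      have hconst : ∀ s : ℝ, (1 / 2 : ℝ) ^ n * ∑ _y : Cube n, s = s := by
        intro s
        rw [Finset.sum_const, nsmul_eq_mul, ← mul_assoc, Finset.card_univ, card_cube n, one_mul]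
      rw [hconst]
      apply hKle
      rw [abs_mul, abs_of_pos hl0]
      have := abs_mean_le f
      nlinarith [abs_nonneg (mean f)]

theorem sc_sub_le {a b l : ℝ} (ha : |a| ≤ 1) (hb' : |b| ≤ 1) (hab : |a - b| ≤ 1) (hl0 : 0 < l)
    (hl1 : l < 1) : |sc a l * a - sc b l * b| ≤ 1 := by
  have key : ∀ x y : ℝ, |x| ≤ 1 → ¬ |x| < 1 → |y| < 1 → |x - y| ≤ 1 → |l * x - y| ≤ 1 := by
    intro x y hx hx' hy hxy
    have h3 : |x| = 1 := le_antisymm hx (not_lt.mp hx')
    rw [abs_le] at hxy ⊢
    rw [abs_lt] at hy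
    rcases eq_or_eq_neg_of_abs_eq h3 with h | h
    · rw [h] at hxy ⊢
      constructor <;> linarith
    · rw [h] at hxy ⊢
      constructor <;> linarith
  unfold sc
  split_ifs with h1 h2 h2
  · simpa using hab
  · rw [one_mul, abs_sub_comm]
    exact key b a hb' h2 h1 (by rw [abs_sub_comm]; exact hab)
  · rw [one_mul]
    exact key a b ha h1 h2 hab
  · rw [← mul_sub, abs_mul, abs_of_pos hl0]
    nlinarith [abs_nonneg (a - b)]

/-- the induction step, for `f` whose first coordinate has small influence -/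
theorem ent_step {ρ : ℝ} (h0 : 0 ≤ ρ) (h1 : ρ ≤ 1) {K : ℝ → ℝ} (hK : Pot ρ K)
    (hcert : ∀ a b : ℝ, |a| < 1 → |b| < 1 → |a - b| ≤ 1 → CertK ρ K a b) {n : ℕ}
    (ih : ∀ f : Cube n → Bool, K (mean f) ≤ Ent ((1 - ρ) / 2) f) (f : Cube (n + 1) → Bool)
    (hf : |mean (restr f true) - mean (restr f false)| ≤ 1) :
    K (mean f) ≤ Ent ((1 - ρ) / 2) f := by
  set ε := (1 - ρ) / 2 with hε
  have hε0 : 0 ≤ ε := by rw [hε]; linarith
  have hε1 : ε ≤ 1 := by rw [hε]; linarith
  set a := mean (restr f true) with ha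
  set b := mean (restr f false) with hb'
  rw [mean_succ, ← ha, ← hb', Ent_succ]
  set U : Cube n → ℝ := fun y => post ε (restr f true) y with hU
  set W : Cube n → ℝ := fun y => post ε (restr f false) y with hW
  have hEa : K a ≤ (1 / 2 : ℝ) ^ n * ∑ y, hb (U y) := ih (restr f true)
  have hEb : K b ≤ (1 / 2 : ℝ) ^ n * ∑ y, hb (W y) := ih (restr f false)
  have hsub : Set.Ioo (0:ℝ) 1 ⊆ {l : ℝ | K ((sc a l * a + sc b l * b) / 2) ≤
      (1 / 2 : ℝ) ^ n * ∑ y, HS ρ (sc a l * U y) (sc b l * W y)} := by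
    intro l hl
    obtain ⟨a1, a2, a3, a4⟩ := scaledK hK.le hε0 hε1 (restr f true) hEa hl.1 hl.2
    obtain ⟨b1, b2, b3, b4⟩ := scaledK hK.le hε0 hε1 (restr f false) hEb hl.1 hl.2
    exact stepK _ _ (hcert _ _ a1 b1
      (sc_sub_le (abs_mean_le _) (abs_mean_le _) hf hl.1 hl.2)) a2 b2 a3 b3 a4 b4
  have hclosed : IsClosed {l : ℝ | K ((sc a l * a + sc b l * b) / 2) ≤
      (1 / 2 : ℝ) ^ n * ∑ y, HS ρ (sc a l * U y) (sc b l * W y)} := by
    have ca := continuous_sc a
    have cb := continuous_sc b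
    apply isClosed_le
    · exact hK.cont.comp (by fun_prop)
    · apply Continuous.mul continuous_const
      apply continuous_finsetSum
      intro y _
      exact (continuous_HS' ρ).comp (by fun_prop :
        Continuous (fun l : ℝ => (sc a l * U y, sc b l * W y)))
  have hmem : (1:ℝ) ∈ closure (Set.Ioo (0:ℝ) 1) := by
    rw [closure_Ioo zero_ne_one]
    exact ⟨zero_le_one, le_refl _⟩
  have := hclosed.closure_subset_iff.mpr hsub hmem
  simp only [Set.mem_ofPred_eq, sc_one, one_mul] at this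
  exact this

/-! ### permuting coordinates -/

/-- precomposition with a permutation of the coordinates -/
def permf {n : ℕ} (σ : Equiv.Perm (Fin n)) (f : Cube n → Bool) : Cube n → Bool :=
  fun x => f (x ∘ σ)

/-- the action on the cube -/
def permc {n : ℕ} (σ : Equiv.Perm (Fin n)) : Cube n ≃ Cube n :=
  Equiv.arrowCongr σ.symm (Equiv.refl Bool)

theorem permc_apply {n : ℕ} (σ : Equiv.Perm (Fin n)) (x : Cube n) : permc σ x = x ∘ σ := by
  rfl

theorem chan_perm {n : ℕ} (ε : ℝ) (σ : Equiv.Perm (Fin n)) (x y : Cube n) :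
    chan ε (x ∘ σ) (y ∘ σ) = chan ε x y := by
  unfold chan
  exact Equiv.prod_comp σ (fun i => if x i = y i then 1 - ε else ε)

theorem mean_perm {n : ℕ} (σ : Equiv.Perm (Fin n)) (f : Cube n → Bool) :
    mean (permf σ f) = mean f := by
  unfold mean permf
  congr 1
  exact Equiv.sum_comp (permc σ) (fun x => sgn (f x))

theorem post_perm {n : ℕ} (ε : ℝ) (σ : Equiv.Perm (Fin n)) (f : Cube n → Bool) (y : Cube n) :
    post ε (permf σ f) y = post ε f (y ∘ σ) := by
  unfold post permf
  rw [← Equiv.sum_comp (permc σ) (fun x => chan ε x (y ∘ σ) * sgn (f x))]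
  apply Finset.sum_congr rfl
  intro x _
  rw [permc_apply, chan_perm]

theorem Ent_perm {n : ℕ} (ε : ℝ) (σ : Equiv.Perm (Fin n)) (f : Cube n → Bool) :
    Ent ε (permf σ f) = Ent ε f := by
  unfold Ent
  congr 1
  simp only [post_perm]
  exact Equiv.sum_comp (permc σ) (fun y => hb (post ε f y))

/-- the four quarter means control both influences -/
theorem influence_split {n : ℕ} (f : Cube (n + 2) → Bool) :
    |mean (restr f true) - mean (restr f false)| ≤ 1 ∨
    |mean (restr (permf (Equiv.swap 0 1) f) true) - mean (restr (permf (Equiv.swap 0 1) f) false)|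
      ≤ 1 := by
  set g := permf (Equiv.swap (0 : Fin (n + 2)) 1) f with hg
  have hrel : ∀ b c : Bool, ∀ x : Cube n,
      restr (restr g b) c x = restr (restr f c) b x := by
    intro b c x
    unfold restr
    rw [hg]
    unfold permf
    congr 1
    funext i
    simp only [Function.comp_apply]
    refine Fin.cases ?_ (fun j => ?_) i
    · rw [Equiv.swap_apply_left]
      rfl
    · refine Fin.cases ?_ (fun k => ?_) j
      · have : (Fin.succ 0 : Fin (n + 2)) = 1 := rfl
        rw [this, Equiv.swap_apply_right]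
        rfl
      · have h0 : (Fin.succ (Fin.succ k) : Fin (n + 2)) ≠ 0 := Fin.succ_ne_zero _
        have h1 : (Fin.succ (Fin.succ k) : Fin (n + 2)) ≠ 1 := by
          intro h
          have : (Fin.succ (Fin.succ k) : Fin (n + 2)) = Fin.succ 0 := h
          exact Fin.succ_ne_zero k (Fin.succ_injective _ this)
        rw [Equiv.swap_apply_of_ne_of_ne h0 h1]
        rfl
  have hm : ∀ b c : Bool, mean (restr (restr g b) c) = mean (restr (restr f c) b) := by
    intro b c
    congr 1
    funext x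
    exact hrel b c x
  rw [mean_succ (restr f true), mean_succ (restr f false), mean_succ (restr g true),
    mean_succ (restr g false), hm, hm, hm, hm]
  have a1 := abs_le.mp (abs_mean_le (restr (restr f true) true))
  have a2 := abs_le.mp (abs_mean_le (restr (restr f true) false))
  have a3 := abs_le.mp (abs_mean_le (restr (restr f false) true))
  have a4 := abs_le.mp (abs_mean_le (restr (restr f false) false))
  set x1 := mean (restr (restr f true) true)
  set x2 := mean (restr (restr f true) false)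
  set x3 := mean (restr (restr f false) true)
  set x4 := mean (restr (restr f false) false)
  by_contra hcon
  push Not at hcon
  obtain ⟨h1, h2⟩ := hcon
  rw [lt_abs] at h1 h2
  rcases h1 with h1 | h1 <;> rcases h2 with h2 | h2 <;> linarith

/-- the induction, with certificates for `|a - b| ≤ 1` only -/
theorem ent_geK {ρ : ℝ} (h0 : 0 ≤ ρ) (h1 : ρ ≤ 1) {K : ℝ → ℝ} (hK : Pot ρ K)
    (hcert : ∀ a b : ℝ, |a| < 1 → |b| < 1 → |a - b| ≤ 1 → CertK ρ K a b) :
    ∀ (n : ℕ) (f : Cube n → Bool), K (mean f) ≤ Ent ((1 - ρ) / 2) f := by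
  have hKneg : K (-1) = 0 := by rw [hK.even, hK.one]
  have hE : ∀ {n : ℕ} (f : Cube n → Bool), 0 ≤ Ent ((1 - ρ) / 2) f := by
    intro n f
    unfold Ent
    apply mul_nonneg (by positivity)
    apply Finset.sum_nonneg
    intro y _
    exact hb_nonneg (abs_post_le (by linarith) (by linarith) f y)
  have hz : ∀ f : Cube 0 → Bool, mean f = 1 ∨ mean f = -1 := by
    intro f
    have e : mean f = sgn (f default) := by
      unfold mean
      simp only [pow_zero, one_mul, Finset.univ_unique, Finset.sum_singleton]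
      exact congrArg sgn (congrArg f (Subsingleton.elim _ _))
    rw [e]
    cases f default
    · right; simp [sgn]
    · left; simp [sgn]
  intro n
  induction n using Nat.strong_induction_on with
  | _ n ih =>
    match n, ih with
    | 0, _ =>
      intro f
      have h2 : K (mean f) = 0 := by
        rcases hz f with h | h <;> rw [h]
        · exact hK.one
        · exact hKneg
      rw [h2]
      exact hE f
    | 1, _ =>
      intro f
      rw [mean_succ]
      rcases hz (restr f true) with h | h <;> rcases hz (restr f false) with h' | h'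
      · rw [h, h']
        have e : ((1:ℝ) + 1) / 2 = 1 := by norm_num
        rw [e, hK.one]
        exact hE f
      · rw [h, h']
        have e : ((1:ℝ) + -1) / 2 = 0 := by norm_num
        rw [e, Ent_succ]
        have hp : ∀ y, post ((1 - ρ) / 2) (restr f true) y = 1 := fun y => by
          rw [post_eq_of_mean (by linarith) (by linarith) _ (by rw [h]; norm_num), h]
        have hp' : ∀ y, post ((1 - ρ) / 2) (restr f false) y = -1 := fun y => by
          rw [post_eq_of_mean (by linarith) (by linarith) _ (by rw [h']; norm_num), h']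
        simp only [hp, hp']
        have hS : HS ρ 1 (-1) = hb ρ := by
          unfold HS
          have e1 : (1 + ρ) / 2 * 1 + (1 - ρ) / 2 * -1 = ρ := by ring
          have e2 : (1 - ρ) / 2 * 1 + (1 + ρ) / 2 * -1 = -ρ := by ring
          rw [e1, e2, hb_neg]
          ring
        rw [hS]
        simp only [pow_zero, one_mul, Finset.sum_const, Finset.card_univ, Fintype.card_unique,
          one_smul]
        exact hK.zero
      · rw [h, h']
        have e : ((-1:ℝ) + 1) / 2 = 0 := by norm_num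
        rw [e, Ent_succ]
        have hp : ∀ y, post ((1 - ρ) / 2) (restr f true) y = -1 := fun y => by
          rw [post_eq_of_mean (by linarith) (by linarith) _ (by rw [h]; norm_num), h]
        have hp' : ∀ y, post ((1 - ρ) / 2) (restr f false) y = 1 := fun y => by
          rw [post_eq_of_mean (by linarith) (by linarith) _ (by rw [h']; norm_num), h']
        simp only [hp, hp']
        have hS : HS ρ (-1) 1 = hb ρ := by
          unfold HS
          have e1 : (1 + ρ) / 2 * -1 + (1 - ρ) / 2 * 1 = -ρ := by ring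
          have e2 : (1 - ρ) / 2 * -1 + (1 + ρ) / 2 * 1 = ρ := by ring
          rw [e1, e2, hb_neg]
          ring
        rw [hS]
        simp only [pow_zero, one_mul, Finset.sum_const, Finset.card_univ, Fintype.card_unique,
          one_smul]
        exact hK.zero
      · rw [h, h']
        have e : ((-1:ℝ) + -1) / 2 = -1 := by norm_num
        rw [e, hKneg]
        exact hE f
    | (k + 2), ih =>
      intro f
      have ih' : ∀ f : Cube (k + 1) → Bool, K (mean f) ≤ Ent ((1 - ρ) / 2) f :=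
        ih (k + 1) (by omega)
      rcases influence_split f with h | h
      · exact ent_step h0 h1 hK hcert ih' f h
      · have := ent_step h0 h1 hK hcert ih' _ h
        rwa [mean_perm, Ent_perm] at this

/-- Courtade–Kumar for all `0 ≤ ρ ≤ 1`, from potentials and certificates for `0 < ρ < 1` and the
pairs `b < a < 1`, `0 ≤ a + b`, `a - b ≤ 1` -/
theorem ck_of_certK
    (h : ∀ ρ : ℝ, 0 < ρ → ρ < 1 → ∃ K : ℝ → ℝ, Pot ρ K ∧
      ∀ a b : ℝ, b < a → a < 1 → 0 ≤ a + b → a - b ≤ 1 → CertK ρ K a b)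
    {ρ : ℝ} (h0 : 0 ≤ ρ) (h1 : ρ ≤ 1) {n : ℕ} (f : Cube n → Bool) :
    mutualInfo (jointLaw ((1 - ρ) / 2) f) ≤ 1 - h2 ((1 - ρ) / 2) := by
  apply mi_le_iff h0 h1
  have hdiag : ∀ ρ : ℝ, 0 < ρ → ρ < 1 → ∀ K : ℝ → ℝ, ∀ a : ℝ, CertK ρ K a a := by
    intro ρ hρ0 hρ1 K a
    refine ⟨1, 0, 0, 0, zero_le_one, ?_, ?_⟩
    · intro u v hu hv
      rw [abs_le] at hu hv
      have hc : ConcaveOn ℝ (Set.Icc (-1:ℝ) 1) hb := by
        have h2 := Real.strictConcave_binEntropy.concaveOn
        refine ⟨convex_Icc _ _, ?_⟩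
        intro x hx y hy s t hs ht hst
        have h3 := h2.2 (x := (1 + x) / 2) ⟨by linarith [hx.1], by linarith [hx.2]⟩
          (y := (1 + y) / 2) ⟨by linarith [hy.1], by linarith [hy.2]⟩ hs ht hst
        unfold hb
        simp only [smul_eq_mul] at h3 ⊢
        have e : (1 + (s * x + t * y)) / 2 = s * ((1 + x) / 2) + t * ((1 + y) / 2) := by
          have : s * ((1 + x) / 2) + t * ((1 + y) / 2) = ((s + t) + (s * x + t * y)) / 2 := by ring
          rw [this, hst]
        rw [e]
        exact h3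
      have hmu : u ∈ Set.Icc (-1:ℝ) 1 := ⟨hu.1, hu.2⟩
      have hmv : v ∈ Set.Icc (-1:ℝ) 1 := ⟨hv.1, hv.2⟩
      have k1 := hc.2 hmu hmv (show 0 ≤ (1 + ρ) / 2 by linarith)
        (show 0 ≤ (1 - ρ) / 2 by linarith) (by ring)
      have k2 := hc.2 hmu hmv (show 0 ≤ (1 - ρ) / 2 by linarith)
        (show 0 ≤ (1 + ρ) / 2 by linarith) (by ring)
      simp only [smul_eq_mul] at k1 k2
      unfold HS
      linarith
    · have : (a + a) / 2 = a := by ring
      rw [this]
      linarith
  have hint : ∀ ρ : ℝ, 0 < ρ → ρ < 1 → hb (mean f) - (log 2 - hb ρ) ≤ Ent ((1 - ρ) / 2) f := by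
    intro ρ hρ0 hρ1
    obtain ⟨K, hK, hc⟩ := h ρ hρ0 hρ1
    have hcert : ∀ a b : ℝ, |a| < 1 → |b| < 1 → |a - b| ≤ 1 → CertK ρ K a b := by
      intro a b ha hb' hab1
      rw [abs_lt] at ha hb'
      rw [abs_le] at hab1
      rcases lt_trichotomy a b with hab | hab | hab
      · rcases le_total 0 (a + b) with hs | hs
        · exact (hc b a hab hb'.2 (by linarith) (by linarith)).swap
        · have := (hc (-a) (-b) (by linarith) (by linarith) (by linarith) (by linarith)).neg hK.even
          simpa using this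
      · rw [hab]; exact hdiag ρ hρ0 hρ1 K b
      · rcases le_total 0 (a + b) with hs | hs
        · exact hc a b hab ha.2 hs (by linarith)
        · have := ((hc (-b) (-a) (by linarith) (by linarith) (by linarith)
            (by linarith)).neg hK.even).swap
          simpa using this
    exact le_trans (hK.ge _ (abs_mean_le f)) (ent_geK hρ0.le hρ1.le hK hcert n f)
  have hclosed : IsClosed {ρ : ℝ | hb (mean f) - (log 2 - hb ρ) ≤ Ent ((1 - ρ) / 2) f} := by
    apply isClosed_le
    · have := continuous_hb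
      fun_prop
    · exact (continuous_Ent f).comp (by fun_prop)
  have hsub : Set.Ioo (0:ℝ) 1 ⊆ {ρ : ℝ | hb (mean f) - (log 2 - hb ρ) ≤ Ent ((1 - ρ) / 2) f} :=
    fun ρ hρ => hint ρ hρ.1 hρ.2
  have hmem : ρ ∈ closure (Set.Ioo (0:ℝ) 1) := by
    rw [closure_Ioo zero_ne_one]
    exact ⟨h0, h1⟩
  exact hclosed.closure_subset_iff.mpr hsub hmem

end

end Vale.Agent.P322
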