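import Vale.Agent.P322.Split
import Vale.Agent.P322.CertC1
import Vale.Agent.P322.S1

/-!
# P322: certificates for the two potentials
-/

namespace Vale.Agent.P322

open Real Finset

noncomputable section

theorem pot_HH {ρ : ℝ} (h0 : 0 ≤ ρ) (h1 : ρ ≤ 1) : Pot ρ (HH ρ) where
  cont := continuous_HH ρ
  even := HH_neg ρ
  one := HH_one ρ
  zero := by
    unfold HH kap
    rw [hb_zero]
    apply le_of_eq
    ring
  le := fun _ hm => HH_le_hb h0 h1 hm
  ge := fun _ hm => HH_ge h0 h1 hm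

/-- the quadratic potential -/
def KQ (ρ m : ℝ) : ℝ := hb ρ * (1 - m ^ 2)

theorem pot_KQ {ρ : ℝ} (h : hb ρ ≤ 1 / 2) : Pot ρ (KQ ρ) where
  cont := by unfold KQ; fun_prop
  even := fun m => by unfold KQ; rw [neg_sq]
  one := by unfold KQ; simp
  zero := by unfold KQ; simp
  le := fun m hm => by
    unfold KQ
    have h2 := hb_ge_half hm
    have h3 : m ^ 2 ≤ 1 := (sq_le_one_iff_abs_le_one m).mpr hm
    nlinarith
  ge := fun m hm => by
    unfold KQ
    have h2 := hb_le_sq hm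
    have h3 : 0 ≤ m ^ 2 := sq_nonneg m
    nlinarith

theorem Cert.toK {ρ a b : ℝ} (h : Cert ρ a b) : CertK ρ (HH ρ) a b := h

/-- elementary algebra behind (STAR) -/
theorem star_aux {H t T P Q : ℝ} (hH : 0 < H) (ht : 0 < t) (hT : 0 < T) (hP : 0 < P) (hQ : 0 ≤ Q)
    (h : T * Q = H * (1 - T ^ 2) * t) (hst : H ^ 2 * t ^ 2 ≤ P * (P - Q)) : H * t ≤ T * P := by
  by_contra hneg
  push Not at hneg
  have h7 : H * T ^ 2 * t + Q * T = H * t := by linarith
  have h8 : 0 < H * t := by positivity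
  have h9 : H * t * (T * P) ^ 2 < H * t * (H * t) ^ 2 := by
    apply mul_lt_mul_of_pos_left _ h8
    have : 0 < T * P := by positivity
    nlinarith
  have h10 : Q * (T * P) * P ≤ Q * (H * t) * P := by
    apply mul_le_mul_of_nonneg_right _ hP.le
    exact mul_le_mul_of_nonneg_left hneg.le hQ
  have h11 : H * t * P ^ 2 < H * t * (H * t) ^ 2 + Q * (H * t) * P := by
    have e : H * t * P ^ 2 = H * t * (T * P) ^ 2 + Q * (T * P) * P := by
      have : H * t * (T * P) ^ 2 + Q * (T * P) * P = (H * T ^ 2 * t + Q * T) * P ^ 2 := by ring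
      rw [this, h7]
    rw [e]
    linarith
  have h12 : H * t * (H ^ 2 * t ^ 2 + Q * P) ≤ H * t * P ^ 2 := by
    apply mul_le_mul_of_nonneg_left _ h8.le
    linarith
  have e2 : H * t * (H ^ 2 * t ^ 2 + Q * P) = H * t * (H * t) ^ 2 + Q * (H * t) * P := by ring
  linarith

/-- the certificate for the quadratic potential from the inequality (STAR) -/
theorem certK_star {ρ : ℝ} (hρ0 : 0 < ρ) (hρ1 : ρ < 1)
    (hstar : ∀ t : ℝ, 0 < t → t < 1 → 3 / 2 * hb ρ * t ≤ hb t →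
      (hb ρ) ^ 2 * t ^ 2 ≤ hb (ρ * t) * (hb (ρ * t) - hb t))
    {a b : ℝ} (hab : b < a) (hab1 : a - b ≤ 1) : CertK ρ (KQ ρ) a b := by
  have hhρ : 0 < hb ρ := by
    have := hb_ge_half (m := ρ) (by rw [abs_of_pos hρ0]; exact hρ1.le)
    nlinarith
  set T := (a - b) / 2 with hT
  have hT0 : 0 < T := by rw [hT]; linarith
  have hT1 : T ≤ 1 / 2 := by rw [hT]; linarith
  -- choice of `t`
  obtain ⟨t, ht0, ht1, ht⟩ : ∃ t : ℝ, 0 < t ∧ t < 1 ∧ T * hb t = hb ρ * (1 - T ^ 2) * t := by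
    set f : ℝ → ℝ := fun t => T * hb t - hb ρ * (1 - T ^ 2) * t with hf
    have hc : ContinuousOn f (Set.Icc 0 1) := by
      apply Continuous.continuousOn
      have := continuous_hb
      simp only [hf]
      fun_prop
    have h0 : 0 < f 0 := by
      simp only [hf, hb_zero, mul_zero, sub_zero]
      exact mul_pos hT0 (log_pos (by norm_num))
    have h1 : f 1 < 0 := by
      simp only [hf, hb_one, mul_zero, zero_sub, mul_one]
      have : 0 < 1 - T ^ 2 := by nlinarith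
      have := mul_pos hhρ this
      linarith
    obtain ⟨t, ht, ht'⟩ := intermediate_value_Icc' zero_le_one hc ⟨h1.le, h0.le⟩
    refine ⟨t, lt_of_le_of_ne ht.1 ?_, lt_of_le_of_ne ht.2 ?_, ?_⟩
    · intro h; rw [← h] at ht'; linarith
    · intro h; rw [h] at ht'; linarith
    · simp only [hf] at ht'; linarith
  have hcond : 3 / 2 * hb ρ * t ≤ hb t := by
    have h1 : 3 / 4 ≤ 1 - T ^ 2 := by nlinarith
    have h2 : T * (3 / 2 * hb ρ * t) ≤ T * hb t := by
      rw [ht]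
      have h3 : 0 < hb ρ * t := by positivity
      nlinarith
    exact le_of_mul_le_mul_left h2 hT0
  have hst := hstar t ht0 ht1 hcond
  -- the constant `g`
  have hlog : 0 < log 2 := log_pos (by norm_num)
  have hLt : 0 < La t := La_pos ht0 ht1
  have hLρ : La (ρ * t) < La t := La_rho_lt hρ0 hρ1 ht0 ht1
  obtain ⟨h3, h4⟩ := rho_mul_lt hρ0 hρ1.le (t := t) (by linarith) ht1
  have hLρ0 : 0 ≤ La (ρ * t) := La_nonneg h3 h4
  set g := (log 2 + La (ρ * t)) / (log 2 + La t) with hg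
  have hg0 : 0 < g := by rw [hg]; apply div_pos <;> linarith
  have hg1 : g < 1 := by rw [hg, div_lt_one (by linarith)]; linarith
  have hgeq : g * (log 2 + La t) = log 2 + La (ρ * t) := by
    rw [hg, div_mul_cancel₀]
    linarith
  have h0 : la ρ g t = (1 - g) * log 2 := by
    unfold la
    linear_combination hgeq
  have hK := S1_holds hρ0 hρ1 g t hg0 hg1 ht0 ht1 h0
  have htouch : ww ρ g t * t = hb (ρ * t) - g * hb t := by
    have k := mul_ww_sub_om (g := g) hρ0 hρ1.le (t := t) (by linarith) ht1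
    rw [hb_eq_log h3 h4, hb_eq_log (by linarith) ht1]
    unfold om at k
    linear_combination k + h0
  refine ⟨g, 0, ww ρ g t / 2, -(ww ρ g t / 2), hg0.le, ?_, ?_⟩
  · intro u v hu hv
    have := hK u v hu hv
    unfold FF at this
    linarith
  · -- the final inequality
    have hρt : 0 < hb (ρ * t) := by
      have := hb_ge_half (m := ρ * t) (by rw [abs_le]; constructor <;> linarith)
      have h5 : 0 < ρ * t := by positivity
      nlinarith
    have hTρ : hb ρ * t ≤ T * hb (ρ * t) :=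
      star_aux hhρ ht0 hT0 hρt (hb_nonneg (by rw [abs_of_pos ht0]; exact ht1.le)) ht hst
    have e1 : (KQ ρ a + KQ ρ b) / 2 = hb ρ * (1 - ((a + b) / 2) ^ 2 - T ^ 2) := by
      unfold KQ
      rw [hT]
      ring
    have e2 : 0 + ww ρ g t / 2 * a + -(ww ρ g t / 2) * b = ww ρ g t * T := by
      rw [hT]; ring
    have e3 : g * ((KQ ρ a + KQ ρ b) / 2) + 0 + ww ρ g t / 2 * a + -(ww ρ g t / 2) * b =
        g * (hb ρ * (1 - ((a + b) / 2) ^ 2 - T ^ 2)) + ww ρ g t * T := by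
      rw [e1, ← e2]; ring
    rw [e3]
    unfold KQ
    set m := (a + b) / 2
    -- `ww T ≥ hb ρ - g hb ρ (1 - T²)`
    have h13 : hb ρ - g * (hb ρ * (1 - T ^ 2)) ≤ ww ρ g t * T := by
      have h14 : t * (hb ρ - g * (hb ρ * (1 - T ^ 2))) ≤ t * (ww ρ g t * T) := by
        have e4 : t * (ww ρ g t * T) = T * hb (ρ * t) - g * (T * hb t) := by
          have : t * (ww ρ g t * T) = (ww ρ g t * t) * T := by ring
          rw [this, htouch]
          ring
        rw [e4, ht]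
        have e5 : t * (hb ρ - g * (hb ρ * (1 - T ^ 2))) =
          hb ρ * t - g * (hb ρ * (1 - T ^ 2) * t) := by ring
        rw [e5]
        linarith
      exact le_of_mul_le_mul_left h14 ht0
    have h15 : 0 ≤ (1 - g) * (hb ρ * m ^ 2) :=
      mul_nonneg (by linarith) (mul_nonneg hhρ.le (sq_nonneg m))
    have e6 : g * (hb ρ * (1 - m ^ 2 - T ^ 2)) =
      g * (hb ρ * (1 - T ^ 2)) - g * (hb ρ * m ^ 2) := by ring
    have e7 : (1 - g) * (hb ρ * m ^ 2) = hb ρ * m ^ 2 - g * (hb ρ * m ^ 2) := by ring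
    have e8 : hb ρ * (1 - m ^ 2) = hb ρ - hb ρ * m ^ 2 := by ring
    rw [e6, e8]
    rw [e7] at h15
    linarith

/-- The Courtade–Kumar inequality from the two scalar inequalities (A) and (STAR). -/
theorem ck_of_A_star (r : ℝ)
    (hA : ∀ ρ : ℝ, 0 < ρ → ρ < r → ρ < 1 → ∀ m T : ℝ, 0 ≤ m → 0 < T → T ≤ 1 / 2 → m + T < 1 →
      (kap ρ * T ^ 2 - ((1 + m) / 2 * WW ρ (T / (1 + m)) + (1 - m) / 2 * WW ρ (T / (1 - m)))) *
        (log (2 / (1 + m)) + La (T / (1 + m))) ≤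
      (La (T / (1 + m)) - La (ρ * (T / (1 + m)))) *
        (ρ ^ 2 * ((hb (m + T) + hb (m - T)) / 2) - kap ρ * (1 - m ^ 2 - T ^ 2)))
    (hB0 : ∀ ρ : ℝ, r ≤ ρ → ρ < 1 → hb ρ ≤ 1 / 2)
    (hB : ∀ ρ : ℝ, 0 < ρ → r ≤ ρ → ρ < 1 → ∀ t : ℝ, 0 < t → t < 1 → 3 / 2 * hb ρ * t ≤ hb t →
      (hb ρ) ^ 2 * t ^ 2 ≤ hb (ρ * t) * (hb (ρ * t) - hb t))
    {ρ : ℝ} (h0 : 0 ≤ ρ) (h1 : ρ ≤ 1) {n : ℕ} (f : Cube n → Bool) :
    mutualInfo (jointLaw ((1 - ρ) / 2) f) ≤ 1 - h2 ((1 - ρ) / 2) := by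
  apply ck_of_certK _ h0 h1
  intro ρ hρ0 hρ1
  rcases lt_or_ge ρ r with hr | hr
  · refine ⟨HH ρ, pot_HH hρ0.le hρ1.le, ?_⟩
    intro a b hab ha1 hs hd
    have h := cert_C1 hρ0 hρ1 (S1_holds hρ0 hρ1) (m := (a + b) / 2) (T := (a - b) / 2)
      (by linarith) (by linarith) (by linarith)
      (hA ρ hρ0 hr hρ1 _ _ (by linarith) (by linarith) (by linarith) (by linarith))
    have e1 : (a + b) / 2 + (a - b) / 2 = a := by ring
    have e2 : (a + b) / 2 - (a - b) / 2 = b := by ring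
    rw [e1, e2] at h
    exact h.toK
  · refine ⟨KQ ρ, pot_KQ (hB0 ρ hr hρ1), ?_⟩
    intro a b hab ha1 hs hd
    exact certK_star hρ0 hρ1 (hB ρ hρ0 hr hρ1) hab hd

end

end Vale.Agent.P322
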