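import Vale.Agent.P322.StarAsm

/-!
# P322: (S1), concavity in `ρ` of the function of (STAR)
-/

namespace Vale.Agent.P322

namespace ST

open Real Set

noncomputable section

theorem le_of_deriv_nonpos {f f' : ℝ → ℝ} {a b : ℝ} (hab : a ≤ b) (hc : ContinuousOn f (Icc a b))
    (hd : ∀ x ∈ Ioo a b, HasDerivAt f (f' x) x) (hn : ∀ x ∈ Ioo a b, f' x ≤ 0) : f b ≤ f a := by
  have h : AntitoneOn f (Icc a b) := by
    apply antitoneOn_of_deriv_nonpos (convex_Icc a b) hc
    · intro x hx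
      rw [interior_Icc] at hx
      exact (hd x hx).differentiableAt.differentiableWithinAt
    · intro x hx
      rw [interior_Icc] at hx
      rw [(hd x hx).deriv]
      exact hn x hx
  exact h (left_mem_Icc.mpr hab) (right_mem_Icc.mpr hab) hab

theorem le_of_deriv_nonneg {f f' : ℝ → ℝ} {a b : ℝ} (hab : a ≤ b) (hc : ContinuousOn f (Icc a b))
    (hd : ∀ x ∈ Ioo a b, HasDerivAt f (f' x) x) (hn : ∀ x ∈ Ioo a b, 0 ≤ f' x) : f a ≤ f b := by
  have h : MonotoneOn f (Icc a b) := by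
    apply monotoneOn_of_deriv_nonneg (convex_Icc a b) hc
    · intro x hx
      rw [interior_Icc] at hx
      exact (hd x hx).differentiableAt.differentiableWithinAt
    · intro x hx
      rw [interior_Icc] at hx
      rw [(hd x hx).deriv]
      exact hn x hx
  exact h (left_mem_Icc.mpr hab) (right_mem_Icc.mpr hab) hab

theorem continuous_Nath : Continuous fun t : ℝ => (1 - t ^ 2) * ath t := by
  have h1 : Continuous fun s : ℝ => (1 + s) * log (1 + s) :=
    Real.continuous_mul_log.comp (continuous_const.add continuous_id)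
  have h2 : Continuous fun s : ℝ => (1 - s) * log (1 - s) :=
    Real.continuous_mul_log.comp (continuous_const.sub continuous_id)
  have h3 : Continuous fun t : ℝ =>
      ((1 - t) * ((1 + t) * log (1 + t)) - (1 + t) * ((1 - t) * log (1 - t))) / 2 :=
    ((((continuous_const.sub continuous_id).mul h1)).sub
      ((continuous_const.add continuous_id).mul h2)).div_const 2
  refine h3.congr ?_
  intro t
  unfold ath
  ring

theorem hasDerivAt_hbn {t : ℝ} (h1 : -1 < t) (h2 : t < 1) : HasDerivAt hb (-ath t) t := by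
  have := hasDerivAt_hb h1 h2
  refine this.congr_deriv ?_
  unfold ath
  ring

theorem hasDerivAt_Nath {t : ℝ} (h1 : -1 < t) (h2 : t < 1) :
    HasDerivAt (fun t : ℝ => (1 - t ^ 2) * ath t) (1 - 2 * t * ath t) t := by
  have a1 : HasDerivAt (fun t : ℝ => 1 - t ^ 2) (-(2 * t)) t := by
    have := ((hasDerivAt_id t).pow 2).const_sub 1
    simpa using this
  have := a1.mul (hasDerivAt_ath h1 h2)
  refine this.congr_deriv ?_
  have := one_sub_sq_pos h1 h2
  field_simp
  ring

theorem hasSum_ath {x : ℝ} (h : |x| < 1) :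
    HasSum (fun k : ℕ => (1 / (2 * (k : ℝ) + 1)) * x ^ (2 * k + 1)) (ath x) := by
  have := (Real.hasSum_log_sub_log_of_abs_lt_one h).div_const 2
  refine (this.congr_fun ?_)
  intro k
  ring

theorem ath_ge {t : ℝ} (h0 : 0 ≤ t) (h1 : t < 1) : t + t ^ 3 / 3 ≤ ath t := by
  have hs := hasSum_ath (x := t) (by rw [abs_of_nonneg h0]; exact h1)
  have := sum_le_hasSum (Finset.range 2) (fun k _ => by positivity) hs
  rw [Finset.sum_range_succ, Finset.sum_range_one] at this
  norm_num at this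
  linarith

theorem ath_ge_self {t : ℝ} (h0 : 0 ≤ t) (h1 : t < 1) : t ≤ ath t := by
  have := ath_ge h0 h1
  have h2 : 0 ≤ t ^ 3 := by positivity
  linarith

/-- `t h(t) ≤ (1-t²) artanh t` -/
theorem hb_le_Nath {t : ℝ} (h0 : 0 < t) (h1 : t < 1) : t * hb t ≤ (1 - t ^ 2) * ath t := by
  have key := le_of_deriv_nonpos (f := fun x => (1 - x ^ 2) * ath x / x - hb x)
    (f' := fun x => (x - ath x) / x ^ 2) h1.le ?_ ?_ ?_
  · simp only [hb_one] at key
    norm_num at key
    have : hb t ≤ (1 - t ^ 2) * ath t / t := key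
    rw [le_div_iff₀ h0] at this
    linarith
  · apply ContinuousOn.sub
    · apply ContinuousOn.div continuous_Nath.continuousOn continuousOn_id
      intro x hx
      have := hx.1
      simp only [id]
      linarith
    · exact continuous_hb.continuousOn
  · intro x hx
    have hx0 : 0 < x := by linarith [hx.1]
    have a1 := (hasDerivAt_Nath (t := x) (by linarith) hx.2).div (hasDerivAt_id x) hx0.ne'
    have := a1.sub (hasDerivAt_hbn (t := x) (by linarith) hx.2)
    refine this.congr_deriv ?_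
    simp only [id]
    field_simp
    ring
  · intro x hx
    have hx0 : 0 < x := by linarith [hx.1]
    have := ath_ge_self hx0.le hx.2
    apply div_nonpos_of_nonpos_of_nonneg
    · linarith
    · positivity

/-- `h(t) ≤ (1-t²)(1/4 + artanh(t)/(2t))` -/
theorem hb_le_D1 {t : ℝ} (h0 : 0 < t) (h1 : t < 1) :
    2 * t * hb t ≤ (1 - t ^ 2) * (t / 2 + ath t) := by
  have key := le_of_deriv_nonpos
    (f := fun x => (1 - x ^ 2) / 4 + (1 - x ^ 2) * ath x / x / 2 - hb x)
    (f' := fun x => (1 - x ^ 2) * (x - ath x) / (2 * x ^ 2)) h1.le ?_ ?_ ?_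
  · simp only [hb_one] at key
    norm_num at key
    have h2 : hb t ≤ (1 - t ^ 2) / 4 + (1 - t ^ 2) * ath t / t / 2 := by linarith
    have h3 := mul_le_mul_of_nonneg_left h2 (by positivity : (0 : ℝ) ≤ 2 * t)
    have e : 2 * t * ((1 - t ^ 2) / 4 + (1 - t ^ 2) * ath t / t / 2) =
        (1 - t ^ 2) * (t / 2 + ath t) := by
      field_simp
      ring
    rw [e] at h3
    exact h3
  · apply ContinuousOn.sub
    · apply ContinuousOn.add
      · fun_prop
      · apply ContinuousOn.div_const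
        apply ContinuousOn.div continuous_Nath.continuousOn continuousOn_id
        intro x hx
        have := hx.1
        simp only [id]
        linarith
    · exact continuous_hb.continuousOn
  · intro x hx
    have hx0 : 0 < x := by linarith [hx.1]
    have a1 := ((hasDerivAt_Nath (t := x) (by linarith) hx.2).div
      (hasDerivAt_id x) hx0.ne').div_const 2
    have a2 : HasDerivAt (fun t : ℝ => (1 - t ^ 2) / 4) (-(2 * x) / 4) x := by
      have := (((hasDerivAt_id x).pow 2).const_sub 1).div_const 4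
      simpa using this
    have := (a2.add a1).sub (hasDerivAt_hbn (t := x) (by linarith) hx.2)
    refine this.congr_deriv ?_
    simp only [id]
    field_simp
    ring
  · intro x hx
    have hx0 : 0 < x := by linarith [hx.1]
    have := ath_ge_self hx0.le hx.2
    have h3 : 0 < 1 - x ^ 2 := one_sub_sq_pos (by linarith) hx.2
    apply div_nonpos_of_nonpos_of_nonneg
    · nlinarith
    · positivity

/-- `(1+t²) h(t) - t(1-t²) artanh t ≥ (1-t²)/2` -/
theorem hb_ge_D2 {t : ℝ} (h0 : 0 < t) (h1 : t < 1) :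
    (1 - t ^ 2) / 2 + t * ((1 - t ^ 2) * ath t) ≤ (1 + t ^ 2) * hb t := by
  have key := le_of_deriv_nonpos
    (f := fun x => (1 + x ^ 2) * hb x - x * ((1 - x ^ 2) * ath x) - (1 - x ^ 2) / 2)
    (f' := fun x => 2 * (x * hb x - (1 - x ^ 2) * ath x)) h1.le ?_ ?_ ?_
  · simp only [hb_one] at key
    norm_num at key
    linarith
  · apply ContinuousOn.sub
    · apply ContinuousOn.sub
      · exact ((continuous_const.add (continuous_pow 2)).mul continuous_hb).continuousOn
      · exact (continuous_id.mul continuous_Nath).continuousOn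
    · fun_prop
  · intro x hx
    have hx0 : 0 < x := by linarith [hx.1]
    have a0 : HasDerivAt (fun t : ℝ => 1 + t ^ 2) (2 * x) x := by
      have := ((hasDerivAt_id x).pow 2).const_add 1
      simpa using this
    have a1 := a0.mul (hasDerivAt_hbn (t := x) (by linarith) hx.2)
    have a2 := (hasDerivAt_id x).mul (hasDerivAt_Nath (t := x) (by linarith) hx.2)
    have a3 : HasDerivAt (fun t : ℝ => (1 - t ^ 2) / 2) (-(2 * x) / 2) x := by
      have := (((hasDerivAt_id x).pow 2).const_sub 1).div_const 2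
      simpa using this
    refine ((a1.sub a2).sub a3).congr_deriv ?_
    simp only [id]
    ring
  · intro x hx
    have hx0 : 0 < x := by linarith [hx.1]
    have := hb_le_Nath hx0 hx.2
    linarith

theorem Nath_le_self {t : ℝ} (h0 : 0 ≤ t) (h1 : t < 1) : (1 - t ^ 2) * ath t ≤ t := by
  have key := le_of_deriv_nonneg
    (f := fun x => x - (1 - x ^ 2) * ath x)
    (f' := fun x => 2 * x * ath x) h0 ?_ ?_ ?_
  · simp at key
    linarith
  · exact continuousOn_id.sub continuous_Nath.continuousOn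
  · intro x hx
    refine ((hasDerivAt_id x).sub
      (hasDerivAt_Nath (by linarith [hx.1]) (hx.2.trans h1))).congr_deriv ?_
    ring
  · intro x hx
    have := ath_ge_self hx.1.le (hx.2.trans h1)
    have hx0 := hx.1
    have : 0 ≤ ath x := by linarith
    positivity

/-- `h(t) ≥ (1-t²) log 2` -/
theorem hb_ge_log_two {t : ℝ} (h0 : 0 ≤ t) (h1 : t < 1) : (1 - t ^ 2) * log 2 ≤ hb t := by
  have key := le_of_deriv_nonneg
    (f := fun x => hb x / (1 - x ^ 2))
    (f' := fun x => (2 * x * hb x - (1 - x ^ 2) * ath x) / (1 - x ^ 2) ^ 2) h0 ?_ ?_ ?_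
  · simp only [hb_zero] at key
    norm_num at key
    rw [le_div_iff₀ (one_sub_sq_pos (by linarith) h1)] at key
    linarith
  · apply ContinuousOn.div continuous_hb.continuousOn (by fun_prop)
    intro x hx
    exact (one_sub_sq_pos (by linarith [hx.1]) (lt_of_le_of_lt hx.2 h1)).ne'
  · intro x hx
    have hx1 := hx.2.trans h1
    have hx0 := hx.1
    have a0 : HasDerivAt (fun t : ℝ => 1 - t ^ 2) (-(2 * x)) x := by
      have := ((hasDerivAt_id x).pow 2).const_sub 1
      simpa using this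
    refine ((hasDerivAt_hbn (by linarith) hx1).div a0
      (one_sub_sq_pos (by linarith) hx1).ne').congr_deriv ?_
    ring
  · intro x hx
    have hx1 := hx.2.trans h1
    have hx0 := hx.1
    have d2 := hb_ge_D2 hx0 hx1
    have d3 := Nath_le_self hx0.le hx1
    apply div_nonneg _ (by positivity)
    set A := (1 - x ^ 2) * ath x with hA
    -- (1+x²) (2 x h) ≥ 2x((1-x²)/2 + xA) and want ≥ (1+x²) A
    have h4 : 0 ≤ (1 + x ^ 2) * (2 * x * hb x - A) := by
      have h5 : 2 * x * ((1 - x ^ 2) / 2 + x * A) ≤ 2 * x * ((1 + x ^ 2) * hb x) :=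
        mul_le_mul_of_nonneg_left d2 (by linarith)
      have h6 : 0 ≤ (1 - x ^ 2) * (x - A) :=
        mul_nonneg (one_sub_sq_pos (by linarith) hx1).le (by linarith)
      nlinarith
    exact nonneg_of_mul_nonneg_right h4 (by positivity)

theorem hb_anti {x y : ℝ} (h0 : 0 ≤ x) (hxy : x ≤ y) (h1 : y ≤ 1) : hb y ≤ hb x := by
  apply le_of_deriv_nonpos (f := hb) (f' := fun x => -ath x) hxy continuous_hb.continuousOn
  · intro z hz
    exact hasDerivAt_hbn (by linarith [hz.1]) (by linarith [hz.2])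
  · intro z hz
    have := ath_ge_self (t := z) (by linarith [hz.1]) (by linarith [hz.2])
    linarith [hz.1]

theorem hb_pos {x : ℝ} (h0 : 0 ≤ x) (h1 : x < 1) : 0 < hb x := by
  have := hb_ge_log_two h0 h1
  have h2 : 0 < (1 - x ^ 2) * log 2 :=
    mul_pos (one_sub_sq_pos (by linarith) h1) (Real.log_pos (by norm_num))
  linarith

theorem concaveOn_hb' : ConcaveOn ℝ (Icc (0 : ℝ) 1) hb := by
  have h2 := Real.strictConcave_binEntropy.concaveOn
  refine ⟨convex_Icc 0 1, ?_⟩
  intro x hx y hy a b ha hb' hab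
  have hx' : (1 + x) / 2 ∈ Icc (0 : ℝ) 1 := ⟨by linarith [hx.1], by linarith [hx.2]⟩
  have hy' : (1 + y) / 2 ∈ Icc (0 : ℝ) 1 := ⟨by linarith [hy.1], by linarith [hy.2]⟩
  have := h2.2 hx' hy' ha hb' hab
  have e : (1 + (a • x + b • y)) / 2 = a • ((1 + x) / 2) + b • ((1 + y) / 2) := by
    simp only [smul_eq_mul]
    linear_combination (-1 / 2 : ℝ) * hab
  unfold hb
  rw [e]
  exact this

/-- in the range of (STAR), `t ≤ 2/(5-3ρ)` -/
theorem t_le {ρ t : ℝ} (hρ : 39 / 50 ≤ ρ) (hρ1 : ρ < 1) (h0 : 0 < t) (h1 : t < 1)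
    (h : 3 / 2 * hb ρ * t ≤ hb t) : t * (5 - 3 * ρ) ≤ 2 := by
  have hp := hb_pos (x := ρ) (by linarith) hρ1
  rcases le_or_gt ρ t with hc | hc
  · exfalso
    have h2 := hb_anti (by linarith) hc h1.le
    nlinarith
  · have hl0 : 0 < 1 - t := by linarith
    have hl1 : 0 < 1 - ρ := by linarith
    have hcc := concaveOn_hb'.2 (show t ∈ Icc (0 : ℝ) 1 from ⟨h0.le, h1.le⟩)
      (show (1 : ℝ) ∈ Icc (0 : ℝ) 1 from ⟨zero_le_one, le_rfl⟩)
      (show (0 : ℝ) ≤ (1 - ρ) / (1 - t) from div_nonneg hl1.le hl0.le)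
      (show (0 : ℝ) ≤ (ρ - t) / (1 - t) from div_nonneg (by linarith) hl0.le)
      (show (1 - ρ) / (1 - t) + (ρ - t) / (1 - t) = 1 from by field_simp; ring)
    simp only [smul_eq_mul, hb_one, mul_zero, add_zero, mul_one] at hcc
    have e : (1 - ρ) / (1 - t) * t + (ρ - t) / (1 - t) = ρ := by
      field_simp
      ring
    rw [e] at hcc
    have h5 : (1 - ρ) * hb t ≤ hb ρ * (1 - t) := by
      have : (1 - ρ) / (1 - t) * hb t = (1 - ρ) * hb t / (1 - t) := by ring
      rw [this, div_le_iff₀ hl0] at hcc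
      exact hcc
    have h6 : (1 - ρ) * (3 / 2 * hb ρ * t) ≤ hb ρ * (1 - t) :=
      (mul_le_mul_of_nonneg_left h hl1.le).trans h5
    have h7 : hb ρ * ((1 - ρ) * (3 / 2 * t)) ≤ hb ρ * (1 - t) := by linarith
    have h8 := le_of_mul_le_mul_left h7 hp
    linarith

/-- the second derivative is nonpositive -/
theorem d2_nonpos {ρ t : ℝ} (hρ : 39 / 50 ≤ ρ) (hρ1 : ρ < 1) (h0 : 0 < t) (h1 : t < 1)
    (ht : t * (5 - 3 * ρ) ≤ 2) :
    2 * t ^ 2 * ath (ρ * t) ^ 2 - t ^ 2 * (2 * hb (ρ * t) - hb t) / (1 - (ρ * t) ^ 2) -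
      2 * t ^ 2 * ath ρ ^ 2 + 2 * t ^ 2 * hb ρ / (1 - ρ ^ 2) ≤ 0 := by
  have hρ0 : 0 < ρ := by linarith
  have hN : 0 < 1 - ρ ^ 2 := one_sub_sq_pos (by linarith) hρ1
  set u := ρ * t with hu
  have hu0 : 0 < u := by positivity
  have hut : u ≤ t := by rw [hu]; nlinarith
  have hu1 : u < 1 := by linarith
  have hD : 0 < 1 - u ^ 2 := one_sub_sq_pos (by linarith) hu1
  have hg := ath_ge_self hρ0.le hρ1
  have hgu := ath_ge_self hu0.le hu1
  -- third term
  have k1 : log 2 ≤ (2 * hb u - hb t) / (1 - u ^ 2) := by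
    rw [le_div_iff₀ hD]
    have a1 := hb_ge_log_two hu0.le hu1
    have a2 := hb_anti hu0.le hut h1.le
    linarith
  have k2 : 2 * hb ρ / (1 - ρ ^ 2) ≤ 1 / 2 + ath ρ / ρ := by
    rw [div_le_iff₀ hN]
    have := hb_le_D1 hρ0 hρ1
    have e : (1 / 2 + ath ρ / ρ) * (1 - ρ ^ 2) = (1 - ρ ^ 2) * (ρ / 2 + ath ρ) / ρ := by
      field_simp
    rw [e, le_div_iff₀ hρ0]
    linarith
  -- difference of the artanh's
  have k3 : 0.37 ≤ ath ρ - ath u := by
    have hub : u * (5 - 3 * ρ) ≤ 2 * ρ := by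
      rw [hu]
      have := mul_le_mul_of_nonneg_left ht hρ0.le
      linarith
    have r1 : (1 + 4.68 / 13.12) / (1 - 4.68 / 13.12) * ((1 - ρ) * (1 + u)) ≤
        (1 + ρ) * (1 - u) := by
      have e : ((1 : ℝ) + 4.68 / 13.12) / (1 - 4.68 / 13.12) = 890 / 422 := by norm_num
      rw [e]
      -- (1+ρ)(1-u)·422 ≥ 890 (1-ρ)(1+u)
      have h5 : 0 < 5 - 3 * ρ := by linarith
      have h6 : 890 * ((1 - ρ) * (1 + u)) * (5 - 3 * ρ) ≤
          422 * ((1 + ρ) * (1 - u)) * (5 - 3 * ρ) := by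
        have e1 : 422 * ((1 + ρ) * (1 - u)) * (5 - 3 * ρ) -
            890 * ((1 - ρ) * (1 + u)) * (5 - 3 * ρ) =
            (422 * (1 + ρ) * (5 - 5 * ρ) - 890 * (1 - ρ) * (5 - ρ)) +
            (2 * ρ - u * (5 - 3 * ρ)) * (422 * (1 + ρ) + 890 * (1 - ρ)) := by ring
        have e2 : 0 ≤ 422 * (1 + ρ) * (5 - 5 * ρ) - 890 * (1 - ρ) * (5 - ρ) := by
          have : 422 * (1 + ρ) * (5 - 5 * ρ) - 890 * (1 - ρ) * (5 - ρ) =
            (1 - ρ) * (3000 * (ρ - 39 / 50)) := by ring
          rw [this]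
          apply mul_nonneg <;> linarith
        have e3 : 0 ≤ (2 * ρ - u * (5 - 3 * ρ)) * (422 * (1 + ρ) + 890 * (1 - ρ)) := by
          apply mul_nonneg <;> linarith
        linarith
      have h7 := le_of_mul_le_mul_right h6 h5
      linarith
    have hpos1 : (0 : ℝ) < (1 + 4.68 / 13.12) / (1 - 4.68 / 13.12) := by norm_num
    have p1 : (0 : ℝ) < 1 - ρ := by linarith
    have p2 : (0 : ℝ) < 1 + u := by linarith
    have p3 : (0 : ℝ) < 1 + ρ := by linarith
    have p4 : (0 : ℝ) < 1 - u := by linarith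
    have hlog := Real.log_le_log (mul_pos hpos1 (mul_pos p1 p2)) r1
    rw [Real.log_mul hpos1.ne' (mul_pos p1 p2).ne', Real.log_mul p1.ne' p2.ne',
      Real.log_mul p3.ne' p4.ne', Real.log_div (by norm_num) (by norm_num)] at hlog
    have hy := ath_ge (t := 4.68 / 13.12) (by norm_num) (by norm_num)
    unfold ath at hy ⊢
    norm_num at hy hlog ⊢
    linarith
  have k4 : ath ρ / ρ ≤ 1.2821 * ath ρ := by
    rw [div_le_iff₀ hρ0]
    nlinarith
  have k5 : 1.48 * ath ρ - 0.2738 ≤ 2 * (ath ρ ^ 2 - ath u ^ 2) := by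
    have : 0 ≤ (ath ρ - ath u - 0.37) * (ath ρ + ath u - 0.37) := by
      apply mul_nonneg
      · linarith
      · linarith
    nlinarith
  have hl := Real.log_two_gt_d9
  have k6 : 2 * ath u ^ 2 - (2 * hb u - hb t) / (1 - u ^ 2) - 2 * ath ρ ^ 2 +
      2 * hb ρ / (1 - ρ ^ 2) ≤ 0 := by
    have : 39 / 50 ≤ ath ρ := by linarith
    nlinarith
  have k7 := mul_nonpos_of_nonneg_of_nonpos (sq_nonneg t) k6
  calc 2 * t ^ 2 * ath u ^ 2 - t ^ 2 * (2 * hb u - hb t) / (1 - u ^ 2) -
      2 * t ^ 2 * ath ρ ^ 2 + 2 * t ^ 2 * hb ρ / (1 - ρ ^ 2)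
      = t ^ 2 * (2 * ath u ^ 2 - (2 * hb u - hb t) / (1 - u ^ 2) - 2 * ath ρ ^ 2 +
      2 * hb ρ / (1 - ρ ^ 2)) := by ring
    _ ≤ 0 := k7

theorem hasDerivAt_SS {t x : ℝ} (h0 : 0 < t) (h1 : t < 1) (hx0 : 0 < x) (hx1 : x < 1) :
    HasDerivAt (SS t) (-(2 * t) * hb (x * t) * ath (x * t) + t * hb t * ath (x * t) +
      2 * t ^ 2 * hb x * ath x) x := by
  have hxt : x * t < 1 := by nlinarith
  have hxt0 : 0 < x * t := by positivity
  have a1 : HasDerivAt (fun y : ℝ => y * t) t x := by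
    simpa using (hasDerivAt_id x).mul_const t
  have b2 := hasDerivAt_hbn (t := x * t) (by linarith) hxt
  have a2 : HasDerivAt (fun y : ℝ => hb (y * t)) (-ath (x * t) * t) x :=
    HasDerivAt.comp (h₂ := hb) (h := fun y : ℝ => y * t) x b2 a1
  have a3 := hasDerivAt_hbn (t := x) (by linarith) hx1
  have a4 := (a2.mul (a2.sub_const (hb t))).sub ((a3.pow 2).mul_const (t ^ 2))
  refine a4.congr_deriv ?_
  push_cast
  ring

theorem hasDerivAt_SS' {t x : ℝ} (h0 : 0 < t) (h1 : t < 1) (hx0 : 0 < x) (hx1 : x < 1) :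
    HasDerivAt (fun x => -(2 * t) * hb (x * t) * ath (x * t) + t * hb t * ath (x * t) +
      2 * t ^ 2 * hb x * ath x)
      (2 * t ^ 2 * ath (x * t) ^ 2 - t ^ 2 * (2 * hb (x * t) - hb t) / (1 - (x * t) ^ 2) -
      2 * t ^ 2 * ath x ^ 2 + 2 * t ^ 2 * hb x / (1 - x ^ 2)) x := by
  have hxt : x * t < 1 := by nlinarith
  have hxt0 : 0 < x * t := by positivity
  have a1 : HasDerivAt (fun y : ℝ => y * t) t x := by
    simpa using (hasDerivAt_id x).mul_const t
  have b2 := hasDerivAt_hbn (t := x * t) (by linarith) hxt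
  have a2 : HasDerivAt (fun y : ℝ => hb (y * t)) (-ath (x * t) * t) x :=
    HasDerivAt.comp (h₂ := hb) (h := fun y : ℝ => y * t) x b2 a1
  have a3 := hasDerivAt_hbn (t := x) (by linarith) hx1
  have b4 := hasDerivAt_ath (t := x * t) (by linarith) hxt
  have a4 : HasDerivAt (fun y : ℝ => ath (y * t)) (1 / (1 - (x * t) ^ 2) * t) x :=
    HasDerivAt.comp (h₂ := ath) (h := fun y : ℝ => y * t) x b4 a1
  have a5 := hasDerivAt_ath (t := x) (by linarith) hx1
  have a6 := (((a2.const_mul (-(2 * t))).mul a4).add (a4.const_mul (t * hb t))).add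
    ((a3.const_mul (2 * t ^ 2)).mul a5)
  refine a6.congr_deriv ?_
  ring

theorem continuous_SS (t : ℝ) : Continuous (SS t) := by
  have := continuous_hb
  unfold SS
  fun_prop

/-- (S1): concavity -/
theorem SS_concave : ∀ t ρ0 : ℝ, 0 < t → t < 1 → 39 / 50 ≤ ρ0 → ρ0 < 1 →
    3 / 2 * hb ρ0 * t ≤ hb t → ConcaveOn ℝ (Set.Icc ρ0 1) (SS t) := by
  intro t ρ0 h0 h1 hρ hρ1 hc
  have ht := t_le hρ hρ1 h0 h1 hc
  apply concaveOn_of_hasDerivWithinAt2_nonpos (convex_Icc ρ0 1)
    (f' := fun x => -(2 * t) * hb (x * t) * ath (x * t) + t * hb t * ath (x * t) +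
      2 * t ^ 2 * hb x * ath x)
    (f'' := fun x => 2 * t ^ 2 * ath (x * t) ^ 2 -
      t ^ 2 * (2 * hb (x * t) - hb t) / (1 - (x * t) ^ 2) -
      2 * t ^ 2 * ath x ^ 2 + 2 * t ^ 2 * hb x / (1 - x ^ 2))
  · exact (continuous_SS t).continuousOn
  · intro x hx
    rw [interior_Icc] at hx
    exact (hasDerivAt_SS h0 h1 (by linarith [hx.1]) hx.2).hasDerivWithinAt
  · intro x hx
    rw [interior_Icc] at hx
    exact (hasDerivAt_SS' h0 h1 (by linarith [hx.1]) hx.2).hasDerivWithinAt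
  · intro x hx
    rw [interior_Icc] at hx
    apply d2_nonpos (by linarith [hx.1]) hx.2 h0 h1
    nlinarith [hx.1]

end

end ST

export ST (SS_concave)

end Vale.Agent.P322
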