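import Vale.Agent.P322.Star

/-!
# P322: assembly of the inequality (STAR)
-/

namespace Vale.Agent.P322

open Real Finset

noncomputable section

/-- the function whose nonnegativity is (STAR) -/
def SS (t ρ : ℝ) : ℝ := hb (ρ * t) * (hb (ρ * t) - hb t) - (hb ρ) ^ 2 * t ^ 2

theorem hb_le_half {ρ : ℝ} (h : 39 / 50 ≤ ρ) (h1 : ρ < 1) : hb ρ ≤ 1 / 2 := by
  have h2 := hb_le_sq (m := ρ) (by rw [abs_of_nonneg (by linarith)]; exact h1.le)
  have h3 := Real.log_two_lt_d9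
  nlinarith

theorem SS_one (t : ℝ) : SS t 1 = 0 := by
  unfold SS
  simp

/-- (STAR) from the concavity (S1), the line (S2) and the curve (S3) -/
theorem star_of
    (hS1 : ∀ t ρ0 : ℝ, 0 < t → t < 1 → 39 / 50 ≤ ρ0 → ρ0 < 1 → 3 / 2 * hb ρ0 * t ≤ hb t →
      ConcaveOn ℝ (Set.Icc ρ0 1) (SS t))
    (hS2 : ∀ t : ℝ, 0 < t → t < 1 → 3 / 2 * hb (39 / 50) * t ≤ hb t →
      (hb (39 / 50)) ^ 2 * t ^ 2 ≤ hb (39 / 50 * t) * (hb (39 / 50 * t) - hb t))
    (hS3 : ∀ ρ t : ℝ, 39 / 50 ≤ ρ → ρ < 1 → 0 < t → t < 1 → hb t = 3 / 2 * hb ρ * t →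
      2 * hb ρ * t ≤ hb (ρ * t)) :
    ∀ ρ : ℝ, 0 < ρ → 39 / 50 ≤ ρ → ρ < 1 → ∀ t : ℝ, 0 < t → t < 1 → 3 / 2 * hb ρ * t ≤ hb t →
      (hb ρ) ^ 2 * t ^ 2 ≤ hb (ρ * t) * (hb (ρ * t) - hb t) := by
  intro ρ hρ0 hρ hρ1 t ht0 ht1 hcond
  -- it suffices to have a left end point
  have key : ∀ ρ0 : ℝ, 39 / 50 ≤ ρ0 → ρ0 ≤ ρ → 3 / 2 * hb ρ0 * t ≤ hb t → 0 ≤ SS t ρ0 →
      0 ≤ SS t ρ := by
    intro ρ0 h1 h2 h3 h4
    have hc := hS1 t ρ0 ht0 ht1 h1 (by linarith) h3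
    have hmin := hc.min_le_of_mem_Icc (x := ρ0) (y := 1) (z := ρ) ⟨le_refl _, by linarith⟩
      ⟨by linarith, le_refl _⟩ ⟨h2, hρ1.le⟩
    rw [SS_one] at hmin
    exact le_trans (le_min h4 (le_refl _)) hmin
  have goal : 0 ≤ SS t ρ := by
    rcases le_or_gt (3 / 2 * hb (39 / 50) * t) (hb t) with h | h
    · apply key (39 / 50) (le_refl _) hρ h
      have := hS2 t ht0 ht1 h
      unfold SS
      linarith
    · -- intermediate value
      set φ : ℝ → ℝ := fun r => 3 / 2 * hb r * t with hφ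
      have hcont : ContinuousOn φ (Set.Icc (39 / 50) ρ) := by
        apply Continuous.continuousOn
        have := continuous_hb
        simp only [hφ]
        fun_prop
      have hmem : hb t ∈ Set.Icc (φ ρ) (φ (39 / 50)) := ⟨hcond, h.le⟩
      obtain ⟨r, hr, hr'⟩ := intermediate_value_Icc' hρ hcont hmem
      simp only [hφ] at hr'
      apply key r hr.1 hr.2 hr'.le
      have h3 := hS3 r t hr.1 (by linarith [hr.2]) ht0 ht1 hr'.symm
      have hr1 : r < 1 := by linarith [hr.2]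
      have hr0 : 0 ≤ r := by linarith [hr.1]
      have hnn : 0 ≤ hb r := hb_nonneg (by rw [abs_of_nonneg hr0]; exact hr1.le)
      have hH : 0 ≤ hb r * t := mul_nonneg hnn ht0.le
      unfold SS
      rw [← hr']
      have e : hb (r * t) * (hb (r * t) - 3 / 2 * hb r * t) - hb r ^ 2 * t ^ 2 =
          (hb (r * t) - 2 * (hb r * t)) * (hb (r * t) + hb r * t / 2) := by ring
      rw [e]
      apply mul_nonneg
      · linarith
      · linarith
  unfold SS at goal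
  linarith

end

end Vale.Agent.P322
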